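import Claimed.Agent.R256.Act.Pkg
import Claimed.Agent.R256.Nm.Base
import Claimed.Agent.R256.Nm.FlatP

/-!
# Row 256, section Act, file 7a: DEFINITIONS of the supply contract      (chief helper277; split off `Act/Sup.lean` by helper189 for the IMPORT FLIP of the root contracts)

`S.AcGood`, `acParOf`, `acEqK`, `acLinK`, `acStrK`, `acHQ`, `acHC`, `acHL`, `acHA`, `acHK`.   The instance files `Lay/R*.lean` import this file + `Lay/Patch.lean`, state the root contracts VERBATIM; `Act/Sup.lean` imports them and cites.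
-/

set_option autoImplicit false

namespace Claimed.Agent.R256

open Claimed.Agent.R255
open MeasureTheory Filter Topology

/-! ## traces, packages -/

namespace NmSeq

variable {π : SfPar} {C0 : ℝ} {κ : ℝ → ℝ} (S : NmSeq π C0 κ)

/-- what the sequence carries (Nm/Contract.lean): (mem) along the sequence, deterministic profiles at the endpoint `1` -/
structure AcGood : Prop where
  hasX : S.HasX
  flat : S.Flat {1}
  /-- the rigidity exponents are positive (needed by names:separation: `mincost` is void for `κ τ ≤ 0`; added by helper189) -/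
  kpos : ∀ τ : ℝ, 0 < τ → 0 < κ τ
  /-- flatness off power-small sets (needed by E1 = Lemma act:stationary-boundary, helper279; supplied by `nm_seq`, kept by `nm_pclist`) -/
  flatP : S.FlatP (1 / 8) {1}

end NmSeq

section pk

variable {π : SfPar} {C0 : ℝ} {κ : ℝ → ℝ} (S : NmSeq π C0 κ) (Lip : ℝ)

/-- common parameters; the box is `0 ≤ v ≤ J + 1` -/
def acParOf (π : SfPar) (Lip : ℝ) : AcPar := ⟨π.η, π.Γ, π.d, π.J, π.hyb = true, Lip, π.J + 1⟩

/-- equality curvature -/
noncomputable def acEqK : AcEq where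
  toAcPar := acParOf π Lip
  c := π.c2
  EQ := fun t v => S.E ⟨nmDsEq π, NmTp.quad, 0⟩ (1 - t) v
  mQ := fun t v => S.m ⟨nmDsEq π, NmTp.quad, 0⟩ (1 - t) v
  EC := fun t v => S.E ⟨nmDsEq π, NmTp.clip, 0⟩ (1 - t) v
  mC := fun t v => S.m ⟨nmDsEq π, NmTp.clip, 0⟩ (1 - t) v
  pst := fun t => S.pst (nmDsEq π) (1 - t)
  ν := fun t => if π.c2 ≤ 1 then nmNu (S.HP (nmDsEq π)) π.b1 (1 - t) else 0

/-- pure linear cost -/
noncomputable def acLinK : AcLin where
  toAcPar := acParOf π Lip
  c := π.c1
  EL := fun t v => S.E ⟨nmDsLin, NmTp.plin, 0⟩ (1 - t) v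
  mL := fun t v => S.m ⟨nmDsLin, NmTp.plin, 0⟩ (1 - t) v
  ν := fun t => nmNu (S.HP nmDsLin) π.b1 (1 - t)

/-- strict curvature, artificial template ending at `D = 1` -/
noncomputable def acStrK : AcStr where
  toAcPar := acParOf π Lip
  q := π.q
  EA := fun t v => S.E ⟨nmDsStr π 1, NmTp.quad, 0⟩ (1 - t) v
  EK := fun t v => S.E ⟨nmDsStr π 1, NmTp.clip, 0⟩ (1 - t) v
  pst := fun t => S.pst (nmDsStr π 1) (1 - t)

end pk

theorem ac_sup_eqns_cite : True := by
  have := @acParOf.eq_1
  have := @acEqK.eq_1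
  have := @acLinK.eq_1
  have := @acStrK.eq_1
  trivial

section prof

variable {π : SfPar} {C0 : ℝ} {κ : ℝ → ℝ} (S : NmSeq π C0 κ)

/-- the profile of the unclipped quadratic template, backward time -/
noncomputable def acHQ (t v : ℝ) : ℝ := S.H ⟨nmDsEq π, NmTp.quad, 0⟩ (1 - t) v
/-- the profile of the clipped template, backward time -/
noncomputable def acHC (t v : ℝ) : ℝ := S.H ⟨nmDsEq π, NmTp.clip, 0⟩ (1 - t) v
/-- the profile of the pure linear template, backward time -/
noncomputable def acHL (t v : ℝ) : ℝ := S.H ⟨nmDsLin, NmTp.plin, 0⟩ (1 - t) v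
/-- the profile of the artificial quadratic template ending at `D = 1`, backward time -/
noncomputable def acHA (t v : ℝ) : ℝ := S.H ⟨nmDsStr π 1, NmTp.quad, 0⟩ (1 - t) v
/-- its clipped version -/
noncomputable def acHK (t v : ℝ) : ℝ := S.H ⟨nmDsStr π 1, NmTp.clip, 0⟩ (1 - t) v

end prof

theorem ac_sup_prof_eqns_cite : True := by
  have := @acHQ.eq_1
  have := @acHC.eq_1
  have := @acHL.eq_1
  have := @acHA.eq_1
  have := @acHK.eq_1
  trivial

end Claimed.Agent.R256
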