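import Claimed.Agent.R256.Act.Rest
import Claimed.Agent.R256.Nm.Contract
import Claimed.Agent.R256.Act.SupDefs
import Claimed.Agent.R256.Lay.RwMain
import Claimed.Agent.R256.Lay.RsMain
import Claimed.Agent.R256.Lay.RlMain
import Claimed.Agent.R256.Lay.RiStr
import Claimed.Agent.R256.Lay.LnMain
import Claimed.Agent.R256.Act.E2.Main

/-!
# Row 256, section Act, file 7: THE SUPPLY CONTRACT  (secs. 4, 6.1-6.4 ⟹ `K.Raw`)      (chief helper277)

The slot `X` of `SfExit` is `nmX` (Nm/X.lean, helper118) = Lemma low:memory ((mem) + prediction version) on `SfDoc`; the flattening of the final law is done by Nm (`sf_cond` + diagonal).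
`S.AcGood` = what the sequence of configurations carries;   `acEqK S`, `acLinK S`, `acStrK S` = THE packages, defined from the profiles of `Nm/Defs.lean` (backward time `t = 1 - a`).
Every `sorry` below is ONE named contract with OWNER and EST (lines).   The assembly `ac_sup_eq`, `ac_sup_lin`, `ac_sup_str` is proved.
-/

set_option autoImplicit false

namespace Claimed.Agent.R256

open Claimed.Agent.R255
open MeasureTheory Filter Topology

/-! ## the family -/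

/-- the body of `SfExit` for one affine family `π` -/
def SfFam (π : SfPar) (X : SfPar → SfDoc → ℝ → Prop) : Prop :=
  π.Valid ∧ ∃ (C0 : ℝ) (κ0 : ℝ → ℝ), (∀ τ : ℝ, 0 < τ → 0 < κ0 τ) ∧
    ∀ (F : Finset ℝ), (∀ i ∈ F, 0 ≤ i ∧ i ≤ 1) → ∀ t s0 : ℝ, 0 < t → 0 < s0 →
      ∃ D : SfDoc, D.s < s0 ∧ F ⊆ D.G ∧ (∀ τ : ℝ, 0 < τ → D.Ok π C0 τ (κ0 τ) t) ∧ X π D t

theorem sfExit_fam (hyb : Bool) (η Γ : ℝ) (X : SfPar → SfDoc → ℝ → Prop) (h : SfExit hyb η Γ X) :
    ∃ π : SfPar, SfFam π X ∧ π.hyb = hyb ∧ π.η = η ∧ π.Γ = Γ := by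
  obtain ⟨π, hv, h1, h2, h3, hC⟩ := h
  exact ⟨π, ⟨hv, hC⟩, h1, h2, h3⟩

theorem ac_fam_eqns_cite : True := by
  have := @SfFam.eq_1
  trivial

/-! ## THE NAMED CONTRACTS -/

/-- **C0 (sequence + flattening)** = `nm_seq` (Nm/Contract.lean) at the endpoint `1`. -/
theorem ac_seq (π : SfPar) (h : SfFam π nmX) : ∃ (C0 : ℝ) (κ : ℝ → ℝ) (S : NmSeq π C0 κ), S.AcGood := by
  obtain ⟨hπ, C0, κ0, hκ, hE⟩ := h
  obtain ⟨S, hX, hF, hFP⟩ := nm_seq π hπ C0 κ0 hκ hE {1} (Set.countable_singleton 1)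
  exact ⟨C0, _, S, hX, hF, fun τ hτ => half_pos (hκ τ hτ), hFP⟩

/-! ### small profile facts (paper free: R255/Ent, R255/Base/Ulim, nested cells `nmCell`) -/

/-- LEAF L-256-ACT-RJ.   OWNER helper277, EST 250 lines.   `R_j` is nondecreasing and 1-Lipschitz (cells are nested; a cell of depth `x` contains `≤ 2 s^(x-x')` cells of depth `x'`; `UBdd` from `Core.bdd`). -/
theorem ac_Rj_basic {π : SfPar} {C0 : ℝ} {κ : ℝ → ℝ} (S : NmSeq π C0 κ) (j x x' : ℝ) (h : x ≤ x') :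
    0 ≤ S.Rj j x' - S.Rj j x ∧ S.Rj j x' - S.Rj j x ≤ x' - x := by
  exact nm_pc_Rj S j x x' h

/-- LEAF L-256-ACT-HP.   OWNER helper277, EST 300 lines.   The mixed profile: increments in `x` lie in `[0, x' - x]` and decrease with `z`; nonincreasing in `z`. -/
theorem ac_HP_basic {π : SfPar} {C0 : ℝ} {κ : ℝ → ℝ} (S : NmSeq π C0 κ) (ds : NmDs) :
    (∀ z x x' : ℝ, x ≤ x' → 0 ≤ S.HP ds x' z - S.HP ds x z ∧ S.HP ds x' z - S.HP ds x z ≤ x' - x) ∧
    (∀ z z' x x' : ℝ, z ≤ z' → x ≤ x' → S.HP ds x' z' - S.HP ds x z' ≤ S.HP ds x' z - S.HP ds x z) ∧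
    (∀ x z z' : ℝ, z ≤ z' → S.HP ds x z' ≤ S.HP ds x z) := by
  exact nm_pc_HP S ds

/-- the difference quotients lie in `[0,1]` -/
theorem ac_nu_aux_q (H : ℝ → ℝ → ℝ) (h1 : ∀ z x x' : ℝ, x ≤ x' → 0 ≤ H x' z - H x z ∧ H x' z - H x z ≤ x' - x) (b a h : ℝ) (hh : 0 < h) :
    0 ≤ (H (b + h) a - H b a) / h ∧ (H (b + h) a - H b a) / h ≤ 1 := by
  obtain ⟨e1, e2⟩ := h1 a b (b + h) (by linarith)
  refine ⟨div_nonneg e1 hh.le, ?_⟩
  rw [div_le_one hh]
  linarith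

theorem ac_nu_aux_bdd (H : ℝ → ℝ → ℝ) (h1 : ∀ z x x' : ℝ, x ≤ x' → 0 ≤ H x' z - H x z ∧ H x' z - H x z ≤ x' - x) (b a : ℝ) :
    IsBoundedUnder (· ≤ ·) (𝓝[>] (0 : ℝ)) (fun h : ℝ => (H (b + h) a - H b a) / h) ∧
    IsCoboundedUnder (· ≤ ·) (𝓝[>] (0 : ℝ)) (fun h : ℝ => (H (b + h) a - H b a) / h) := by
  constructor
  · exact isBoundedUnder_of_eventually_le (a := 1) (by
      filter_upwards [self_mem_nhdsWithin] with h hh
      exact (ac_nu_aux_q H h1 b a h hh).2)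
  · exact isCoboundedUnder_le_of_eventually_le (x := 0) _ (by
      filter_upwards [self_mem_nhdsWithin] with h hh
      exact (ac_nu_aux_q H h1 b a h hh).1)

/-- joint measurability -/
theorem ac_nu_aux_joint (H : ℝ → ℝ → ℝ) (h1 : ∀ z x x' : ℝ, x ≤ x' → 0 ≤ H x' z - H x z ∧ H x' z - H x z ≤ x' - x)
    (h2 : ∀ x z z' : ℝ, z ≤ z' → H x z' ≤ H x z) : Measurable (Function.uncurry H) := by
  apply measurable_uncurry_of_continuous_of_measurable
  · intro z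
    have hl : LipschitzWith 1 fun x => H x z := by
      apply LipschitzWith.of_dist_le_mul
      intro x y
      rw [Real.dist_eq, Real.dist_eq, NNReal.coe_one, one_mul]
      rcases le_total x y with hxy | hxy
      · obtain ⟨e1, e2⟩ := h1 z x y hxy
        rw [abs_sub_comm, abs_of_nonneg e1, abs_sub_comm, abs_of_nonneg (by linarith)]
        exact e2
      · obtain ⟨e1, e2⟩ := h1 z y x hxy
        rw [abs_of_nonneg e1, abs_of_nonneg (by linarith)]
        exact e2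
    exact hl.continuous
  · intro x
    have : Antitone (H x) := fun z z' hz => h2 x z z' hz
    exact this.measurable

/-- a bound of the quotients at the rational increments passes to all increments -/
theorem ac_nu_aux_dense (H : ℝ → ℝ → ℝ) (h1 : ∀ z x x' : ℝ, x ≤ x' → 0 ≤ H x' z - H x z ∧ H x' z - H x z ≤ x' - x) (b a c δ : ℝ)
    (hr : ∀ r : ℚ, 0 < (r : ℝ) → (r : ℝ) < δ → (H (b + r) a - H b a) / r ≤ c) (h : ℝ) (hh : 0 < h) (hδ : h < δ) : (H (b + h) a - H b a) / h ≤ c := by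
  rw [div_le_iff₀ hh]
  by_contra hcon
  push Not at hcon
  -- a rational slightly above `h`
  obtain ⟨r, hr1, hr2⟩ := exists_rat_btwn (show h < min δ (h + (H (b + h) a - H b a - c * h) / (|c| + 1)) by
    apply lt_min hδ
    have : 0 < (H (b + h) a - H b a - c * h) / (|c| + 1) := div_pos (by linarith) (by positivity)
    linarith)
  have hr0 : 0 < (r : ℝ) := hh.trans hr1
  have h3 := hr r hr0 (hr2.trans_le (min_le_left _ _))
  rw [div_le_iff₀ hr0] at h3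
  have h4 := (h1 a (b + h) (b + r) (by linarith)).1
  have h5 : (r : ℝ) - h < (H (b + h) a - H b a - c * h) / (|c| + 1) := by
    have := hr2.trans_le (min_le_right _ _)
    linarith
  rw [lt_div_iff₀ (by positivity)] at h5
  have h6 : c * ((r : ℝ) - h) ≤ |c| * ((r : ℝ) - h) := mul_le_mul_of_nonneg_right (le_abs_self c) (by linarith)
  nlinarith

/-- LEAF L-256-ACT-NUM.   OWNER helper277, EST 300 lines, Mathlib only.   The upper mixed trace on an affine graph is measurable and lies in `[0,1]`.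
(`H` is jointly measurable: Lipschitz in `x`, monotone in `z`; the `limsup` may be taken over rational `h`.) -/
theorem ac_nu_meas (H : ℝ → ℝ → ℝ) (B0 c' : ℝ)
    (h1 : ∀ z x x' : ℝ, x ≤ x' → 0 ≤ H x' z - H x z ∧ H x' z - H x z ≤ x' - x)
    (h2 : ∀ x z z' : ℝ, z ≤ z' → H x z' ≤ H x z) :
    Measurable (fun a => nmNu H (fun z => B0 + c' * z) a) ∧
      ∀ a, 0 ≤ nmNu H (fun z => B0 + c' * z) a ∧ nmNu H (fun z => B0 + c' * z) a ≤ 1 := by
  have hJ := ac_nu_aux_joint H h1 h2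
  constructor
  · apply measurable_of_Iio
    intro t
    have e : (fun a => nmNu H (fun z => B0 + c' * z) a) ⁻¹' Set.Iio t
        = ⋃ c : ℚ, ⋃ n : ℕ, {a : ℝ | (c : ℝ) < t ∧ ∀ r : ℚ, 0 < (r : ℝ) → (r : ℝ) < 1 / ((n : ℝ) + 1) → (H (B0 + c' * a + r) a - H (B0 + c' * a) a) / r ≤ c} := by
      ext a
      simp only [Set.mem_preimage, Set.mem_Iio, Set.mem_iUnion, Set.mem_ofPred_eq]
      constructor
      · intro ha
        obtain ⟨c, hc1, hc2⟩ := exists_rat_btwn ha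
        have hev := eventually_lt_of_limsup_lt hc1 (ac_nu_aux_bdd H h1 (B0 + c' * a) a).1
        rw [(nhdsGT_basis (0 : ℝ)).eventually_iff] at hev
        obtain ⟨δ, hδ, hev⟩ := hev
        obtain ⟨n, hn⟩ := exists_nat_one_div_lt hδ
        exact ⟨c, n, hc2, fun r hr0 hr1 => (hev ⟨hr0, hr1.trans hn⟩).le⟩
      · rintro ⟨c, n, hc, hr⟩
        refine lt_of_le_of_lt ?_ hc
        refine limsup_le_of_le (ac_nu_aux_bdd H h1 (B0 + c' * a) a).2 ?_
        rw [(nhdsGT_basis (0 : ℝ)).eventually_iff]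
        exact ⟨1 / ((n : ℝ) + 1), by positivity, fun h hh => ac_nu_aux_dense H h1 _ a c _ hr h hh.1 hh.2⟩
    rw [e]
    refine MeasurableSet.iUnion fun c => MeasurableSet.iUnion fun n => ?_
    by_cases hc : (c : ℝ) < t
    · have e2 : {a : ℝ | (c : ℝ) < t ∧ ∀ r : ℚ, 0 < (r : ℝ) → (r : ℝ) < 1 / ((n : ℝ) + 1) → (H (B0 + c' * a + r) a - H (B0 + c' * a) a) / r ≤ c}
          = ⋂ r : ℚ, {a : ℝ | 0 < (r : ℝ) → (r : ℝ) < 1 / ((n : ℝ) + 1) → (H (B0 + c' * a + r) a - H (B0 + c' * a) a) / r ≤ c} := by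
        ext a
        simp only [Set.mem_ofPred_eq, Set.mem_iInter]
        exact ⟨fun h => h.2, fun h => ⟨hc, h⟩⟩
      rw [e2]
      refine MeasurableSet.iInter fun r => ?_
      by_cases hr : 0 < (r : ℝ) ∧ (r : ℝ) < 1 / ((n : ℝ) + 1)
      · have e3 : {a : ℝ | 0 < (r : ℝ) → (r : ℝ) < 1 / ((n : ℝ) + 1) → (H (B0 + c' * a + r) a - H (B0 + c' * a) a) / r ≤ c}
            = {a : ℝ | (H (B0 + c' * a + r) a - H (B0 + c' * a) a) / r ≤ c} := by
          ext a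
          simp only [Set.mem_ofPred_eq]
          exact ⟨fun h => h hr.1 hr.2, fun h _ _ => h⟩
        rw [e3]
        have m1 : Measurable fun a : ℝ => H (B0 + c' * a + r) a := hJ.comp (show Measurable fun a : ℝ => (B0 + c' * a + (r : ℝ), a) by fun_prop)
        have m2 : Measurable fun a : ℝ => H (B0 + c' * a) a := hJ.comp (show Measurable fun a : ℝ => (B0 + c' * a, a) by fun_prop)
        exact measurableSet_le ((m1.sub m2).div_const _) measurable_const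
      · have e3 : {a : ℝ | 0 < (r : ℝ) → (r : ℝ) < 1 / ((n : ℝ) + 1) → (H (B0 + c' * a + r) a - H (B0 + c' * a) a) / r ≤ c} = Set.univ := by
          ext a
          simp only [Set.mem_ofPred_eq, Set.mem_univ, iff_true]
          exact fun h h' => absurd ⟨h, h'⟩ hr
        rw [e3]
        exact MeasurableSet.univ
    · have e2 : {a : ℝ | (c : ℝ) < t ∧ ∀ r : ℚ, 0 < (r : ℝ) → (r : ℝ) < 1 / ((n : ℝ) + 1) → (H (B0 + c' * a + r) a - H (B0 + c' * a) a) / r ≤ c} = ∅ := by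
        ext a
        simp only [Set.mem_ofPred_eq, Set.mem_empty_iff_false, iff_false]
        exact fun h => hc h.1
      rw [e2]
      exact MeasurableSet.empty
  · intro a
    constructor
    · refine le_limsup_of_frequently_le (Eventually.frequently ?_) (ac_nu_aux_bdd H h1 (B0 + c' * a) a).1
      filter_upwards [self_mem_nhdsWithin] with h hh
      exact (ac_nu_aux_q H h1 _ a h hh).1
    · refine limsup_le_of_le (ac_nu_aux_bdd H h1 (B0 + c' * a) a).2 ?_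
      filter_upwards [self_mem_nhdsWithin] with h hh
      exact (ac_nu_aux_q H h1 _ a h hh).2

/-! ### kit of `ac_eq_rnm` (helper61) -/

/-- `w(a,v)` is Lipschitz -/
theorem ac_rn_w_lip (π : SfPar) (q : NmQ) (a a' v v' : ℝ) :
    |q.w π a v - q.w π a' v'| ≤ (|q.ds.bs| + |π.q - π.J| + 2) * (|a - a'| + |v - v'|) := by
  have hb : q.ds.b a - q.ds.b a' = q.ds.bs * (a - a') := by
    unfold NmDs.b
    ring
  have hb1 : π.b1 a - π.b1 a' = (π.q - π.J) * (a - a') := by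
    unfold SfPar.b1
    ring
  have k1 : |q.ds.b a - q.ds.b a'| = |q.ds.bs| * |a - a'| := by rw [hb, abs_mul]
  have k2 : |π.b1 a - π.b1 a'| = |π.q - π.J| * |a - a'| := by rw [hb1, abs_mul]
  have n1 := abs_nonneg q.ds.bs
  have n2 := abs_nonneg (π.q - π.J)
  have n3 := abs_nonneg (a - a')
  have n4 := abs_nonneg (v - v')
  have p1 := mul_nonneg n1 n3
  have p2 := mul_nonneg n2 n3
  have p3 := mul_nonneg n1 n4
  have p4 := mul_nonneg n2 n4
  have e0 : (|q.ds.bs| + |π.q - π.J| + 2) * (|a - a'| + |v - v'|) = |q.ds.bs| * |a - a'| + |π.q - π.J| * |a - a'| + 2 * |a - a'|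
      + |q.ds.bs| * |v - v'| + |π.q - π.J| * |v - v'| + 2 * |v - v'| := by ring
  rw [e0]
  obtain ⟨ds, tp, g⟩ := q
  cases tp with
  | quad =>
    show |(ds.b a + 2 * v) - (ds.b a' + 2 * v')| ≤ _
    have e : (ds.b a + 2 * v) - (ds.b a' + 2 * v') = (ds.b a - ds.b a') + 2 * (v - v') := by ring
    have t1 := abs_add_le (ds.b a - ds.b a') (2 * (v - v'))
    have t2 : |2 * (v - v')| = 2 * |v - v'| := by rw [abs_mul, abs_two]
    rw [e]
    linarith
  | clip =>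
    show |(min (ds.b a + v) (π.b1 a) + v) - (min (ds.b a' + v') (π.b1 a') + v')| ≤ _
    have e : (min (ds.b a + v) (π.b1 a) + v) - (min (ds.b a' + v') (π.b1 a') + v')
        = (min (ds.b a + v) (π.b1 a) - min (ds.b a' + v') (π.b1 a')) + (v - v') := by ring
    have t1 := abs_add_le (min (ds.b a + v) (π.b1 a) - min (ds.b a' + v') (π.b1 a')) (v - v')
    have t2 := abs_min_sub_min_le_max (ds.b a + v) (π.b1 a) (ds.b a' + v') (π.b1 a')
    have t3 : |ds.b a + v - (ds.b a' + v')| ≤ |ds.b a - ds.b a'| + |v - v'| := by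
      have : ds.b a + v - (ds.b a' + v') = (ds.b a - ds.b a') + (v - v') := by ring
      rw [this]
      exact abs_add_le _ _
    have t4 : max |ds.b a + v - (ds.b a' + v')| |π.b1 a - π.b1 a'| ≤ |ds.b a - ds.b a'| + |v - v'| + |π.b1 a - π.b1 a'| :=
      max_le (by linarith [abs_nonneg (π.b1 a - π.b1 a')]) (by linarith [abs_nonneg (ds.b a - ds.b a')])
    rw [e]
    linarith
  | plin =>
    show |(π.b1 a + v) - (π.b1 a' + v')| ≤ _
    have e : (π.b1 a + v) - (π.b1 a' + v') = (π.b1 a - π.b1 a') + (v - v') := by ring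
    have t1 := abs_add_le (π.b1 a - π.b1 a') (v - v')
    rw [e]
    linarith

/-- the benchmark exponent is Lipschitz -/
theorem ac_rn_Z_lip (π : SfPar) (q : NmQ) : ∃ C : ℝ, 0 ≤ C ∧ ∀ a a' v v' : ℝ, |q.Z π a v - q.Z π a' v'| ≤ C * (|a - a'| + |v - v'|) := by
  refine ⟨|π.p + π.d| + |3 + π.η| + |1 - π.η| * (|q.ds.bs| + |π.q - π.J| + 2), by positivity, fun a a' v v' => ?_⟩
  have e : q.Z π a v - q.Z π a' v' = (π.p + π.d) * (a - a') + (3 + π.η) * (v - v') + (1 - π.η) * (q.w π a v - q.w π a' v') := by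
    unfold NmQ.Z NmQ.W
    ring
  have t1 := abs_add_le ((π.p + π.d) * (a - a') + (3 + π.η) * (v - v')) ((1 - π.η) * (q.w π a v - q.w π a' v'))
  have t2 := abs_add_le ((π.p + π.d) * (a - a')) ((3 + π.η) * (v - v'))
  rw [abs_mul] at t1
  rw [abs_mul, abs_mul] at t2
  have t3 := mul_le_mul_of_nonneg_left (ac_rn_w_lip π q a a' v v') (abs_nonneg (1 - π.η))
  have n3 := abs_nonneg (a - a')
  have n4 := abs_nonneg (v - v')
  have p1 := mul_nonneg (abs_nonneg (π.p + π.d)) n4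
  have p2 := mul_nonneg (abs_nonneg (3 + π.η)) n3
  rw [e]
  nlinarith

/-- the excess is Lipschitz -/
theorem ac_rn_E_lip {π : SfPar} {C0 : ℝ} {κ : ℝ → ℝ} (S : NmSeq π C0 κ) (hπ : π.Valid) (q : NmQ) (hq : q.Fam π) :
    ∃ C : ℝ, 0 ≤ C ∧ ∀ a a' v v' : ℝ, |S.E q a v - S.E q a' v'| ≤ C * (|a - a'| + |v - v'|) := by
  obtain ⟨C1, h1⟩ := nm_H_lip S hπ q hq
  obtain ⟨C2, h20, h2⟩ := ac_rn_Z_lip π q
  refine ⟨|C1| + C2, by positivity, fun a a' v v' => ?_⟩
  have e : S.E q a v - S.E q a' v' = (S.H q a v - S.H q a' v') - (q.Z π a v - q.Z π a' v') := by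
    unfold NmSeq.E
    ring
  have t1 := abs_sub (S.H q a v - S.H q a' v') (q.Z π a v - q.Z π a' v')
  have n : 0 ≤ |a - a'| + |v - v'| := by positivity
  have t2 : C1 * (|a - a'| + |v - v'|) ≤ |C1| * (|a - a'| + |v - v'|) := mul_le_mul_of_nonneg_right (le_abs_self _) n
  rw [e, add_mul]
  linarith [h1 a a' v v', h2 a a' v v']

/-- backward time does not change distances -/
theorem ac_rn_back (t t' : ℝ) : |(1 - t) - (1 - t')| = |t - t'| := by
  rw [show (1 - t) - (1 - t') = -(t - t') by ring, abs_neg]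

section eq

variable {π : SfPar} {C0 : ℝ} {κ : ℝ → ℝ} (S : NmSeq π C0 κ)


theorem ac_rn_Lraw (h1 : 0 < π.c2) (h2 : π.q = π.c2) (Lip : ℝ) : (acEqK S Lip).Lraw = π.Lraw := by
  show max 1 (max ((1 + π.c2) / 2) (1 + π.c2 - π.J)) = max 1 (max ((1 + π.Qm) / 2) (1 + π.Cr))
  have e1 : π.Qm = π.c2 := by
    unfold SfPar.Qm
    rw [if_neg h1.ne', h2]
  have e2 : 1 + π.Cr = 1 + π.c2 - π.J := by
    unfold SfPar.Cr
    rw [h2]
    ring
  rw [e1, e2]

theorem ac_rn_mem (Lip L : ℝ) : (acEqK S Lip).mem L = π.mu L := rfl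

/-- the left memory bound at EVERY left point -/
theorem ac_rn_left (hπ : π.Valid) (h1 : 0 < π.c2) (h2 : π.q = π.c2) (hX : S.HasX) (hQ : NmQ.Fam ⟨nmDsEq π, NmTp.quad, 0⟩ π)
    (t v : ℝ) (ht1 : t < 1) (hv0 : 0 < v) (hvJ : v < π.J * t) (hvc : v < π.c2 * t) (hh : π.hyb = true → 2 * v < π.c2 * t) :
    π.mu π.Lraw ≤ S.m ⟨nmDsEq π, NmTp.quad, 0⟩ (1 - t) v := by
  have hJ : 0 < π.J := by
    by_contra hcon
    have : π.J = 0 := le_antisymm (not_lt.1 hcon) hπ.J0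
    rw [this, zero_mul] at hvJ
    linarith
  obtain ⟨j, hj⟩ : ∃ j : ℝ, j = 1 - v / π.J := ⟨_, rfl⟩
  have hvJ' : v / π.J < t := by rwa [div_lt_iff₀ hJ, mul_comm]
  have hvJ0 : 0 < v / π.J := div_pos hv0 hJ
  have hu : π.u j = v := by
    unfold SfPar.u
    rw [hj]
    field_simp
    ring
  have hb : (nmDsEq π).b (1 - t) = -(π.c2 * t) := by
    show 0 + π.c2 * ((1 - t) - 1) = _
    ring
  have hb1 : π.b1 j = v - π.c2 * (v / π.J) := by
    unfold SfPar.b1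
    rw [hj, h2]
    field_simp
    ring
  have key := nm_m_left S hπ hX ⟨nmDsEq π, NmTp.quad, 0⟩ hQ rfl rfl hJ (1 - t) j ⟨by linarith, by rw [hj]; linarith, by rw [hj]; linarith⟩
    (by
      rw [hu]
      show (nmDsEq π).b (1 - t) + v ≤ _
      rw [hb, hb1]
      refine le_min ?_ (by linarith)
      have := mul_le_mul_of_nonneg_left hvJ'.le h1.le
      linarith)
    (by
      intro hy
      rw [hu]
      show (nmDsEq π).b (1 - t) + 2 * v < 0
      rw [hb]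
      linarith [hh hy])
  rw [hu] at key
  have hL : 0 < π.Lraw * j := by
    have : (1 : ℝ) ≤ π.Lraw := le_max_left _ _
    have hj0 : 0 < j := by rw [hj]; linarith
    positivity
  obtain ⟨u0, u1⟩ := nm_U_basic S hπ ⟨nmDsEq π, NmTp.quad, 0⟩ hQ (1 - t) v
  refine le_limsup_of_frequently_le (Eventually.frequently ?_) (isBoundedUnder_of_eventually_le (a := 1) ?_)
  · filter_upwards [Ioo_mem_nhdsGT hL] with h hh'
    rw [le_div_iff₀ hh'.1]
    exact key h hh'.1 hh'.2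
  · filter_upwards [self_mem_nhdsWithin] with h hh'
    have hh0 : 0 < h := hh'
    rw [div_le_one hh0]
    have := (u1 v (v + h) le_rfl (by linarith)).2
    rw [u0] at this
    linarith

/-- **EQ-NM.**   LEAF L-256-ACT-RNM-EQ: GLUE on Nm/Contract.lean, OWNER helper277, EST 500 lines.
`par, c_pos, pl` : `π.Valid`.  `base*` : `nm_E_nonneg`, `nm_H_lip` (+ `NmQ.Z` is Lipschitz; `Lip` = sum of the constants), `nm_E_zero` at `(1,0)`.  `seam*` : `nm_E_zero`, second alternative of `EqPt` (`v = u a = J t`, `l = b_1`).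
`left_mem` (at EVERY left point): `j := 1 - v / J`, `nm_m_left`, then `limsup ≥ μ`; `π.Lraw = K.Lraw`, `π.mu = K.mem`.  `pst_*` : `nm_pst`.  `ν_*` : `ac_HP_basic`, `ac_nu_meas`. -/
theorem ac_eq_rnm (hπ : π.Valid) (h1 : 0 < π.c2) (h2 : π.q = π.c2) (hS : S.AcGood) : ∃ Lip : ℝ, (acEqK S Lip).RNm := by
  have hX := hS.hasX
  have hQ : NmQ.Fam ⟨nmDsEq π, NmTp.quad, 0⟩ π :=
    ⟨le_rfl, (fun h => by cases h), Or.inl ⟨h1, h2, rfl, (fun h => by cases h)⟩⟩
  have hC : 0 < π.Cr → NmQ.Fam ⟨nmDsEq π, NmTp.clip, 0⟩ π := fun hc =>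
    ⟨le_rfl, fun _ => hc, Or.inl ⟨h1, h2, rfl, (fun h => by cases h)⟩⟩
  obtain ⟨LQ, hLQ0, hLQ⟩ := ac_rn_E_lip S hπ _ hQ
  obtain ⟨LC, hLC0, hLC⟩ : ∃ L : ℝ, 0 ≤ L ∧ (0 < π.Cr → ∀ a a' v v' : ℝ,
      |S.E ⟨nmDsEq π, NmTp.clip, 0⟩ a v - S.E ⟨nmDsEq π, NmTp.clip, 0⟩ a' v'| ≤ L * (|a - a'| + |v - v'|)) := by
    by_cases hc : 0 < π.Cr
    · obtain ⟨L, h0, h⟩ := ac_rn_E_lip S hπ _ (hC hc)
      exact ⟨L, h0, fun _ => h⟩
    · exact ⟨0, le_rfl, fun h => absurd h hc⟩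
  have hCr : ∀ Lip : ℝ, 0 < (acEqK S Lip).C1 → 0 < π.Cr := by
    intro Lip h
    have h' : 0 < π.c2 - π.J := h
    unfold SfPar.Cr
    rw [h2]
    exact h'
  have hb : ∀ a : ℝ, (nmDsEq π).b a = π.c2 * (a - 1) := by
    intro a
    show 0 + π.c2 * (a - 1) = _
    ring
  have hb1 : ∀ a : ℝ, π.b1 a = (π.c2 - π.J) * (a - 1) := by
    intro a
    unfold SfPar.b1
    rw [h2]
  have hHP := ac_HP_basic S (nmDsEq π)
  have hnu := ac_nu_meas (S.HP (nmDsEq π)) (-(π.q - π.J)) (π.q - π.J) hHP.1 hHP.2.2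
  have hbfun : π.b1 = fun z => -(π.q - π.J) + (π.q - π.J) * z := by
    funext z
    unfold SfPar.b1
    ring
  rw [← hbfun] at hnu
  have hraw : (nmDsEq π).Raw π := ⟨rfl, Or.inr rfl⟩
  refine ⟨LQ + LC, ?_⟩
  refine
    { par := ⟨hπ.eta.1, hπ.eta.2, by have := hπ.eta.1; have := hπ.gam; show 0 < π.Γ; linarith, hπ.d1.1, hπ.d1.2, hπ.J0,
        add_nonneg hLQ0 hLC0, by show π.J < π.J + 1; linarith⟩
      c_pos := h1
      pl := ?_
      baseQ := ⟨?_, ?_, ?_⟩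
      left_mem := ?_
      baseC := ?_
      seamQ := ?_
      seamC := ?_
      pst_anti := ?_
      pst_ge := ?_
      ν_meas := ?_
      ν_bd := ?_
      ν_zero := ?_ }
  · intro hy
    have := hπ.pl hy
    show π.J = (π.c2 + 1 / 2) / 2
    rw [h2] at this
    linarith
  · intro t v hbox hn
    obtain ⟨b1, b2, b3, -⟩ := hbox
    refine nm_E_nonneg S hπ hX _ hQ (1 - t) v ⟨by linarith, by show 1 - t ≤ 1; linarith⟩ b3 fun hy => ⟨rfl, ?_⟩
    show (nmDsEq π).b (1 - t) + 2 * v ≤ 0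
    rw [hb]
    have : 2 * v ≤ π.c2 * t := hn hy
    linarith
  · intro t v t' v' _ _
    have := hLQ (1 - t) (1 - t') v v'
    rw [ac_rn_back] at this
    refine this.trans (mul_le_mul_of_nonneg_right ?_ (by positivity))
    show LQ ≤ LQ + LC
    linarith
  · show S.E ⟨nmDsEq π, NmTp.quad, 0⟩ (1 - 0) 0 = 0
    rw [sub_zero]
    refine nm_E_zero S hπ hX _ hQ 1 0 ⟨rfl, ?_, Or.inl ⟨rfl, rfl, rfl⟩⟩
    show (nmDsEq π).b 1 + 0 = π.b1 1
    rw [hb, hb1]
    ring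
  · refine Eventually.of_forall fun p hp => ?_
    obtain ⟨a1, a2, a3, -, a5, a6, a7⟩ := hp
    rw [ac_rn_Lraw S h1 h2, ac_rn_mem]
    exact ac_rn_left S hπ h1 h2 hX hQ p.1 p.2 a2 a3 a5 a6 a7
  · intro hy hc1
    have hcr := hCr _ hc1
    refine ⟨?_, ?_, ?_⟩
    · intro t v hbox _
      obtain ⟨b1, b2, b3, -⟩ := hbox
      exact nm_E_nonneg S hπ hX _ (hC hcr) (1 - t) v ⟨by linarith, by show 1 - t ≤ 1; linarith⟩ b3 fun hy' => absurd hy' hy
    · intro t v t' v' _ _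
      have := hLC hcr (1 - t) (1 - t') v v'
      rw [ac_rn_back] at this
      refine this.trans (mul_le_mul_of_nonneg_right ?_ (by positivity))
      show LC ≤ LQ + LC
      linarith
    · show S.E ⟨nmDsEq π, NmTp.clip, 0⟩ (1 - 0) 0 = 0
      rw [sub_zero]
      refine nm_E_zero S hπ hX _ (hC hcr) 1 0 ⟨rfl, ?_, Or.inl ⟨rfl, rfl, rfl⟩⟩
      show min ((nmDsEq π).b 1 + 0) (π.b1 1) = π.b1 1
      rw [hb, hb1]
      simp
  · intro hy hc1 t ht0 ht1
    have hcr := hCr _ hc1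
    have hyf : π.hyb = false := by
      have : ¬ (π.hyb = true) := hy
      simpa using this
    refine nm_E_zero S hπ hX _ hQ (1 - t) (π.J * t) ⟨rfl, ?_, Or.inr (Or.inl ⟨hyf, rfl, hcr, by linarith, by linarith, ?_⟩)⟩
    · show (nmDsEq π).b (1 - t) + π.J * t = π.b1 (1 - t)
      rw [hb, hb1]
      ring
    · unfold SfPar.u
      ring
  · intro hy hc1 t ht0 ht1
    have hcr := hCr _ hc1
    have hyf : π.hyb = false := by
      have : ¬ (π.hyb = true) := hy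
      simpa using this
    refine nm_E_zero S hπ hX _ (hC hcr) (1 - t) (π.J * t) ⟨rfl, ?_, Or.inr (Or.inl ⟨hyf, rfl, hcr, by linarith, by linarith, ?_⟩)⟩
    · show min ((nmDsEq π).b (1 - t) + π.J * t) (π.b1 (1 - t)) = π.b1 (1 - t)
      rw [hb, hb1]
      refine min_eq_right (le_of_eq ?_)
      ring
    · unfold SfPar.u
      ring
  · intro hy hc1 t t' ht0 htt ht1
    have hyf : π.hyb = false := by
      have : ¬ (π.hyb = true) := hy
      simpa using this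
    exact (nm_pst S hπ hX hyf _ hraw).1 (1 - t') (1 - t) (by linarith) (by linarith) (by linarith)
  · intro hy hc1 t ht0 ht1
    have hcr := hCr _ hc1
    have hyf : π.hyb = false := by
      have : ¬ (π.hyb = true) := hy
      simpa using this
    have := (nm_pst S hπ hX hyf _ hraw).2 hcr (1 - t) (by linarith) (by linarith)
    rw [hb1] at this
    show -((π.c2 - π.J) * t) ≤ S.pst (nmDsEq π) (1 - t)
    linarith
  · show Measurable fun t => if π.c2 ≤ 1 then nmNu (S.HP (nmDsEq π)) π.b1 (1 - t) else 0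
    by_cases hc : π.c2 ≤ 1
    · simp only [if_pos hc]
      exact hnu.1.comp (measurable_const.sub measurable_id)
    · simp only [if_neg hc]
      exact measurable_const
  · intro t
    show 0 ≤ (if π.c2 ≤ 1 then nmNu (S.HP (nmDsEq π)) π.b1 (1 - t) else 0) ∧ (if π.c2 ≤ 1 then nmNu (S.HP (nmDsEq π)) π.b1 (1 - t) else 0) ≤ 1
    by_cases hc : π.c2 ≤ 1
    · rw [if_pos hc]
      exact hnu.2 (1 - t)
    · rw [if_neg hc]
      exact ⟨le_rfl, zero_le_one⟩
  · intro hc t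
    show (if π.c2 ≤ 1 then nmNu (S.HP (nmDsEq π)) π.b1 (1 - t) else 0) = 0
    exact if_neg (not_le.2 hc)

/-- an eventual lower bound passes to the upper limit (copy used before the linear section) -/
theorem ac_sl_le_limsup (f : ℝ → ℝ) (c B : ℝ) (h1 : ∀ᶠ h in 𝓝[>] (0 : ℝ), c ≤ f h) (h2 : ∀ᶠ h in 𝓝[>] (0 : ℝ), f h ≤ B) :
    c ≤ limsup f (𝓝[>] (0 : ℝ)) :=
  le_limsup_of_frequently_le h1.frequently (isBoundedUnder_of_eventually_le h2)

/-- the derivative of `R` is dominated by the upper trace of a majorant of its right increments -/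
theorem ac_sl_deriv_le (R f : ℝ → ℝ) (v B : ℝ) (h0 : ∀ h, 0 < h → 0 ≤ f h / h) (h1 : ∀ h, 0 < h → R (v + h) - R v ≤ f h)
    (h2 : ∀ h, 0 < h → f h / h ≤ B) : deriv R v ≤ limsup (fun h => f h / h) (𝓝[>] (0 : ℝ)) := by
  have hB : ∀ᶠ h in 𝓝[>] (0 : ℝ), f h / h ≤ B := by
    filter_upwards [self_mem_nhdsWithin] with h hh using h2 h hh
  by_cases hd : DifferentiableAt ℝ R v
  · have ht := hd.hasDerivAt.tendsto_slope_zero_right
    rw [← ht.limsup_eq]
    refine limsup_le_limsup ?_ ht.isBoundedUnder_ge.isCoboundedUnder_le (isBoundedUnder_of_eventually_le hB)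
    filter_upwards [self_mem_nhdsWithin] with h hh
    rw [smul_eq_mul, inv_mul_eq_div]
    exact div_le_div_of_nonneg_right (h1 h hh) (le_of_lt hh)
  · rw [deriv_zero_of_not_differentiableAt hd]
    refine ac_sl_le_limsup _ 0 B ?_ hB
    filter_upwards [self_mem_nhdsWithin] with h hh using h0 h hh

/-- the quotients of the angular score lie in `[0,1]` -/
theorem ac_sl_U_q (hπ : π.Valid) (q : NmQ) (hq : q.Fam π) (a v h : ℝ) (hh : 0 < h) :
    0 ≤ S.U q (v + h) a v / h ∧ S.U q (v + h) a v / h ≤ 1 := by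
  obtain ⟨e0, e1⟩ := nm_U_basic S hπ q hq a v
  obtain ⟨e2, e3⟩ := e1 v (v + h) le_rfl (by linarith)
  rw [e0] at e2 e3
  refine ⟨div_nonneg (by linarith) hh.le, ?_⟩
  rw [div_le_one hh]
  linarith

/-- the slab behind the equality point `(tj, J tj)`: everything but the lower slope -/
theorem ac_sl_core (hπ : π.Valid) (hX : S.HasX) (hc : π.hyb = false) (hb : 0 < π.Cr) (q : NmQ) (hq : q.Fam π) (hg0 : q.g = 0)
    (hDe : q.ds.De = 1) (hgl : q.ds.glob = false) (cc : ℝ) (hcc : 0 < cc)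
    (hl : ∀ a j v : ℝ, a < j → v - π.u j ≤ cc * (j - a) → q.l π a v ≤ π.b1 j)
    (tj μ : ℝ) (h0 : 0 < tj) (h1 : tj < 1)
    (hμ : ∀ ε : ℝ, 0 < ε → ∀ᶠ z in 𝓝[>] (0 : ℝ), (μ - ε) * z ≤ S.Rj (1 - tj) (π.J * tj + z)) :
    AcSlab (fun t v => S.m q (1 - t) v) tj (π.J * tj) μ := by
  obtain ⟨lam0, hlam0, hsl⟩ := nm_m_slab S hπ hX hc hb q hq hg0
  have hu : π.u (1 - tj) = π.J * tj := by rw [SfPar.u]; ring
  refine ⟨S.Rj (1 - tj), 1, min lam0 cc, 1 - tj, 1, lt_min hlam0 hcc, by linarith, one_pos, ?_, ?_, hμ, ?_⟩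
  · intro x _ y _
    rw [one_mul]
    rcases le_total x y with hxy | hxy
    · obtain ⟨e1, e2⟩ := ac_Rj_basic S (1 - tj) x y hxy
      rw [abs_sub_comm, abs_of_nonneg e1, abs_sub_comm, abs_of_nonneg (by linarith)]
      exact e2
    · obtain ⟨e1, e2⟩ := ac_Rj_basic S (1 - tj) y x hxy
      rw [abs_of_nonneg e1, abs_of_nonneg (by linarith)]
      exact e2
  · have := (nm_mr S hπ hX hc (1 - tj) ⟨by linarith, by linarith⟩).1
    rwa [hu] at this
  · refine Eventually.of_forall fun p c1 c2 c3 _ c5 => ?_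
    have hpos : 0 < p.1 - tj := by linarith
    have c6 : p.2 - π.J * tj ≤ lam0 * (p.1 - tj) :=
      c5.le.trans (mul_le_mul_of_nonneg_right (min_le_left _ _) hpos.le)
    have c7 : p.2 - π.J * tj ≤ cc * (p.1 - tj) :=
      c5.le.trans (mul_le_mul_of_nonneg_right (min_le_right _ _) hpos.le)
    have e : 1 - tj - (1 - p.1) = p.1 - tj := by ring
    refine ac_sl_deriv_le (S.Rj (1 - tj)) (fun h => S.U q (p.2 + h) (1 - p.1) p.2) p.2 1
      (fun h hh => (ac_sl_U_q S hπ q hq _ _ h hh).1) (fun h hh => ?_) (fun h hh => (ac_sl_U_q S hπ q hq _ _ h hh).2)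
    refine hsl (1 - p.1) (1 - tj) p.2 (p.2 + h) (by linarith) (by linarith) (by rw [hDe]; linarith)
      (fun hg => by rw [hgl] at hg; cases hg) (by rw [hu]; linarith) (by rw [hu, e]; exact c6) ?_ (by linarith)
    exact hl _ _ _ (by linarith) (by rw [hu, e]; exact c7)

/-- `Q` of an equality family -/
theorem ac_sl_Qm {π : SfPar} (h1 : 0 < π.c2) (h2 : π.q = π.c2) : π.Qm = π.c2 := by
  rw [SfPar.Qm, if_neg h1.ne', h2]

/-- the strong lower slope -/
theorem ac_sl_strong (hπ : π.Valid) (h2 : π.q = π.c2) (hS : S.AcGood) (hc : π.hyb = false) (hb : 0 < π.Cr)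
    (t0 t1 σ tj : ℝ) (a0 : 0 < t0) (a2 : t1 < 1) (a3 : 0 < σ)
    (a4 : ∀ t, t0 < t → t < t1 → -((π.c2 - π.J) * t) + σ ≤ S.pst (nmDsEq π) (1 - t)) (b0 : t0 < tj) (b1 : tj < t1) (ε : ℝ) (hε : 0 < ε) :
    ∀ᶠ z in 𝓝[>] (0 : ℝ), (π.mu π.LS - ε) * z ≤ S.Rj (1 - tj) (π.J * tj + z) := by
  have hu : π.u (1 - tj) = π.J * tj := by rw [SfPar.u]; ring
  have hC : 0 < π.c2 - π.J := by rw [SfPar.Cr, h2] at hb; exact hb
  have hρ : 0 < min (σ / (2 * (π.c2 - π.J))) (t1 - tj) := lt_min (by positivity) (by linarith)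
  have hLS : 0 < π.LS := lt_of_lt_of_le one_pos (le_max_left _ _)
  have key := nm_mr_strong S hπ hS.hasX {1} rfl hS.flat hc hb (nmDsEq π) ⟨rfl, Or.inr rfl⟩ (1 - tj) (σ / 2)
    (min (σ / (2 * (π.c2 - π.J))) (t1 - tj)) ⟨by linarith, by linarith⟩ (by linarith) hρ (by
      intro i hi1 hi2
      have d1 : 1 - i - tj < σ / (2 * (π.c2 - π.J)) := by
        have := min_le_left (σ / (2 * (π.c2 - π.J))) (t1 - tj)
        linarith
      have d2 : 1 - i - tj < t1 - tj := by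
        have := min_le_right (σ / (2 * (π.c2 - π.J))) (t1 - tj)
        linarith
      have d3 := a4 (1 - i) (by linarith) (by linarith)
      rw [show 1 - (1 - i) = i by ring] at d3
      refine le_trans ?_ d3
      rw [lt_div_iff₀ (by positivity)] at d1
      rw [SfPar.b1, h2]
      nlinarith)
  rw [hu] at key
  rw [(nhdsGT_basis (0 : ℝ)).eventually_iff]
  refine ⟨min (π.LS * min (σ / (2 * (π.c2 - π.J))) (t1 - tj)) (π.LS * (1 - tj)), lt_min (mul_pos hLS hρ) (mul_pos hLS (by linarith)), fun z hz => ?_⟩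
  have := key z hz.1 (hz.2.trans_le (min_le_left _ _)) (hz.2.trans_le (min_le_right _ _))
  have hz0 : 0 < z := hz.1
  nlinarith

/-- the raw lower slope -/
theorem ac_sl_raw (hπ : π.Valid) (hX : S.HasX) (hc : π.hyb = false) (tj : ℝ) (h0 : 0 < tj) (h1 : tj < 1) (ε : ℝ) (hε : 0 < ε) :
    ∀ᶠ z in 𝓝[>] (0 : ℝ), (π.mu π.Lraw - ε) * z ≤ S.Rj (1 - tj) (π.J * tj + z) := by
  have hu : π.u (1 - tj) = π.J * tj := by rw [SfPar.u]; ring
  have hL : 0 < π.Lraw := lt_of_lt_of_le one_pos (le_max_left _ _)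
  have key := (nm_mr S hπ hX hc (1 - tj) ⟨by linarith, by linarith⟩).2
  rw [hu] at key
  rw [(nhdsGT_basis (0 : ℝ)).eventually_iff]
  refine ⟨π.Lraw * (1 - tj), mul_pos hL (by linarith), fun z hz => ?_⟩
  have := key z hz.1 hz.2
  have hz0 : 0 < z := hz.1
  nlinarith

/-- **EQ-SLAB.**   LEAF L-256-ACT-RSLAB-EQ: GLUE on Nm/Contract.lean, OWNER helper277, EST 500 lines.
`R := S.Rj j`, `j = 1 - tj`, `uj = u j`; Lipschitz: `ac_Rj_basic`; `R uj = 0`, slope `μ(L_raw)`: `nm_mr`; strong: `nm_mr_strong` (`ρ = min (σ / (2 C1)) (t1 - tj)`, slack `σ/2`); weak: `nm_mr_weak` (a.e. `j`);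
`deriv R v ≤ m` at EVERY point of the cone `lam = min lam0 c`: `nm_m_slab` (`l ≤ b_1 j` on the cone), `deriv = 0 ≤ m` where `R` is not differentiable. -/
theorem ac_eq_rslab (hπ : π.Valid) (h1 : 0 < π.c2) (h2 : π.q = π.c2) (hS : S.AcGood) (Lip : ℝ) : (acEqK S Lip).RSlab := by
  have hQm := ac_sl_Qm h1 h2
  have hyb : ¬ (acEqK S Lip).hyb → π.hyb = false := by
    intro hy
    cases hyb : π.hyb with
    | false => rfl
    | true => exact absurd hyb hy
  have hCr : 0 < (acEqK S Lip).C1 → 0 < π.Cr := by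
    intro h
    have h' : 0 < π.c2 - π.J := h
    rw [SfPar.Cr, h2]; exact h'
  constructor
  · intro hy hC1 _ t0 t1 σ hst
    obtain ⟨a0, a1, a2, a3, a4⟩ := hst
    refine Eventually.of_forall fun tj b0 b1 => ?_
    have eLS : (acEqK S Lip).mem (acEqK S Lip).LS = π.mu π.LS := by
      rw [SfPar.LS, hQm]; rfl
    rw [eLS]
    refine ac_sl_core S hπ hS.hasX (hyb hy) (hCr hC1) ⟨nmDsEq π, NmTp.quad, 0⟩
      ⟨le_refl _, fun h => (by cases h), Or.inl ⟨h1, h2, rfl, fun h => (by cases h)⟩⟩ rfl rfl rfl π.c2 h1 ?_ tj _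
      (by linarith) (by linarith) (ac_sl_strong S hπ h2 hS (hyb hy) (hCr hC1) t0 t1 σ tj a0 a2 a3 a4 b0 b1)
    intro a j v _ hv
    show (nmDsEq π).b a + v ≤ π.b1 j
    rw [SfPar.u] at hv
    rw [SfPar.b1, h2, NmDs.b]
    simp only [nmDsEq]
    linarith
  · intro hy hC1 t0 t1 hw hc1 hC1' 
    obtain ⟨a0, a1, a2, -⟩ := hw
    have hc1' : π.c2 ≤ 1 := hc1
    have hC' : π.Cr < 1 := by
      have h' : π.c2 - π.J < 1 := hC1'
      rw [SfPar.Cr, h2]; exact h'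
    have hwk := nm_mr_weak S hπ hS.hasX {1} rfl hS.flat (hyb hy) (by rw [hQm]; exact hc1') ⟨hCr hC1, hC'⟩ (nmDsEq π) ⟨rfl, Or.inr rfl⟩
    have hwk' := (Measure.measurePreserving_sub_left volume (1 : ℝ)).quasiMeasurePreserving.ae hwk
    filter_upwards [hwk'] with tj htj b0 b1
    have hu : π.u (1 - tj) = π.J * tj := by rw [SfPar.u]; ring
    have eL : (acEqK S Lip).mem (acEqK S Lip).Lraw = π.mu π.Lraw := by
      have : π.Lraw = max 1 (max ((1 + π.c2) / 2) (1 + π.c2 - π.J)) := by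
        rw [SfPar.Lraw, hQm, SfPar.Cr, h2, add_sub_assoc]
      rw [this]; rfl
    have eν : (acEqK S Lip).k0 + 2 * (acEqK S Lip).Γ - (acEqK S Lip).C1 * (acEqK S Lip).ν tj
        = 1 - π.d + 2 * π.Γ - π.Cr * nmNu (S.HP (nmDsEq π)) π.b1 (1 - tj) := by
      have e1 : (acEqK S Lip).ν tj = nmNu (S.HP (nmDsEq π)) π.b1 (1 - tj) := if_pos hc1'
      rw [e1, SfPar.Cr, h2]; rfl
    rw [eL, eν]
    refine ac_sl_core S hπ hS.hasX (hyb hy) (hCr hC1) ⟨nmDsEq π, NmTp.clip, 0⟩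
      ⟨le_refl _, fun _ => hCr hC1, Or.inl ⟨h1, h2, rfl, fun h => (by cases h)⟩⟩ rfl rfl rfl π.c2 h1 ?_ tj _
      (by linarith) (by linarith) ?_
    · intro a j v _ hv
      show min ((nmDsEq π).b a + v) (π.b1 a) ≤ π.b1 j
      refine (min_le_left _ _).trans ?_
      rw [SfPar.u] at hv
      rw [SfPar.b1, h2, NmDs.b]
      simp only [nmDsEq]
      linarith
    · intro ε hε
      rcases le_total (π.mu π.Lraw) (1 - π.d + 2 * π.Γ - π.Cr * nmNu (S.HP (nmDsEq π)) π.b1 (1 - tj)) with hm | hm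
      · rw [max_eq_right hm]
        have := htj (by linarith) (by linarith) ε hε
        rwa [hu] at this
      · rw [max_eq_left hm]
        exact ac_sl_raw S hπ hS.hasX (hyb hy) tj (by linarith) (by linarith) ε hε

/-! **EQ-OG** : `ao_eq_rog` (Act/Ogs.lean, helper137), proved from `ao_enl`, `ao_shift` (GEO), `ao_step_*` (FS). -/

/-- **EQ-ROOT-L** (coarse quadratic side, Def. names:side (i)).   = `lay_rl_main` (Lay/RlMain.lean, helper165) on `lay_root_patch` (helper189), `lay_ra_avoid` (helper27). -/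
theorem ac_eq_root_left (hπ : π.Valid) (h1 : 0 < π.c2) (h2 : π.q = π.c2) (hS : S.AcGood) (Lip : ℝ) :
    ∀ᵐ p : ℝ × ℝ, (acEqK S Lip).Left p.1 p.2 → 0 < (acEqK S Lip).mQ p.1 p.2 →
      AcRoot (acHQ S) true true false π.c2 π.d ((acEqK S Lip).mQ p.1 p.2) (fun _ => True) p :=
  lay_rl_main S hπ h1 h2 hS Lip

/-- **EQ-ROOT-S** (exact quadratic side, Def. names:side (ii); at `c = 1`, `J = 0` the avoidance is Lemma act:stationary-boundary = E1 on `lt_main`).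
= `lay_rs_main` (Lay/RsMain.lean, helper54; its only open port is `lay_rs_av_one` = E1, helper279). -/
theorem ac_eq_root_strong (hπ : π.Valid) (h1 : 0 < π.c2) (h2 : π.q = π.c2) (hS : S.AcGood) (Lip : ℝ) :
    ¬ (acEqK S Lip).hyb → 0 < (acEqK S Lip).C1 → ((acEqK S Lip).c = 1 → (acEqK S Lip).J = 0) →
    ∀ t0 t1 σ, (acEqK S Lip).IsStrong t0 t1 σ → ∃ wd : ℝ, 0 < wd ∧
      ∀ᵐ p : ℝ × ℝ, (acEqK S Lip).Strip t0 t1 wd p → 0 < (acEqK S Lip).mQ p.1 p.2 →
        AcRoot (acHQ S) true true false π.c2 π.d ((acEqK S Lip).mQ p.1 p.2) (fun _ => True) p :=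
  lay_rs_main S hπ h1 h2 hS Lip

/-- **EQ-ROOT-W** (exact linear side on the clipped branch, Def. names:side (iv); crossing from `p_* = b_1`).   = `lay_rw_root` (Lay/RwMain.lean, helper274). -/
theorem ac_eq_root_weak (hπ : π.Valid) (h1 : 0 < π.c2) (h2 : π.q = π.c2) (hS : S.AcGood) (Lip : ℝ) :
    ¬ (acEqK S Lip).hyb → 0 < (acEqK S Lip).C1 → ∀ t0 t1, (acEqK S Lip).IsWeak t0 t1 → ∃ wd : ℝ, 0 < wd ∧
      ∀ᵐ p : ℝ × ℝ, (acEqK S Lip).RStrip t0 t1 wd p → 0 < (acEqK S Lip).mC p.1 p.2 →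
        AcRoot (acHC S) false false true (acEqK S Lip).C1 π.d ((acEqK S Lip).mC p.1 p.2)
          (fun x => (acEqK S Lip).c ≤ 1 → (acEqK S Lip).C1 < 1 → x = (acEqK S Lip).ν p.1) p :=
  lay_rw_root S hπ h1 h2 hS Lip

theorem ac_eq_prods (hπ : π.Valid) (h1 : 0 < π.c2) (h2 : π.q = π.c2) (hS : S.AcGood) (Lip : ℝ) :
    (acEqK S Lip).Prods (acHQ S) (acHC S) S.D0 where
  η_nn := hπ.eta.1.le
  linkQ := by
    funext t v
    have hp : π.p = 1 + 2 * π.d - 2 * π.Γ := by linarith [hπ.pd]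
    simp only [acEqK, acE, acHQ, NmSeq.E, NmQ.Z, NmQ.W, NmQ.w, NmDs.b, nmDsEq, acParOf]
    rw [hp]
    ring
  linkC := by
    funext t v
    have hp : π.p = 1 + 2 * π.d - 2 * π.Γ := by linarith [hπ.pd]
    simp only [acEqK, acE, acHC, NmSeq.E, NmQ.Z, NmQ.W, NmQ.w, NmDs.b, nmDsEq, acParOf, AcEq.C1, SfPar.b1]
    rw [hp, h2]
    have e1 : 0 + π.c2 * (1 - t - 1) + v = -(π.c2 * t) + v := by ring
    have e2 : (π.c2 - π.J) * (1 - t - 1) = -((π.c2 - π.J) * t) := by ring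
    rw [e1, e2]
    ring
  left := ac_eq_root_left S hπ h1 h2 hS Lip
  strong := ac_eq_root_strong S hπ h1 h2 hS Lip
  weak := ac_eq_root_weak S hπ h1 h2 hS Lip

end eq

section lin

variable {π : SfPar} {C0 : ℝ} {κ : ℝ → ℝ} (S : NmSeq π C0 κ)


/-- a lower bound which holds eventually passes to the upper limit -/
theorem ac_gl_le_limsup (f : ℝ → ℝ) (c B : ℝ) (h1 : ∀ᶠ h in 𝓝[>] (0 : ℝ), c ≤ f h) (h2 : ∀ᶠ h in 𝓝[>] (0 : ℝ), f h ≤ B) :
    c ≤ limsup f (𝓝[>] (0 : ℝ)) :=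
  le_limsup_of_frequently_le h1.frequently (isBoundedUnder_of_eventually_le h2)

/-- the excess of a Lipschitz profile over an affine benchmark is Lipschitz, backward time -/
theorem ac_gl_lip (H Z : ℝ → ℝ → ℝ) (D0 C A B : ℝ) (hH : ∀ a a' v v' : ℝ, |H a v - H a' v'| ≤ C * (|a - a'| + |v - v'|))
    (hZ : ∀ a a' v v' : ℝ, Z a v - Z a' v' = A * (a - a') + B * (v - v')) (t v t' v' : ℝ) :
    |(H (1 - t) v - D0 - Z (1 - t) v) - (H (1 - t') v' - D0 - Z (1 - t') v')| ≤ (|C| + |A| + |B|) * (|t - t'| + |v - v'|) := by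
  have e0 : |1 - t - (1 - t')| = |t - t'| := by
    rw [show 1 - t - (1 - t') = -(t - t') by ring, abs_neg]
  have e1 := hH (1 - t) (1 - t') v v'
  rw [e0] at e1
  have e2 := hZ (1 - t) (1 - t') v v'
  have e3 : (H (1 - t) v - D0 - Z (1 - t) v) - (H (1 - t') v' - D0 - Z (1 - t') v')
      = (H (1 - t) v - H (1 - t') v') - (A * (1 - t - (1 - t')) + B * (v - v')) := by
    rw [← e2]; ring
  rw [e3]
  have n1 := abs_nonneg (t - t')
  have n2 := abs_nonneg (v - v')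
  have e4 : |A * (1 - t - (1 - t')) + B * (v - v')| ≤ |A| * |t - t'| + |B| * |v - v'| := by
    refine (abs_add_le _ _).trans ?_
    rw [abs_mul, abs_mul, e0]
  have e5 : C * (|t - t'| + |v - v'|) ≤ |C| * (|t - t'| + |v - v'|) :=
    mul_le_mul_of_nonneg_right (le_abs_self C) (by linarith)
  have e6 := abs_sub (H (1 - t) v - H (1 - t') v') (A * (1 - t - (1 - t')) + B * (v - v'))
  have n3 := mul_nonneg (abs_nonneg A) n2
  have n4 := mul_nonneg (abs_nonneg B) n1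
  nlinarith

/-- the query of the pure linear template belongs to the family -/
theorem ac_ln_fam {π : SfPar} (h0 : π.c2 = 0) (h1 : 0 < π.c1) : (⟨nmDsLin, NmTp.plin, 0⟩ : NmQ).Fam π :=
  ⟨le_refl _, fun h => (by cases h), Or.inr (Or.inl ⟨h0, h1, rfl, rfl⟩)⟩

/-- the quotients of the angular score lie in `[0,1]` -/
theorem ac_gl_U_q (hπ : π.Valid) (q : NmQ) (hq : q.Fam π) (a v h : ℝ) (hh : 0 < h) :
    0 ≤ S.U q (v + h) a v / h ∧ S.U q (v + h) a v / h ≤ 1 := by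
  obtain ⟨e0, e1⟩ := nm_U_basic S hπ q hq a v
  obtain ⟨e2, e3⟩ := e1 v (v + h) le_rfl (by linarith)
  rw [e0] at e2 e3
  refine ⟨div_nonneg (by linarith) hh.le, ?_⟩
  rw [div_le_one hh]
  linarith

/-- `L_raw` of a pure linear family -/
theorem ac_ln_Lraw {π : SfPar} (h0 : π.c2 = 0) (h1 : 0 < π.c1) (h2 : π.q = π.c1 + π.J) : π.Lraw = 1 + π.c1 := by
  have e1 : π.Qm = 0 := by simp [SfPar.Qm, h0]
  have e2 : π.Cr = π.c1 := by simp [SfPar.Cr, h2]
  rw [SfPar.Lraw, e1, e2]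
  rw [max_eq_right (a := (1 + 0) / 2) (by linarith), max_eq_right (by linarith)]

/-- the left memory bound of the pure linear template at EVERY left point -/
theorem ac_ln_left (hπ : π.Valid) (h0 : π.c2 = 0) (h1 : 0 < π.c1) (h2 : π.q = π.c1 + π.J) (hX : S.HasX) (t v : ℝ)
    (ht0 : 0 < t) (ht1 : t < 1) (hv0 : 0 < v) (hh : π.hyb = true → v < π.c1 * t) (hv : v < π.J * t) :
    π.mu (1 + π.c1) ≤ S.m ⟨nmDsLin, NmTp.plin, 0⟩ (1 - t) v := by
  have hq := ac_ln_fam (π := π) h0 h1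
  have hJ : 0 < π.J := by
    rcases hπ.J0.lt_or_eq with h | h
    · exact h
    · rw [← h] at hv; linarith
  have hu : π.u (1 - v / π.J) = v := by
    rw [SfPar.u]; field_simp; ring
  have hvJ : v / π.J < t := by rw [div_lt_iff₀ hJ]; linarith
  have hvJ0 : 0 < v / π.J := div_pos hv0 hJ
  have hL := ac_ln_Lraw h0 h1 h2
  have hb : ∀ x : ℝ, π.b1 x = π.c1 * (x - 1) := by
    intro x; rw [SfPar.b1, h2]; ring
  have key := nm_m_left S hπ hX ⟨nmDsLin, NmTp.plin, 0⟩ hq rfl rfl hJ (1 - t) (1 - v / π.J) ⟨by linarith, by linarith, by linarith⟩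
    (by
      show π.b1 (1 - t) ≤ min (π.b1 (1 - v / π.J)) 0
      rw [hb, hb]
      apply le_min
      · apply mul_le_mul_of_nonneg_left _ h1.le
        linarith
      · nlinarith)
    (by
      intro hy
      show π.b1 (1 - t) + π.u (1 - v / π.J) < 0
      rw [hb, hu]
      have := hh hy
      linarith)
  rw [hu, hL] at key
  have hpos : 0 < (1 + π.c1) * (1 - v / π.J) := mul_pos (by linarith) (by linarith)
  refine ac_gl_le_limsup _ _ 1 ?_ ?_
  · rw [(nhdsGT_basis (0 : ℝ)).eventually_iff]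
    refine ⟨_, hpos, fun z hz => ?_⟩
    rw [le_div_iff₀ hz.1]
    exact key z hz.1 hz.2
  · filter_upwards [self_mem_nhdsWithin] with z hz
    exact (ac_gl_U_q S hπ _ hq _ _ z hz).2

/-- **LIN-NM.**   LEAF L-256-ACT-RNM-LIN: GLUE on Nm/Contract.lean (as EQ-NM; `m_mono` : `nm_U_incr` + `nm_U_basic`), OWNER helper277, EST 400 lines. -/
theorem ac_lin_rnm (hπ : π.Valid) (h0 : π.c2 = 0) (h1 : 0 < π.c1) (h2 : π.q = π.c1 + π.J) (hS : S.AcGood) :
    ∃ Lip : ℝ, (acLinK S Lip).RNm := by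
  have hq := ac_ln_fam (π := π) h0 h1
  obtain ⟨C, hC⟩ := nm_H_lip S hπ ⟨nmDsLin, NmTp.plin, 0⟩ hq
  have hb : ∀ x : ℝ, π.b1 x = π.c1 * (x - 1) := by
    intro x; rw [SfPar.b1, h2]; ring
  have hν := ac_nu_meas (S.HP nmDsLin) (-π.c1) π.c1 (ac_HP_basic S nmDsLin).1 (ac_HP_basic S nmDsLin).2.2
  have hbf : π.b1 = fun z => -π.c1 + π.c1 * z := by
    funext z; rw [hb]; ring
  rw [← hbf] at hν
  refine ⟨|C| + |π.p + π.d + (1 - π.η) * π.c1| + |(4 : ℝ)|, ?_⟩
  refine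
    { par := ⟨hπ.eta.1, hπ.eta.2, ?_, hπ.d1.1, hπ.d1.2, hπ.J0, ?_, ?_⟩
      c_pos := h1
      pl := ?_
      base := ⟨?_, ?_, ?_⟩
      m_mono := ?_
      left_mem := ?_
      seam := ?_
      ν_meas := ?_
      ν_bd := ?_ }
  · show 0 < π.Γ
    have := hπ.eta.1
    have := hπ.gam
    linarith
  · show 0 ≤ |C| + |π.p + π.d + (1 - π.η) * π.c1| + |(4 : ℝ)|
    positivity
  · show π.J < π.J + 1
    linarith
  · intro hy
    show π.J = π.c1 + 1 / 2
    have := hπ.pl hy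
    linarith
  · rintro t v ⟨ht0, ht1, hv0, -⟩ hn
    refine nm_E_nonneg S hπ hS.hasX _ hq (1 - t) v ⟨by linarith, ?_⟩ hv0 ?_
    · show 1 - t ≤ 1
      linarith
    · intro hy
      refine ⟨rfl, ?_⟩
      show π.b1 (1 - t) + v ≤ 0
      have : v ≤ π.c1 * t := hn hy
      rw [hb]
      linarith
  · intro t v t' v' _ _
    refine ac_gl_lip (S.H ⟨nmDsLin, NmTp.plin, 0⟩) ((⟨nmDsLin, NmTp.plin, 0⟩ : NmQ).Z π) S.D0 C _ _ hC ?_ t v t' v'
    intro a a' v v'
    simp only [NmQ.Z, NmQ.W, NmQ.w]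
    rw [hb, hb]
    ring
  · show S.E ⟨nmDsLin, NmTp.plin, 0⟩ (1 - 0) 0 = 0
    rw [sub_zero]
    exact nm_E_zero S hπ hS.hasX _ hq 1 0 ⟨rfl, rfl, Or.inl ⟨rfl, rfl, rfl⟩⟩
  · intro t v t' _ htt _
    exact (nm_m_basic S hπ _ hq).2.2.2 (1 - t') (1 - t) v (by linarith)
  · refine Eventually.of_forall fun p hR hv => ?_
    obtain ⟨ht0, ht1, hv0, -, hh⟩ := hR
    have key := ac_ln_left S hπ h0 h1 h2 hS.hasX p.1 p.2 ht0 ht1 hv0 hh hv
    exact key
  · intro hy t ht0 ht1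
    have hy' : π.hyb = false := by
      cases hyb : π.hyb with
      | false => rfl
      | true => exact absurd hyb hy
    refine nm_E_zero S hπ hS.hasX _ hq (1 - t) (π.J * t) ⟨rfl, rfl, Or.inr (Or.inl ⟨hy', rfl, ?_, by linarith, by linarith, ?_⟩)⟩
    · rw [SfPar.Cr, h2]; linarith
    · rw [SfPar.u]; ring
  · exact hν.1.comp (measurable_const.sub measurable_id)
  · intro t
    exact hν.2 (1 - t)

/-- **LIN-SLAB.**   LEAF L-256-ACT-RSLAB-LIN: GLUE on Nm/Contract.lean (as EQ-SLAB, weak case), OWNER helper277, EST 350 lines. -/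
theorem ac_lin_rslab (hπ : π.Valid) (h0 : π.c2 = 0) (h1 : 0 < π.c1) (h2 : π.q = π.c1 + π.J) (hS : S.AcGood) (Lip : ℝ) :
    (acLinK S Lip).RSlab := by
  have hq := ac_ln_fam (π := π) h0 h1
  have hQm : π.Qm = 0 := by simp [SfPar.Qm, h0]
  have hCr : π.Cr = π.c1 := by simp [SfPar.Cr, h2]
  have hL := ac_ln_Lraw h0 h1 h2
  have hb : ∀ x : ℝ, π.b1 x = π.c1 * (x - 1) := by
    intro x; rw [SfPar.b1, h2]; ring
  constructor
  intro hy hc1
  have hy' : π.hyb = false := by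
    cases hyb : π.hyb with
    | false => rfl
    | true => exact absurd hyb hy
  have hc1' : π.c1 < 1 := hc1
  have hCr0 : 0 < π.Cr := by rw [hCr]; exact h1
  have hwk := nm_mr_weak S hπ hS.hasX {1} rfl hS.flat hy' (by rw [hQm]; exact zero_le_one) ⟨hCr0, by rw [hCr]; exact hc1'⟩ nmDsLin
    ⟨rfl, Or.inl ⟨_, hq, rfl⟩⟩
  have hwk' := (Measure.measurePreserving_sub_left volume (1 : ℝ)).quasiMeasurePreserving.ae hwk
  filter_upwards [hwk'] with tj htj b0 b1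
  have hu : π.u (1 - tj) = π.J * tj := by rw [SfPar.u]; ring
  have eL : (acLinK S Lip).mem (1 + (acLinK S Lip).c) = π.mu π.Lraw := by
    rw [hL]; rfl
  have eν : (acLinK S Lip).k0 + 2 * (acLinK S Lip).Γ - (acLinK S Lip).c * (acLinK S Lip).ν tj
      = 1 - π.d + 2 * π.Γ - π.Cr * nmNu (S.HP nmDsLin) π.b1 (1 - tj) := by
    rw [hCr]; rfl
  rw [eL, eν]
  refine ac_sl_core S hπ hS.hasX hy' hCr0 ⟨nmDsLin, NmTp.plin, 0⟩ hq rfl rfl rfl 1 one_pos ?_ tj _ b0 b1 ?_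
  · intro a j v haj _
    show π.b1 a ≤ π.b1 j
    rw [hb, hb]
    exact mul_le_mul_of_nonneg_left (by linarith) h1.le
  · intro ε hε
    rcases le_total (π.mu π.Lraw) (1 - π.d + 2 * π.Γ - π.Cr * nmNu (S.HP nmDsLin) π.b1 (1 - tj)) with hm | hm
    · rw [max_eq_right hm]
      have := htj (by linarith) (by linarith) ε hε
      rwa [hu] at this
    · rw [max_eq_left hm]
      exact ac_sl_raw S hπ hS.hasX hy' tj b0 b1 ε hε

/-! **LIN-OG** : `ao_lin_rog` (Act/Ogs.lean, helper137). -/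

/-- **LIN-ROOT** (sides (iii), (iv) of Def. names:side; crossing from value avoidance `LaySepL`) = `lay_ln_main` (Lay/LnMain.lean, helper142; proved from `lay_root_patch`, `lay_ra_cross_lin`). -/
theorem ac_lin_root (hπ : π.Valid) (h0 : π.c2 = 0) (h1 : 0 < π.c1) (h2 : π.q = π.c1 + π.J) (hS : S.AcGood) (Lip : ℝ) :
    ∀ᵐ p : ℝ × ℝ, (acLinK S Lip).Reg p.1 p.2 → 0 < (acLinK S Lip).mL p.1 p.2 →
      AcRoot (acHL S) false false true π.c1 π.d ((acLinK S Lip).mL p.1 p.2)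
        (fun x => ¬ (acLinK S Lip).hyb → (acLinK S Lip).c < 1 → x = (acLinK S Lip).ν p.1) p :=
  lay_ln_main S hπ h0 h1 h2 hS Lip

theorem ac_lin_prods (hπ : π.Valid) (h0 : π.c2 = 0) (h1 : 0 < π.c1) (h2 : π.q = π.c1 + π.J) (hS : S.AcGood) (Lip : ℝ) :
    (acLinK S Lip).Prods (acHL S) S.D0 where
  η_nn := hπ.eta.1.le
  link := by
    funext t v
    have hp : π.p = 1 + 2 * π.d - 2 * π.Γ := by linarith [hπ.pd]
    simp only [acLinK, acE, acHL, NmSeq.E, NmQ.Z, NmQ.W, NmQ.w, acParOf, SfPar.b1]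
    rw [hp, h2]
    ring
  root := ac_lin_root S hπ h0 h1 h2 hS Lip

end lin

section str

variable {π : SfPar} {C0 : ℝ} {κ : ℝ → ℝ} (S : NmSeq π C0 κ)


/-- the excess of a Lipschitz profile over a Lipschitz benchmark is Lipschitz, backward time -/
theorem ac_sr_lip (H Z : ℝ → ℝ → ℝ) (D0 C B : ℝ) (hH : ∀ a a' v v' : ℝ, |H a v - H a' v'| ≤ C * (|a - a'| + |v - v'|))
    (hZ : ∀ a a' v v' : ℝ, |Z a v - Z a' v'| ≤ B * (|a - a'| + |v - v'|)) (t v t' v' : ℝ) :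
    |(H (1 - t) v - D0 - Z (1 - t) v) - (H (1 - t') v' - D0 - Z (1 - t') v')| ≤ (C + B) * (|t - t'| + |v - v'|) := by
  have e0 : |1 - t - (1 - t')| = |t - t'| := by
    rw [show 1 - t - (1 - t') = -(t - t') by ring, abs_neg]
  have e1 := hH (1 - t) (1 - t') v v'
  have e2 := hZ (1 - t) (1 - t') v v'
  rw [e0] at e1 e2
  have e3 : (H (1 - t) v - D0 - Z (1 - t) v) - (H (1 - t') v' - D0 - Z (1 - t') v')
      = (H (1 - t) v - H (1 - t') v') - (Z (1 - t) v - Z (1 - t') v') := by ring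
  rw [e3]
  have e6 := abs_sub (H (1 - t) v - H (1 - t') v') (Z (1 - t) v - Z (1 - t') v')
  linarith

theorem ac_sr_abs3 (A B Cc α β μ M : ℝ) (hμ : |μ| ≤ M * (|α| + |β|)) :
    |A * α + B * β + Cc * (μ + β)| ≤ (|A| + |B| + |Cc| * (M + 1)) * (|α| + |β|) := by
  have n1 := abs_nonneg α
  have n2 := abs_nonneg β
  have a1 : |A * α| ≤ |A| * (|α| + |β|) := by
    rw [abs_mul]
    exact mul_le_mul_of_nonneg_left (by linarith) (abs_nonneg A)
  have a2 : |B * β| ≤ |B| * (|α| + |β|) := by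
    rw [abs_mul]
    exact mul_le_mul_of_nonneg_left (by linarith) (abs_nonneg B)
  have a3 : |Cc * (μ + β)| ≤ |Cc| * ((M + 1) * (|α| + |β|)) := by
    rw [abs_mul]
    refine mul_le_mul_of_nonneg_left ?_ (abs_nonneg Cc)
    have := abs_add_le μ β
    linarith
  have a4 := abs_add_le (A * α + B * β) (Cc * (μ + β))
  have a5 := abs_add_le (A * α) (B * β)
  nlinarith

/-- the benchmark of the artificial quadratic template is Lipschitz -/
theorem ac_sr_ZA (π : SfPar) (a a' v v' : ℝ) :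
    |(⟨nmDsStr π 1, NmTp.quad, 0⟩ : NmQ).Z π a v - (⟨nmDsStr π 1, NmTp.quad, 0⟩ : NmQ).Z π a' v'|
      ≤ (|π.p + π.d| + |3 + π.η| + |1 - π.η| * (1 + 1)) * (|a - a'| + |v - v'|) := by
  have e : (⟨nmDsStr π 1, NmTp.quad, 0⟩ : NmQ).Z π a v - (⟨nmDsStr π 1, NmTp.quad, 0⟩ : NmQ).Z π a' v'
      = (π.p + π.d) * (a - a') + (3 + π.η) * (v - v') + (1 - π.η) * (((a - a') + (v - v')) + (v - v')) := by
    simp only [NmQ.Z, NmQ.W, NmQ.w, NmDs.b, nmDsStr]
    ring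
  rw [e]
  refine ac_sr_abs3 _ _ _ _ _ _ 1 ?_
  rw [one_mul]
  exact abs_add_le _ _

/-- the benchmark of the clipped artificial template is Lipschitz -/
theorem ac_sr_ZK (π : SfPar) (a a' v v' : ℝ) :
    |(⟨nmDsStr π 1, NmTp.clip, 0⟩ : NmQ).Z π a v - (⟨nmDsStr π 1, NmTp.clip, 0⟩ : NmQ).Z π a' v'|
      ≤ (|π.p + π.d| + |3 + π.η| + |1 - π.η| * ((1 + |π.q - π.J|) + 1)) * (|a - a'| + |v - v'|) := by
  have e : (⟨nmDsStr π 1, NmTp.clip, 0⟩ : NmQ).Z π a v - (⟨nmDsStr π 1, NmTp.clip, 0⟩ : NmQ).Z π a' v'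
      = (π.p + π.d) * (a - a') + (3 + π.η) * (v - v') + (1 - π.η) *
        ((min (π.b2 1 + 1 * (a - 1) + v) (π.b1 a) - min (π.b2 1 + 1 * (a' - 1) + v') (π.b1 a')) + (v - v')) := by
    simp only [NmQ.Z, NmQ.W, NmQ.w, NmDs.b, nmDsStr]
    ring
  rw [e]
  refine ac_sr_abs3 _ _ _ _ _ _ _ ?_
  refine (abs_min_sub_min_le_max _ _ _ _).trans (max_le ?_ ?_)
  · have e1 : π.b2 1 + 1 * (a - 1) + v - (π.b2 1 + 1 * (a' - 1) + v') = (a - a') + (v - v') := by ring
    rw [e1]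
    have := abs_add_le (a - a') (v - v')
    have := mul_nonneg (abs_nonneg (π.q - π.J)) (add_nonneg (abs_nonneg (a - a')) (abs_nonneg (v - v')))
    linarith
  · have e1 : π.b1 a - π.b1 a' = (π.q - π.J) * (a - a') := by
      rw [SfPar.b1, SfPar.b1]
      ring
    rw [e1, abs_mul]
    have := mul_nonneg (abs_nonneg (π.q - π.J)) (abs_nonneg (v - v'))
    have := abs_nonneg (a - a')
    have := abs_nonneg (v - v')
    nlinarith

/-- **STR-NM.**   LEAF L-256-ACT-RNM-STR: GLUE on Nm/Contract.lean (as EQ-NM, display `nmDsStr π 1`), OWNER helper277, EST 350 lines. -/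
theorem ac_str_rnm (hπ : π.Valid) (h1 : π.c2 = 1) (h2 : π.q < 1) (hS : S.AcGood) : ∃ Lip : ℝ, (acStrK S Lip).RNm := by
  have hds : ∀ tp : NmTp, tp ≠ NmTp.plin → π.c2 = 1 ∧ π.q < 1 ∧ tp ≠ NmTp.plin ∧
      ∃ De : ℝ, 0 < De ∧ De ≤ 1 ∧ (π.hyb = true → De = 1) ∧ nmDsStr π 1 = nmDsStr π De :=
    fun tp htp => ⟨h1, h2, htp, 1, one_pos, le_refl _, fun _ => rfl, rfl⟩
  have hqA : (⟨nmDsStr π 1, NmTp.quad, 0⟩ : NmQ).Fam π :=
    ⟨le_refl _, fun h => (by cases h), Or.inr (Or.inr (hds _ (fun h => by cases h)))⟩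
  have hqK : 0 < π.Cr → (⟨nmDsStr π 1, NmTp.clip, 0⟩ : NmQ).Fam π := fun hCr =>
    ⟨le_refl _, fun _ => hCr, Or.inr (Or.inr (hds _ (fun h => by cases h)))⟩
  obtain ⟨CA, hCA⟩ := nm_H_lip S hπ _ hqA
  have hK : ∃ CK : ℝ, 0 < π.Cr → ∀ a a' v v' : ℝ,
      |S.H ⟨nmDsStr π 1, NmTp.clip, 0⟩ a v - S.H ⟨nmDsStr π 1, NmTp.clip, 0⟩ a' v'| ≤ CK * (|a - a'| + |v - v'|) := by
    by_cases hCr : 0 < π.Cr
    · obtain ⟨CK, hCK⟩ := nm_H_lip S hπ _ (hqK hCr)
      exact ⟨CK, fun _ => hCK⟩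
    · exact ⟨0, fun h => absurd h hCr⟩
  obtain ⟨CK, hCK⟩ := hK
  obtain ⟨BA, hBA⟩ : ∃ BA : ℝ, BA = |π.p + π.d| + |3 + π.η| + |1 - π.η| * (1 + 1) := ⟨_, rfl⟩
  obtain ⟨BK, hBK⟩ : ∃ BK : ℝ, BK = |π.p + π.d| + |3 + π.η| + |1 - π.η| * ((1 + |π.q - π.J|) + 1) := ⟨_, rfl⟩
  have hBA0 : 0 ≤ BA := by rw [hBA]; positivity
  have hBK0 : 0 ≤ BK := by rw [hBK]; positivity
  have hyb : ¬ (π.hyb = true) → π.hyb = false := by
    intro hy
    cases hb : π.hyb with
    | false => rfl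
    | true => exact absurd hb hy
  have hraw : (nmDsStr π 1).Raw π := ⟨rfl, Or.inl ⟨_, hqA, rfl⟩⟩
  have hb2 : π.b2 1 = 0 := by rw [SfPar.b2]; ring
  have hb1 : ∀ t : ℝ, π.b1 (1 - t) = -((π.q - π.J) * t) := by
    intro t; rw [SfPar.b1]; ring
  refine ⟨(|CA| + BA) + (|CK| + BK), ?_⟩
  refine
    { par := ⟨hπ.eta.1, hπ.eta.2, ?_, hπ.d1.1, hπ.d1.2, hπ.J0, ?_, ?_⟩
      q_lt := h2
      pl := ?_
      baseA := ⟨?_, ?_, ?_⟩
      pst_anti := ?_
      pst_ge := ?_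
      baseK := ?_ }
  · show 0 < π.Γ
    have := hπ.eta.1
    have := hπ.gam
    linarith
  · show 0 ≤ (|CA| + BA) + (|CK| + BK)
    positivity
  · show π.J < π.J + 1
    linarith
  · intro hy
    show π.J = (π.q + 1 / 2) / 2
    have := hπ.pl hy
    linarith
  · rintro t v ⟨ht0, ht1, hv0, -⟩ hn
    refine nm_E_nonneg S hπ hS.hasX _ hqA (1 - t) v ⟨by linarith, ?_⟩ hv0 ?_
    · show 1 - t ≤ 1
      linarith
    · intro hy
      refine ⟨rfl, ?_⟩
      show π.b2 1 + 1 * (1 - t - 1) + 2 * v ≤ 0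
      have : 2 * v ≤ t := hn hy
      rw [hb2]
      linarith
  · intro t v t' v' _ _
    have key := ac_sr_lip (S.H ⟨nmDsStr π 1, NmTp.quad, 0⟩) ((⟨nmDsStr π 1, NmTp.quad, 0⟩ : NmQ).Z π) S.D0 CA BA hCA
      (by rw [hBA]; exact ac_sr_ZA π) t v t' v'
    refine key.trans (mul_le_mul_of_nonneg_right ?_ (by positivity))
    have := le_abs_self CA
    have := abs_nonneg CK
    show CA + BA ≤ (|CA| + BA) + (|CK| + BK)
    linarith
  · show S.E ⟨nmDsStr π 1, NmTp.quad, 0⟩ (1 - 0) 0 = 0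
    rw [sub_zero]
    refine nm_E_zero S hπ hS.hasX _ hqA 1 0 ⟨rfl, ?_, Or.inl ⟨rfl, rfl, rfl⟩⟩
    show π.b2 1 + 1 * (1 - 1) + 0 = π.b1 1
    rw [hb2, SfPar.b1]
    ring
  · intro hy _ t t' ht0 htt ht1
    exact (nm_pst S hπ hS.hasX (hyb hy) _ hraw).1 (1 - t') (1 - t) (by linarith) (by linarith) (by linarith)
  · intro hy hC t ht0 ht1
    have key := (nm_pst S hπ hS.hasX (hyb hy) _ hraw).2 hC (1 - t) (by linarith) (by linarith)
    rw [hb1] at key
    exact key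
  · intro hy hC
    have hCr : 0 < π.Cr := hC
    refine ⟨?_, ?_, ?_⟩
    · rintro t v ⟨ht0, ht1, hv0, -⟩ -
      refine nm_E_nonneg S hπ hS.hasX _ (hqK hCr) (1 - t) v ⟨by linarith, ?_⟩ hv0 ?_
      · show 1 - t ≤ 1
        linarith
      · intro hy'
        exact absurd hy' hy
    · intro t v t' v' _ _
      have key := ac_sr_lip (S.H ⟨nmDsStr π 1, NmTp.clip, 0⟩) ((⟨nmDsStr π 1, NmTp.clip, 0⟩ : NmQ).Z π) S.D0 CK BK (hCK hCr)
        (by rw [hBK]; exact ac_sr_ZK π) t v t' v'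
      refine key.trans (mul_le_mul_of_nonneg_right ?_ (by positivity))
      have := le_abs_self CK
      have := abs_nonneg CA
      show CK + BK ≤ (|CA| + BA) + (|CK| + BK)
      linarith
    · show S.E ⟨nmDsStr π 1, NmTp.clip, 0⟩ (1 - 0) 0 = 0
      rw [sub_zero]
      refine nm_E_zero S hπ hS.hasX _ (hqK hCr) 1 0 ⟨rfl, ?_, Or.inl ⟨rfl, rfl, rfl⟩⟩
      show min (π.b2 1 + 1 * (1 - 1) + 0) (π.b1 1) = π.b1 1
      rw [hb2, SfPar.b1]
      simp

/-- **(SPG) along the sequence** (`Act/E2H/Defs.lean`, `Soft/Spg.lean`).   FREE: field `spg` of `SfDoc.Aff` (patch commit of helper118). -/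
theorem ac_e2hy (hy : π.hyb = true) : S.E2Hy := by
  intro n τ hτ
  exact (S.fine n τ hτ).ok.aff.spg hy

/-- **STR-BD** = Prop. act:strict-boundary (E2) at `D = 1` and at a typical virtual endpoint of a strong interval, on `lt_main` (R256/LT).
WIRED (helper277, 00:35Z): `ae2_bdry`, `ae2_strong` (Act/E2/Main.lean, helper46); the only open input is `ae2_hy_step` (Act/E2/Hy.lean; chief E2H helper198, Soft side helper206). -/
theorem ac_str_rbd (hπ : π.Valid) (h1 : π.c2 = 1) (h2 : π.q < 1) (hS : S.AcGood) (Lip : ℝ) : (acStrK S Lip).RBd := by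
  have hL : (acStrK S Lip).Lraw = π.Lraw := (ae2_lraw π h1 h2).symm
  have hY : π.hyb = true → S.E2Hy := ac_e2hy S
  refine ⟨fun hm0 hm1 => ?_, fun hy hC t0 t1 σ a b c d hs e f => ?_⟩
  · rw [hL] at hm0 hm1
    exact ae2_bdry S hπ h1 h2 hS.kpos hS.hasX hS.flat hY hm0 hm1
  · have hc : π.hyb = false := by
      cases hh : π.hyb
      · rfl
      · exact absurd hh hy
    exact ae2_strong S hπ h1 h2 hc hS.kpos hS.hasX hS.flat hC t0 t1 σ a b c d hs e f

/-- **STR-ROOT-H** (coarse quadratic side, no separation) = `asr_half` (Lay/RiStr.lean, helper197). -/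
theorem ac_str_root_half (hπ : π.Valid) (h1 : π.c2 = 1) (h2 : π.q < 1) (hS : S.AcGood) (Lip : ℝ) :
    0 < (acStrK S Lip).C1 → (acStrK S Lip).d ≤ 1 / 4 → ∀ᵐ p : ℝ × ℝ, 0 < p.1 → p.1 < 1 → 0 < p.2 →
      p.2 < (acStrK S Lip).Vm → p.2 < (1 - (acStrK S Lip).C1) * p.1 → 2 * p.2 < p.1 →
      ∃ m : ℝ, AcRoot (acHA S) true false false 1 (acStrK S Lip).d m (fun _ => True) p := by
  intro hC _
  filter_upwards [asr_half S hπ h1 h2 hS.hasX hS.flat hC] with p hp p1 p2 p3 _ p5 p6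
  exact hp ⟨p1, p2, p3, p5, p6⟩

/-- **STR-ROOT-O** (exact linear side on the clipped artificial branch) = `asr_one` (Lay/RiStr.lean, helper197). -/
theorem ac_str_root_one (hπ : π.Valid) (h1 : π.c2 = 1) (h2 : π.q < 1) (hS : S.AcGood) (Lip : ℝ) :
    ¬ (acStrK S Lip).hyb → 0 < (acStrK S Lip).C1 →
    (∀ t, 0 < t → t < 1 → (acStrK S Lip).pst t = -((acStrK S Lip).C1 * t)) → 2 * (acStrK S Lip).d ≤ (acStrK S Lip).C1 →
    (acStrK S Lip).C1 < 1 → ∀ᵐ p : ℝ × ℝ, 0 < p.1 → p.1 < 1 → (1 - (acStrK S Lip).C1) * p.1 < p.2 →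
      p.2 < (acStrK S Lip).Vm →
      (∃ m : ℝ, 0 < m ∧ AcRoot (acHK S) false false true (acStrK S Lip).C1 (acStrK S Lip).d m (fun _ => True) p) ∨
        AcRoot (acHK S) false false false (acStrK S Lip).C1 (acStrK S Lip).d 0 (fun _ => True) p := by
  intro hy hC hw _ _
  have hc : π.hyb = false := by
    cases hb : π.hyb with
    | false => rfl
    | true => exact absurd hb hy
  filter_upwards [asr_one S hπ h1 h2 hS.hasX hS.flat hc hC hw] with p hp p1 p2 p3 _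
  exact hp ⟨p1, p2, p3⟩

theorem ac_str_prods (hπ : π.Valid) (h1 : π.c2 = 1) (h2 : π.q < 1) (hS : S.AcGood) (Lip : ℝ) :
    (acStrK S Lip).Prods (acHA S) (acHK S) S.D0 where
  η_nn := hπ.eta.1.le
  linkA := by
    funext t v
    have hp : π.p = 1 + 2 * π.d - 2 * π.Γ := by linarith [hπ.pd]
    simp only [acStrK, acE, acHA, NmSeq.E, NmQ.Z, NmQ.W, NmQ.w, NmDs.b, nmDsStr, acParOf, SfPar.b2]
    rw [hp]
    ring
  linkK := by
    funext t v
    have hp : π.p = 1 + 2 * π.d - 2 * π.Γ := by linarith [hπ.pd]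
    simp only [acStrK, acE, acHK, NmSeq.E, NmQ.Z, NmQ.W, NmQ.w, NmDs.b, nmDsStr, acParOf, AcStr.C1, SfPar.b1, SfPar.b2]
    rw [hp]
    have e1 : π.q * (1 - 1) + 1 * (1 - t - 1) + v = -t + v := by ring
    have e2 : (π.q - π.J) * (1 - t - 1) = -((π.q - π.J) * t) := by ring
    rw [e1, e2]
    ring
  half := ac_str_root_half S hπ h1 h2 hS Lip
  one := ac_str_root_one S hπ h1 h2 hS Lip

end str

end Claimed.Agent.R256
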