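import Claimed.Agent.R256.Act.AosFin
import Claimed.Agent.R256.Act.Sup
import Claimed.Agent.R256.Nm.Mem.Y5b

/-!
# Row 256, section Act, unit AOS (typical time scores = `AoTime`, 06 l.766-780), file 3: THE SEQUENCE, THE THREE BRANCHES      (architect helper9; prefix `aos_`)

EXITS `aos_time_strong`, `aos_time_weak`, `aos_time_lin` = the contracts `ao_time_strong`, `ao_time_weak`, `ao_time_lin` of `Act/Ogs.lean` VERBATIM.
* `aos_time_seq` : `aos_time_fin` along the sequence (`y = 0` : the score is `≥ 0`).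
* `aos_time_glue` : one finite step `p : FsPt` with an exact side `σ` at the time root `p.a` whose depth covers the three names  ⟹  `FsTime` for `uf`-most configurations.
* strong: `σ = (exact, quadratic, x_* = -(c - J)(t + h) + 3σ/4)`, `wd = σ/2`:  `l(a, v + k_R h) ≤ -(c-J)(t+h) + wd < x_* < p_*(a)`;  `PcList` from `nm_me_HP_below`, `nm_me_flat_list`.
* weak, linear: `σ = (exact, linear)`;  `l = b_1(a)` (weak: strictly clipped for `J h < δ`);  no `PcList`.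
-/

set_option autoImplicit false

namespace Claimed.Agent.R256

open Claimed.Agent.R255
open Claimed.Agent.R255.FLaw (pair)
open MeasureTheory Filter Topology
open Classical

noncomputable section

variable {π : SfPar} {C0 : ℝ} {κ : ℝ → ℝ} (S : NmSeq π C0 κ)

/-- `aos_time_fin` along the sequence -/
theorem aos_time_seq (hπ : π.Valid) (hX : S.HasX) (r : NmRt) (hr : ∀ Λ, r.Ok π Λ) (hDe : r.q.ds.De = 1)
    (hP : ∀ e : ℝ, 0 < e → ∀ᶠ n in uf, (S.D n).PcList π r e) (L : List NmAt) (M0 : ℝ) (hM0 : 0 ≤ M0)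
    (hL : ∀ n, AosLs (S.D n) π r.q r.σ r.a L M0) (h y : ℝ) (hh : 0 < h) (hy : 0 ≤ y) (hyD : r.a + y * h < 1) (ε : ℝ) (hε : 0 < ε) :
    ∀ᶠ n in uf, ((S.D n).P 1).pr (fun ω => ((S.D n).P 1).surC ((S.D n).tc (r.a + y * h)) (pair (S.D n).y0 ((S.D n).ats π L)) ω
      < (π.d * y - ε) * lg ((S.D n).s ^ h)) ≤ ε := by
  rcases hy.eq_or_lt with rfl | hy
  · refine Eventually.of_forall fun n => ?_
    obtain ⟨hs0, hs1⟩ := nm_me_s S n
    have hlg : 0 < lg ((S.D n).s ^ h) := by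
      unfold lg
      apply Real.log_pos
      have h1 : (S.D n).s ^ h < 1 := Real.rpow_lt_one hs0.le hs1 hh
      have h0 : 0 < (S.D n).s ^ h := Real.rpow_pos_of_pos hs0 _
      rw [lt_div_iff₀ h0]; linarith
    rw [ent_pr_eq_zero]
    · exact hε.le
    · intro ω hω hlt
      have h1 := ent_surC_nonneg ((S.D n).P 1) ((S.D n).tc (r.a + 0 * h)) (pair (S.D n).y0 ((S.D n).ats π L)) hω
      have h2 : (π.d * 0 - ε) * lg ((S.D n).s ^ h) < 0 := by
        have : π.d * 0 - ε < 0 := by linarith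
        exact mul_neg_of_neg_of_pos this hlg
      linarith
  · obtain ⟨Λ, H⟩ := aos_time_fin π hπ C0 1 (κ 1)
    obtain ⟨e0, he0, t0, ht0, H2⟩ := H r (hr Λ) hDe L M0 h y hM0 hh hy hyD ε hε
    filter_upwards [nm_me_t_small S t0 ht0, hP e0 he0] with n hn hPn
    exact H2 (S.D n) (nm_me_fine_mono (S.fine n 1 one_pos) hn) (nm_me_x_mono (S.fine n 1 one_pos).ok.core.hs hn (hX n)) hPn (hL n)

/-- one finite step with an exact side which covers the three names -/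
theorem aos_time_glue (hπ : π.Valid) (hX : S.HasX) (p : FsPt) (σ : NmSd) (hσ : σ.exact = true) (vr : ℝ)
    (hr : ∀ Λ, NmRt.Ok ⟨p.q, σ, p.a, vr, p.h, 0, 0⟩ π Λ) (hDe : p.q.ds.De = 1)
    (hP : ∀ e : ℝ, 0 < e → ∀ᶠ n in uf, (S.D n).PcList π ⟨p.q, σ, p.a, vr, p.h, 0, 0⟩ e)
    (Kg : Finset ℝ) (hK : ∀ z ∈ Kg, p.c ≤ z ∧ z ≤ p.c + 1) (hh : 0 < p.h) (ha : p.a + p.h < 1)
    (hl0 : AosDep π p.q σ p.a p.v) (hlk : ∀ k ∈ Kg, AosDep π p.q σ p.a (p.v + p.kR k * p.h)) (ε : ℝ) (hε : 0 < ε) :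
    ∀ᶠ n in uf, FsTime (S.D n) π p ε Kg := by
  have key : ∀ k ∈ Kg, ∀ z ∈ Kg, ∀ᶠ n in uf, ((S.D n).P 1).pr (fun ω => ((S.D n).P 1).surC ((S.D n).tc (p.a + (p.c + 1 - z) * p.h))
      (pair (S.D n).y0 ((S.D n).ats π (p.LA k))) ω < (π.d * (p.c + 1 - z) - ε) * lg ((S.D n).s ^ p.h)) ≤ ε := by
    intro k hk z hz
    obtain ⟨z1, z2⟩ := hK z hz
    refine aos_time_seq S hπ hX ⟨p.q, σ, p.a, vr, p.h, 0, 0⟩ hr hDe hP (p.LA k) 49 (by norm_num) (fun n => ?_) p.h (p.c + 1 - z) hh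
      (by linarith) ?_ ε hε
    · exact aos_side_ls (S.D n) (nm_me_s S n) π p.q σ hσ p.a p.v (p.v + p.kR k * p.h) p.g (p.g + k * p.h) (p.v + p.Ks * p.h) hl0 (hlk k hk)
    · show p.a + (p.c + 1 - z) * p.h < 1
      have : (p.c + 1 - z) * p.h ≤ 1 * p.h := mul_le_mul_of_nonneg_right (by linarith) hh.le
      linarith
  have h2 : ∀ k ∈ Kg, ∀ᶠ n in uf, ∀ z ∈ Kg, ((S.D n).P 1).pr (fun ω => ((S.D n).P 1).surC ((S.D n).tc (p.a + (p.c + 1 - z) * p.h))
      (pair (S.D n).y0 ((S.D n).ats π (p.LA k))) ω < (π.d * (p.c + 1 - z) - ε) * lg ((S.D n).s ^ p.h)) ≤ ε :=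
    fun k hk => (Filter.eventually_all_finset Kg).2 (key k hk)
  exact (Filter.eventually_all_finset Kg).2 h2

/-- **typical time scores, unclipped quadratic equality branch** = `ao_time_strong` -/
theorem aos_time_strong (hπ : π.Valid) (h1 : 0 < π.c2) (h2 : π.q = π.c2) (hS : S.AcGood) (hc : π.hyb = false) (hr : 0 < π.c2 - π.J)
    (h3 : 3 < π.c2) (t0 t1 σ : ℝ) (ht0 : 0 < t0) (ht : t0 < t1) (ht1 : t1 < 1) (hσ : 0 < σ)
    (hs : ∀ t, t0 < t → t < t1 → -((π.c2 - π.J) * t) + σ ≤ S.pst (nmDsEq π) (1 - t)) :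
    ∀ Ks : ℝ, 0 ≤ Ks → ∃ g0 wd : ℝ, 0 < g0 ∧ 0 < wd ∧
      AoTime S ⟨nmDsEq π, NmTp.quad, 0⟩ true π.c2 ((π.c2 + 1) / 2) Ks g0 t0 t1 wd := by
  intro Ks _
  refine ⟨1, σ / 2, one_pos, by positivity, ?_⟩
  intro Kg hK g hg1 _ δ hδ
  refine ⟨1, one_pos, ?_⟩
  intro h t v hh _ a3 a4 a5 a6 ε hε
  have hJ := hπ.J0
  have hv : 0 ≤ v := by
    have : 0 ≤ π.J * t := mul_nonneg hJ (by linarith)
    linarith
  obtain ⟨xs, hxs⟩ : ∃ xs : ℝ, xs = -((π.c2 - π.J) * (t + h)) + 3 * σ / 4 := ⟨_, rfl⟩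
  have hb : (nmDsEq π).b (1 - t - h) = -(π.c2 * (t + h)) := by
    simp only [NmDs.b, nmDsEq]; ring
  have hq : (⟨nmDsEq π, NmTp.quad, 0⟩ : NmQ).Fam π := ⟨le_rfl, (fun h => by cases h), Or.inl ⟨h1, h2, rfl, (fun h => by cases h)⟩⟩
  have hpst : xs < S.pst (nmDsEq π) (1 - t - h) := by
    have := hs (t + h) (by linarith) a4
    have e : (1 : ℝ) - (t + h) = 1 - t - h := by ring
    rw [e] at this
    rw [hxs]; linarith
  have hdep : ∀ x : ℝ, x ≤ (π.c2 + 1) / 2 * h → (nmDsEq π).b (1 - t - h) + (v + x) < xs := by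
    intro x hx
    rw [hb, hxs]
    nlinarith
  refine aos_time_glue S hπ hS.hasX (aoPt ⟨nmDsEq π, NmTp.quad, 0⟩ true π.c2 Ks g t v h) ⟨true, false, 0, 0, xs⟩ rfl v ?_ rfl ?_ Kg hK hh ?_ ?_ ?_ ε hε
  · intro Λ
    refine ⟨hq, rfl, ⟨?_, ?_⟩, hv, h1, fun hh' => ?_, fun _ => ⟨(fun h => by cases h), rfl⟩, (fun h => by cases h), (fun h => by cases h),
      (fun h => by cases h), fun _ _ => ⟨?_, (fun h => by cases h)⟩⟩
    · show 0 < 1 - t - h
      linarith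
    · show 1 - t - h < 1
      linarith
    · rw [hc] at hh'; cases hh'
    · show (nmDsEq π).b (1 - t - h) + v < xs
      have := hdep 0 (by positivity)
      rwa [add_zero] at this
  · intro e he
    have h0 : S.HP (nmDsEq π) xs (1 - t - h) = 0 := nm_me_HP_below S hS.hasX (nmDsEq π) rfl hpst
    filter_upwards [nm_me_flat_list S {1} rfl hS.flat (nmDsEq π) ⟨rfl, Or.inr rfl⟩ xs (1 - t - h) e (by rw [h0]; exact he) e he] with n hn
    intro _ _
    exact hn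
  · show 1 - t - h + h < 1
    linarith
  · show (nmDsEq π).b (1 - t - h) + v ≤ xs
    have := hdep 0 (by positivity)
    rw [add_zero] at this
    exact this.le
  · intro k hk
    obtain ⟨k1, k2⟩ := hK k hk
    show (nmDsEq π).b (1 - t - h) + (v + k / 2 * h) ≤ xs
    refine (hdep _ ?_).le
    exact mul_le_mul_of_nonneg_right (by linarith) hh.le

/-- **typical time scores, right part of the clipped equality template** = `ao_time_weak` -/
theorem aos_time_weak (hπ : π.Valid) (h1 : 0 < π.c2) (h2 : π.q = π.c2) (hS : S.AcGood) (hc : π.hyb = false)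
    (h3 : 1 ≤ π.c2 - π.J) (t0 t1 : ℝ) (ht0 : 0 < t0) (ht : t0 < t1) (ht1 : t1 < 1)
    (hw : ∀ t, t0 < t → t < t1 → S.pst (nmDsEq π) (1 - t) = -((π.c2 - π.J) * t)) :
    ∀ Ks : ℝ, 0 ≤ Ks → ∃ g0 wd : ℝ, 0 < g0 ∧ 0 < wd ∧
      AoTime S ⟨nmDsEq π, NmTp.clip, 0⟩ false (π.c2 - π.J) (π.c2 - π.J + 1) Ks g0 t0 t1 wd := by
  intro Ks _
  refine ⟨1, 1, one_pos, one_pos, ?_⟩
  intro Kg hK g hg1 _ δ hδ
  have hJ := hπ.J0
  have hJ1 : 0 < π.J + 1 := by linarith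
  refine ⟨δ / (π.J + 1), div_pos hδ hJ1, ?_⟩
  intro h t v hh hρ a3 a4 a5 a6 ε hε
  have hρ' : (π.J + 1) * h ≤ δ := by
    rw [le_div_iff₀ hJ1] at hρ; linarith
  have hv : 0 ≤ v := by
    have : 0 ≤ π.J * t := mul_nonneg hJ (by linarith)
    linarith
  have hCr : 0 < π.Cr := by rw [SfPar.Cr, h2]; linarith
  have hq : (⟨nmDsEq π, NmTp.clip, 0⟩ : NmQ).Fam π := ⟨le_rfl, fun _ => hCr, Or.inl ⟨h1, h2, rfl, (fun h => by cases h)⟩⟩
  have hcl : ∀ x : ℝ, 0 ≤ x → π.b1 (1 - t - h) < (nmDsEq π).b (1 - t - h) + (v + x) := by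
    intro x hx
    simp only [NmDs.b, nmDsEq, SfPar.b1, h2]
    nlinarith
  refine aos_time_glue S hπ hS.hasX (aoPt ⟨nmDsEq π, NmTp.clip, 0⟩ false (π.c2 - π.J) Ks g t v h) ⟨true, true, 0, 0, 0⟩ rfl v ?_ rfl ?_ Kg hK hh
    ?_ ?_ ?_ ε hε
  · intro Λ
    refine ⟨hq, rfl, ⟨?_, ?_⟩, hv, ?_, fun hh' => ?_, (fun h => by cases h), fun _ => Or.inr ⟨rfl, rfl, ?_⟩, (fun h => by cases h),
      (fun h => by cases h), (fun _ h => by cases h)⟩
    · show 0 < 1 - t - h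
      linarith
    · show 1 - t - h < 1
      linarith
    · show 0 < π.q - π.J
      rw [h2]; linarith
    · rw [hc] at hh'; cases hh'
    · show π.b1 (1 - t - h) < (nmDsEq π).b (1 - t - h) + v
      have := hcl 0 le_rfl
      rwa [add_zero] at this
  · intro e he
    refine Eventually.of_forall fun n => ?_
    intro _ h
    cases h
  · show 1 - t - h + h < 1
    linarith
  · show min ((nmDsEq π).b (1 - t - h) + v) (π.b1 (1 - t - h)) = π.b1 (1 - t - h)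
    have := hcl 0 le_rfl
    rw [add_zero] at this
    exact min_eq_right this.le
  · intro k hk
    obtain ⟨k1, k2⟩ := hK k hk
    show min ((nmDsEq π).b (1 - t - h) + (v + k * h)) (π.b1 (1 - t - h)) = π.b1 (1 - t - h)
    exact min_eq_right (hcl _ (mul_nonneg (by linarith) hh.le)).le

/-- **typical time scores, pure linear template** = `ao_time_lin` -/
theorem aos_time_lin (hπ : π.Valid) (h0 : π.c2 = 0) (h1 : 0 < π.c1) (h2 : π.q = π.c1 + π.J) (hS : S.AcGood) (hc : π.hyb = false)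
    (h3 : 1 ≤ π.c1) (t0 t1 : ℝ) (ht0 : 0 < t0) (ht : t0 < t1) (ht1 : t1 < 1) :
    ∀ Ks : ℝ, 0 ≤ Ks → ∃ g0 wd : ℝ, 0 < g0 ∧ 0 < wd ∧
      AoTime S ⟨nmDsLin, NmTp.plin, 0⟩ false π.c1 (π.c1 + 1) Ks g0 t0 t1 wd := by
  intro Ks _
  refine ⟨1, 1, one_pos, one_pos, ?_⟩
  intro Kg hK g hg1 _ δ hδ
  have hJ := hπ.J0
  refine ⟨1, one_pos, ?_⟩
  intro h t v hh _ a3 a4 a5 a6 ε hε
  have hv : 0 ≤ v := by
    have : 0 ≤ π.J * t := mul_nonneg hJ (by linarith)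
    linarith
  have hq : (⟨nmDsLin, NmTp.plin, 0⟩ : NmQ).Fam π := ⟨le_rfl, (fun h => by cases h), Or.inr (Or.inl ⟨h0, h1, rfl, rfl⟩)⟩
  refine aos_time_glue S hπ hS.hasX (aoPt ⟨nmDsLin, NmTp.plin, 0⟩ false π.c1 Ks g t v h) ⟨true, true, 0, 0, 0⟩ rfl v ?_ rfl ?_ Kg hK hh
    ?_ rfl (fun _ _ => rfl) ε hε
  · intro Λ
    refine ⟨hq, rfl, ⟨?_, ?_⟩, hv, ?_, fun hh' => ?_, (fun h => by cases h), fun _ => Or.inl rfl, (fun h => by cases h),
      (fun h => by cases h), (fun _ h => by cases h)⟩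
    · show 0 < 1 - t - h
      linarith
    · show 1 - t - h < 1
      linarith
    · show 0 < π.q - π.J
      rw [h2]; linarith
    · rw [hc] at hh'; cases hh'
  · intro e he
    refine Eventually.of_forall fun n => ?_
    intro _ h
    cases h
  · show 1 - t - h + h < 1
    linarith

end

end Claimed.Agent.R256
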