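import Claimed.Agent.R256.Act.AosKit
import Claimed.Agent.R256.Nm.Mrk.Time

/-!
# Row 256, section Act, unit AOS (typical time scores = `AoTime`, 06 l.766-780), file 2: CAUSAL COUNTING ON ONE CONFIGURATION      (architect helper9; prefix `aos_`)

* `aos_tlist` : a time cell `t_i` lists `≤ 4 s^(-2t) + 3` times of the gate near `i`      (analogue of `nm_mk_tlist`, Nm/Mrk/Row.lean).
* `aos_time_fin` : TYPE A.   An exact root `r`, a list `L` of atoms listed by the side (`AosLs`), a gap `h`, a depth `y > 0`: the time cell `t_{a + y h}` has the score `≥ (d y - ε) log (1/s^h)` given `(y_0, L)` off probability `ε`      (copy of `nm_mk_time_pq`, Nm/Mrk/Time.lean, `p = 0`, `q = y`; `nm_sd_pr`, `nm_mk_time_fin`, `nm_mk_tp_num`).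
-/

set_option autoImplicit false

namespace Claimed.Agent.R256

open Claimed.Agent.R255
open Claimed.Agent.R255.FLaw (pair)
open Classical

noncomputable section

/-- **the time cell `t_i` lists the times of the gate `j` near `i`**.
PLAN (cf. `nm_mk_tlist`).  `j := D.gt i`, `|j - i| ≤ t` (`nm_gt_near`), `j < 1`, `j ∈ D.G` (`nm_gt_mem`).   `c0 := nmVal s i c`.   `tc i ω = c` : `c0 ≤ T_1 < c0 + nmWd s i ≤ c0 + s^i` (`nm_rep_le`, `nm_rep_lt`, `nm_wd_le`).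
`T j ρ' ≤ T_1 ≤ T j ρ' + len j` (`Core.base`, `hlen.1`, `0 < s`):   `|T j ρ' - c0| ≤ s^i + len j =: R`.   `nm_mk_times`:  `2R / len j + 1 = 2 s^i / len j + 3 ≤ 2 s^(-2t) + 3`  (`s^(j+t) ≤ len j`, `s^i ≤ s^(j-t)`).      OWNER L-256-AOS-TL, EST 90 -/
theorem aos_tlist {D : SfDoc} {π : SfPar} {C0 τ κ0 t : ℝ} (hD : D.Fine π C0 τ κ0 t) {i : ℝ} (hi0 : 0 ≤ i) (hi1 : i + 2 * t ≤ 1) (c : ℤ) :
    ∃ S : Finset ℝ, (S.card : ℝ) ≤ 4 * D.s ^ (-(2 * t)) + 3 ∧ ∀ ω : D.Row 1, D.tc i ω = c →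
      ∀ ρ', D.Conn (D.gt i) 1 ρ' ω → D.T (D.gt i) ρ' ∈ S := by
  have hC := hD.ok.core
  obtain ⟨hs0, hs1⟩ := hC.hs
  have ht := hD.pos
  have hnear := abs_le.1 (nm_gt_near hD hi0 (by linarith : i ≤ 1))
  have hjG : D.gt i ∈ D.G := nm_gt_mem D ⟨1, hC.gate.1⟩ i
  obtain ⟨j, hj⟩ : ∃ j, j = D.gt i := ⟨_, rfl⟩
  rw [← hj] at hnear hjG ⊢
  have hj1 : j < 1 := by linarith [hnear.2]
  obtain ⟨hl1, hl2⟩ := hC.hlen.2 j hjG
  have hlen0 : 0 < D.len j := lt_of_lt_of_le (Real.rpow_pos_of_pos hs0 _) hl1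
  have hsi0 : 0 < D.s ^ i := Real.rpow_pos_of_pos hs0 _
  obtain ⟨R, hR⟩ : ∃ R, R = D.s ^ i + D.len j := ⟨_, rfl⟩
  have hR0 : 0 ≤ R := by
    rw [hR]
    positivity
  obtain ⟨S, hS1, hS2⟩ := nm_mk_times hC hjG (nmVal D.s i c) R hR0
  refine ⟨S, ?_, ?_⟩
  · have h3 : D.s ^ i ≤ D.s ^ (-(2 * t)) * D.len j := by
      calc D.s ^ i ≤ D.s ^ (j - t) := Real.rpow_le_rpow_of_exponent_ge hs0 hs1.le (by linarith [hnear.2])
        _ = D.s ^ (-(2 * t)) * D.s ^ (j + t) := by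
            rw [← Real.rpow_add hs0]
            congr 1
            ring
        _ ≤ _ := mul_le_mul_of_nonneg_left hl1 (Real.rpow_pos_of_pos hs0 _).le
    have h5 : 0 < D.s ^ (-(2 * t)) := Real.rpow_pos_of_pos hs0 _
    calc (S.card : ℝ) ≤ 2 * R / D.len j + 1 := hS1
      _ = 2 * (D.s ^ i / D.len j) + 3 := by
          rw [hR]
          field_simp
          ring
      _ ≤ 4 * D.s ^ (-(2 * t)) + 3 := by
          have h4 : D.s ^ i / D.len j ≤ D.s ^ (-(2 * t)) := by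
            rw [div_le_iff₀ hlen0]
            exact h3
          linarith
  · intro ω hc ρ' hconn
    apply hS2
    have e : nmVal D.s i c = nmRep D.s i (D.T 1 ω) := by
      rw [← hc]
      rfl
    have g1 := nm_rep_le D.s i (D.T 1 ω)
    have g2 := nm_rep_lt D.s i (D.T 1 ω)
    have g3 := nm_wd_le hs0 hs1 i
    obtain ⟨b1, b2, -, -⟩ := hC.base j hjG 1 hC.gate.1 hj1 ρ' ω hconn
    rw [hC.hlen.1] at b2
    rw [e, hR, abs_le]
    constructor <;> linarith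

/-- **typical time scores on one configuration**.
PLAN = `nm_mk_time_pq` with `p = 0`, `q = y`.   `Λ` of `nm_sd_pr`.   `g := ε * h`.   `(e1, t1)` := `nm_sd_pr` at `i = r.a` with accuracy `g / 16`;   `e0 := min e1 (ε / 2)`.
`t0 ≤ t1`, `t0 ≤ y h / 4`, `t0 ≤ (1 - (a + y h)) / 4`, `(7 + 2 d) t0 ≤ g / 8`, `g ≤ 1 / t0`, `10 / ε * s^(g/4) ≤ 1`, `M0 * s^(g/16) ≤ 1` for `s ≤ t0` (`nm_me_t0` twice).
`G` := the event of `PcList` (`fun _ => True` if `r.σ.lin = true`);   `E ω := p ω ≠ 0 ∧ G ω`.   `RowPr (gt a) E Z s^(-g/16)`;   `nm_mk_row_comp` with `hL` (`M = M0`), `nm_sd_map Prod.snd`, `nm_rowpr_mono` : `RowPr (gt a) E (y_0, L) s^(-g/8)`.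
`nm_mk_time_fin` with `i = gt a < j = gt (a + y h) < 1`, `Θ = tc (a + y h)`, `M = 4 s^(-2t) + 3` (`aos_tlist`), `σ = (d y - ε) lg (s^h)`;   `nm_mk_tp_num` with `yx = y h`.   Finally the split `{E ∧ ..} ∪ {¬ G}`.      OWNER L-256-AOS-FIN, EST 200 -/
theorem aos_time_fin (π : SfPar) (hπ : π.Valid) (C0 τ κ0 : ℝ) : ∃ Λ : ℝ, ∀ r : NmRt, r.Ok π Λ → r.q.ds.De = 1 →
    ∀ (L : List NmAt) (M0 h y : ℝ), 0 ≤ M0 → 0 < h → 0 < y → r.a + y * h < 1 →
    ∀ ε : ℝ, 0 < ε → ∃ e0 : ℝ, 0 < e0 ∧ ∃ t0 : ℝ, 0 < t0 ∧ ∀ D : SfDoc, D.Fine π C0 τ κ0 t0 → nmX π D t0 → D.PcList π r e0 →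
      AosLs D π r.q r.σ r.a L M0 →
      (D.P 1).pr (fun ω => (D.P 1).surC (D.tc (r.a + y * h)) (pair D.y0 (D.ats π L)) ω < (π.d * y - ε) * lg (D.s ^ h)) ≤ ε := by
  obtain ⟨Λ, HS⟩ := nm_sd_pr π hπ C0 τ κ0
  refine ⟨Λ, fun r hr hDe L M0 h y hM0 hh hy hya ε hε => ?_⟩
  have hd : 0 < π.d := hπ.d1.1
  obtain ⟨g, hgdef⟩ : ∃ g : ℝ, g = ε * h := ⟨_, rfl⟩
  have hg : 0 < g := by rw [hgdef]; positivity
  have hyh : 0 < y * h := mul_pos hy hh
  have ha0 : 0 < r.a := hr.ha.1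
  obtain ⟨e1, he1, t1, ht1, HS'⟩ := HS r hr r.a le_rfl (by rw [hDe]; linarith) (g / 16) (by positivity)
  obtain ⟨ta, hta0, _, _, hta3, hta4⟩ := nm_me_t0 (g / 4) (max g (10 / ε)) (by positivity)
  obtain ⟨tb, htb0, _, _, _, htb4⟩ := nm_me_t0 (g / 16) M0 (by positivity)
  obtain ⟨t0, ht0def⟩ : ∃ t0 : ℝ, t0 = min (min ta t1) (min (min (y * h / 4) ((1 - (r.a + y * h)) / 4))
      (min (g / (8 * (7 + 2 * π.d))) tb)) := ⟨_, rfl⟩
  have k1 : t0 ≤ ta := by rw [ht0def]; exact (min_le_left _ _).trans (min_le_left _ _)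
  have k2 : t0 ≤ t1 := by rw [ht0def]; exact (min_le_left _ _).trans (min_le_right _ _)
  have k3 : t0 ≤ y * h / 4 := by rw [ht0def]; exact (min_le_right _ _).trans ((min_le_left _ _).trans (min_le_left _ _))
  have k4 : t0 ≤ (1 - (r.a + y * h)) / 4 := by
    rw [ht0def]; exact (min_le_right _ _).trans ((min_le_left _ _).trans (min_le_right _ _))
  have k5 : t0 ≤ g / (8 * (7 + 2 * π.d)) := by rw [ht0def]; exact (min_le_right _ _).trans ((min_le_right _ _).trans (min_le_left _ _))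
  have k6 : t0 ≤ tb := by rw [ht0def]; exact (min_le_right _ _).trans ((min_le_right _ _).trans (min_le_right _ _))
  have ht0 : 0 < t0 := by
    rw [ht0def]
    exact lt_min (lt_min hta0 ht1) (lt_min (lt_min (by positivity) (by linarith)) (lt_min (by positivity) htb0))
  refine ⟨min e1 (ε / 2), lt_min he1 (by positivity), t0, ht0, fun D hD hX hPc hL => ?_⟩
  have hcore := hD.ok.core
  obtain ⟨hs0, hs1⟩ := hcore.hs
  have pos : ∀ x : ℝ, 0 < D.s ^ x := fun x => Real.rpow_pos_of_pos hs0 x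
  -- the good event
  obtain ⟨G, hGpr, hGN⟩ : ∃ G : D.Row 1 → Prop, (D.P 1).pr (fun ω => ¬ G ω) ≤ ε / 2 ∧
      (r.σ.exact = true → r.σ.lin = false → (D.P 1).NVal G (D.Pc π r.q.ds r.σ.xs) (pair D.y0 (D.tc r.a)) (D.s ^ (-e1))) := by
    by_cases hc : r.σ.exact = true ∧ r.σ.lin = false
    · obtain ⟨G, g1, g2⟩ := hPc hc.1 hc.2
      refine ⟨G, g1.trans (min_le_right _ _), fun _ _ => ?_⟩
      exact ltk_nval_mono (D.P 1) g2 (fun _ h => h) (fun _ _ h => h) ⟨id, fun _ => rfl⟩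
        (nm_mk_tp_anti hs0 hs1 (neg_le_neg (min_le_left _ _)))
    · refine ⟨fun _ => True, ?_, fun h1 h2 => absurd ⟨h1, h2⟩ hc⟩
      have : (D.P 1).pr (fun _ => ¬ True) = 0 := ent_pr_eq_zero _ (fun _ _ h => h trivial)
      rw [this]
      positivity
  have hRow0 := HS' D (nm_me_fine_mono hD k2) (nm_me_x_mono hcore.hs k2 hX) G hGN
  have hRow1 := nm_mk_row_comp (B := pair D.y0 (D.ats π L)) hM0 hRow0 (fun _ x => by
    obtain ⟨S, h1, h2⟩ := hL x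
    exact ⟨S, h1, fun ω _ _ hA => h2 ω hA⟩)
  have hNM : D.s ^ (-(g / 16)) * M0 ≤ D.s ^ (-(g / 8)) := by
    have c1 := htb4 D.s hs0 (hD.sm.trans k6)
    have c2 : M0 ≤ D.s ^ (-(g / 16)) := by
      rw [Real.rpow_neg hs0.le, ← one_div, le_div_iff₀ (pos _)]
      exact c1
    calc D.s ^ (-(g / 16)) * M0 ≤ D.s ^ (-(g / 16)) * D.s ^ (-(g / 16)) := mul_le_mul_of_nonneg_left c2 (pos _).le
      _ = D.s ^ (-(g / 8)) := by rw [← Real.rpow_add hs0]; congr 1; ring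
  have hRow : D.RowPr (D.gt r.a) (fun ω => (D.P 1).p ω ≠ 0 ∧ G ω) (pair D.y0 (D.ats π L)) (D.s ^ (-(g / 8))) :=
    nm_rowpr_mono (nm_sd_map hRow1 Prod.snd) (fun _ h => h) hNM
  -- gates
  have hGne : D.G.Nonempty := ⟨1, hcore.gate.1⟩
  have ni := nm_gt_near hD (i := r.a) (by linarith) (by linarith)
  have nj := nm_gt_near hD (i := r.a + y * h) (by linarith) (by linarith)
  rw [abs_le] at ni nj
  have hij : D.gt r.a < D.gt (r.a + y * h) := by linarith [ni.2, nj.1]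
  have hj1 : D.gt (r.a + y * h) < 1 := by linarith [nj.2]
  have hM0' : (0 : ℝ) ≤ 4 * D.s ^ (-(2 * t0)) + 3 := by have := pos (-(2 * t0)); positivity
  have fin := nm_mk_time_fin hcore (nm_gt_mem D hGne _) (nm_gt_mem D hGne _) hij hj1 (fun ω => (D.P 1).p ω ≠ 0 ∧ G ω)
    (pair D.y0 (D.ats π L)) (D.tc (r.a + y * h)) ((π.d * y - ε) * lg (D.s ^ h)) hM0' hRow (by
      intro _ c
      obtain ⟨S, hS1, hS2⟩ := aos_tlist hD (i := r.a + y * h) (by linarith) (by linarith) c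
      exact ⟨S, hS1, fun ω _ _ hΘ ρ' hρ' => hS2 ω hΘ ρ' hρ'⟩)
  -- numerics
  have hexp : Real.exp ((π.d * y - ε) * lg (D.s ^ h)) = D.s ^ (-(π.d * (y * h) - g)) := by
    rw [nm_me_rpow_lgs D hs0]
    congr 1
    unfold SfDoc.lgs lg
    rw [one_div, one_div, Real.log_inv, Real.log_inv, Real.log_rpow hs0, hgdef]
    ring
  rw [hexp] at fin
  have hM7 : 4 * D.s ^ (-(2 * t0)) + 3 ≤ 7 * D.s ^ (-(2 * t0)) := by
    have : (1 : ℝ) ≤ D.s ^ (-(2 * t0)) := Real.one_le_rpow_of_pos_of_le_one_of_nonpos hs0 hs1.le (by linarith)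
    linarith
  have n1 : (7 + 2 * π.d) * t0 ≤ g / 8 := by
    have h7 : 0 < 8 * (7 + 2 * π.d) := by positivity
    rw [le_div_iff₀ h7] at k5
    linarith
  have n2 : g ≤ 1 / t0 := by
    have c1 : 1 / ta ≤ 1 / t0 := one_div_le_one_div_of_le ht0 k1
    exact ((le_max_left _ _).trans hta3).trans c1
  have n3 : 10 / ε * D.s ^ (g / 4) ≤ 1 := by
    have c1 := hta4 D.s hs0 (hD.sm.trans k1)
    exact (mul_le_mul_of_nonneg_right (le_max_right _ _) (pos _).le).trans c1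
  have num := nm_mk_tp_num D.s t0 g π.d (y * h) (D.gt (r.a + y * h) - D.gt r.a) ε
    (4 * D.s ^ (-(2 * t0)) + 3) hs0 hs1 ht0 hg hd hε (by linarith [ni.2, nj.1]) hM0' hM7 n1 n2 n3
  have fin2 := fin.trans num
  -- conclusion
  have hsplit : (D.P 1).pr (fun ω => (D.P 1).surC (D.tc (r.a + y * h)) (pair D.y0 (D.ats π L)) ω < (π.d * y - ε) * lg (D.s ^ h))
      ≤ (D.P 1).pr (fun ω => (((D.P 1).p ω ≠ 0 ∧ G ω) ∧ (D.P 1).surC (D.tc (r.a + y * h)) (pair D.y0 (D.ats π L)) ω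
        < (π.d * y - ε) * lg (D.s ^ h)) ∨ ¬ G ω) := by
    refine ent_pr_mono _ fun ω hω h => ?_
    by_cases hGω : G ω
    · exact Or.inl ⟨⟨hω, hGω⟩, h⟩
    · exact Or.inr hGω
  have hor := ent_pr_or_le (D.P 1) (fun ω => ((D.P 1).p ω ≠ 0 ∧ G ω) ∧ (D.P 1).surC (D.tc (r.a + y * h)) (pair D.y0 (D.ats π L)) ω
        < (π.d * y - ε) * lg (D.s ^ h)) (fun ω => ¬ G ω)
  linarith

end

end Claimed.Agent.R256
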