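import Claimed.Agent.R256.Act.OgsStep
import Claimed.Agent.R256.Nm.Sd.Main

/-!
# Row 256, section Act, unit AOS (typical time scores = `AoTime`, 06 l.766-780), file 1: THE EXACT SIDE LISTS `(y_0, C, X, S_k)`      (architect helper9; prefix `aos_`)

PAPER-FREE.   An EXACT side `Z = D.side π q σ a` (`σ.exact = true`) contains `y_0` (with the ray), `k̄`, `t_a`, `R_a`, `k_a` and `[P]_{x_*}` (quadratic) resp. `[L]_{b_1(a)}` (linear).
A name `𝒞^{g'}(a, v)` at the SAME time root is a function of these data and of its entry `L` (`aos_name_eq`);   `L = [P - 2 R_a X + 2 k_a B_{t_a}]_{l(a,v)}` takes `≤ 7` values if `l(a,v) ≤ x_*` (`nm_cell_close`), one value if `l(a,v) = b_1(a)`.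
EXIT `aos_side_ls` : `AosLs D π q σ a [𝒞^{g1}(a,v1), X^{(x)}, 𝒞^{g2}(a,v2)] 49`.
-/

set_option autoImplicit false

namespace Claimed.Agent.R256

open Claimed.Agent.R255
open Claimed.Agent.R255.FLaw (pair)
open Classical

noncomputable section

/-- every value of the side lists `(y_0, L)` with `≤ M` values -/
def AosLs (D : SfDoc) (π : SfPar) (q : NmQ) (σ : NmSd) (a : ℝ) (L : List NmAt) (M : ℝ) : Prop :=
  ∀ z : NmZv D.Idx, ∃ S : Finset ((D.Idx × SfRay) × List (NmVl D.Idx)), (S.card : ℝ) ≤ M ∧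
    ∀ ω : D.Row 1, D.side π q σ a ω = z → pair D.y0 (D.ats π L) ω ∈ S

theorem aos_kit_eqns_cite : True := by
  have := @AosLs.eq_1
  trivial

/-- the depth of `L` is read off the side -/
def AosDep (π : SfPar) (q : NmQ) (σ : NmSd) (a v : ℝ) : Prop := if σ.lin then q.l π a v = π.b1 a else q.l π a v ≤ σ.xs

theorem aos_kit_eqns_cite2 : True := by
  have := @AosDep.eq_1
  trivial

/-- a name is a function of `k̄`, the ray, `t_a`, `R_a`, `k_a` and `L`.      OWNER L-256-AOS-KIT, EST 40 -/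
theorem aos_name_eq (x x' : NmRaw) (s : ℝ) (π : SfPar) (q : NmQ) (a v : ℝ) (hkb : x.kb = x'.kb) (hz : x.z = x'.z)
    (ht : nmCell s a x.T = nmCell s a x'.T) (hR : x.Rc s q a = x'.Rc s q a) (hk : x.kc s q a = x'.kc s q a)
    (hL : x.Lc s π q a v = x'.Lc s π q a v) : x.name s π q a v = x'.name s π q a v := by
  have hta : x.ta s a = x'.ta s a := by
    unfold NmRaw.ta nmRep
    rw [ht]
  have hRa : x.Ra s q a = x'.Ra s q a := by
    have h := hR
    unfold NmRaw.Rc at h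
    unfold NmRaw.Ra nmRep
    rw [h]
  have hka : x.ka s q a = x'.ka s q a := by
    have h := hk
    unfold NmRaw.kc at h
    unfold NmRaw.ka nmRep
    rw [h]
  have hLa : x.La s π q a v = x'.La s π q a v := by
    have h := hL
    unfold NmRaw.Lc at h
    unfold NmRaw.La nmRep
    rw [h]
  unfold NmRaw.name NmRaw.Nres NmRaw.Dres
  rw [hkb, hz, ht, hR, hk, hL, hta, hRa, hka, hLa]

/-- what two final rows with the same exact side share (`z`: the ray is in `y_0`, `k̄` real = `nm_kbar_val`).      OWNER L-256-AOS-KIT, EST 50 -/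
theorem aos_side_raw (D : SfDoc) (π : SfPar) (q : NmQ) (σ : NmSd) (hσ : σ.exact = true) (a : ℝ) {ω ω' : D.Row 1}
    (h : D.side π q σ a ω = D.side π q σ a ω') :
    D.y0 ω = D.y0 ω' ∧ (D.raw π q.ds ω).kb = (D.raw π q.ds ω').kb ∧ (D.raw π q.ds ω).z = (D.raw π q.ds ω').z ∧
    nmCell D.s a (D.raw π q.ds ω).T = nmCell D.s a (D.raw π q.ds ω').T ∧
    (D.raw π q.ds ω).Rc D.s q a = (D.raw π q.ds ω').Rc D.s q a ∧ (D.raw π q.ds ω).kc D.s q a = (D.raw π q.ds ω').kc D.s q a := by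
  unfold SfDoc.side at h
  simp only [hσ, if_true, Prod.mk.injEq, Option.some.injEq] at h
  obtain ⟨⟨hy, -⟩, ⟨hkb, -, htc⟩, hR, hk, -⟩ := h
  have hray : D.ray 1 ω = D.ray 1 ω' := congrArg Prod.snd hy
  have hkbar : D.kbar π q.ds ω = D.kbar π q.ds ω' := by
    rw [nm_kbar_val, nm_kbar_val, hkb]
  refine ⟨hy, hkb, ?_, htc, hR, hk⟩
  unfold SfDoc.raw
  simp only []
  rw [hray, hkbar]

/-- the entries `L` of two final rows with the same exact side differ by `≤ 3` bins.   Linear: equal (entry of the side).   Quadratic: `|P - P'| ≤ s^(x_*)` (`nm_close_of_cell`), the other terms of `Lraw` agree, `nm_cell_close` with `b = x_*`, `b' = l ≤ x_*`, `K = 1`.      OWNER L-256-AOS-KIT, EST 70 -/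
theorem aos_side_L (D : SfDoc) (hs : 0 < D.s ∧ D.s < 1) (π : SfPar) (q : NmQ) (σ : NmSd) (hσ : σ.exact = true) (a v : ℝ)
    (hl : AosDep π q σ a v) {ω ω' : D.Row 1} (h : D.side π q σ a ω = D.side π q σ a ω') :
    |(((D.raw π q.ds ω).Lc D.s π q a v - (D.raw π q.ds ω').Lc D.s π q a v : ℤ) : ℝ)| ≤ 3 := by
  obtain ⟨-, -, hz, ht, hR, hk⟩ := aos_side_raw D π q σ hσ a h
  unfold SfDoc.side at h
  simp only [hσ, if_true, Prod.mk.injEq, Option.some.injEq] at h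
  obtain ⟨-, ⟨-, hP, -⟩, -, -, hLl⟩ := h
  unfold AosDep at hl
  by_cases hlin : σ.lin = true
  · rw [if_pos hlin] at hl
    rw [if_pos hlin, if_pos hlin] at hLl
    unfold NmRaw.Lc
    rw [hl, hLl]
    simp
  · rw [if_neg hlin] at hl
    have hlin' : σ.lin = false := by simpa using hlin
    simp only [hlin', Bool.not_false, Bool.and_self, if_true] at hP
    have hP' : nmCell D.s σ.xs (D.raw π q.ds ω).P = nmCell D.s σ.xs (D.raw π q.ds ω').P := hP
    have h1 := nm_close_of_cell hs.1 hs.2 hP'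
    have hta : (D.raw π q.ds ω).ta D.s a = (D.raw π q.ds ω').ta D.s a := by
      unfold NmRaw.ta nmRep
      rw [ht]
    have hRa : (D.raw π q.ds ω).Ra D.s q a = (D.raw π q.ds ω').Ra D.s q a := by
      have h := hR
      unfold NmRaw.Rc at h
      unfold NmRaw.Ra nmRep
      rw [h]
    have hka : (D.raw π q.ds ω).ka D.s q a = (D.raw π q.ds ω').ka D.s q a := by
      have h := hk
      unfold NmRaw.kc at h
      unfold NmRaw.ka nmRep
      rw [h]
    have h2 : |(D.raw π q.ds ω).Lraw D.s q a - (D.raw π q.ds ω').Lraw D.s q a| ≤ 1 * D.s ^ σ.xs := by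
      unfold NmRaw.Lraw
      rw [hz, hta, hRa, hka, one_mul]
      have e : ∀ A B C E : ℝ, A - C + E - (B - C + E) = A - B := fun A B C E => by ring
      rw [e]
      exact h1
    have h3 := nm_cell_close hs.1 hs.2 σ.xs (q.l π a v) h2
    have h4 : D.s ^ (-(q.l π a v - σ.xs)) ≤ 1 := Real.rpow_le_one hs.1.le hs.2.le (by linarith)
    unfold NmRaw.Lc
    linarith

/-- the exact side lists the names at its time root, every enlargement `g'`.   `S` = image of `Finset.Icc (c0 - 3) (c0 + 3)` under `c ↦` the name of a chosen row of the class with `L = c`; `aos_name_eq`.      OWNER L-256-AOS-KIT, EST 70 -/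
theorem aos_side_nm (D : SfDoc) (hs : 0 < D.s ∧ D.s < 1) (π : SfPar) (q : NmQ) (σ : NmSd) (hσ : σ.exact = true) (a v g' : ℝ)
    (hl : AosDep π q σ a v) (z : NmZv D.Idx) :
    ∃ S : Finset NmNm, (S.card : ℝ) ≤ 7 ∧ ∀ ω : D.Row 1, D.side π q σ a ω = z → D.nm π ⟨q.ds, q.tp, g'⟩ a v ω ∈ S := by
  by_cases hex : ∃ ω₀ : D.Row 1, D.side π q σ a ω₀ = z
  · obtain ⟨ω₀, hω₀⟩ := hex
    obtain ⟨c0, hc0⟩ : ∃ c0 : ℤ, c0 = (D.raw π q.ds ω₀).Lc D.s π q a v := ⟨_, rfl⟩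
    let f : ℤ → NmNm := fun c =>
      if hc : ∃ ω : D.Row 1, D.side π q σ a ω = z ∧ (D.raw π q.ds ω).Lc D.s π q a v = c then D.nm π ⟨q.ds, q.tp, g'⟩ a v hc.choose else nmZero
    refine ⟨(Finset.Icc (c0 - 3) (c0 + 3)).image f, ?_, ?_⟩
    · have h1 : ((Finset.Icc (c0 - 3) (c0 + 3)).image f).card ≤ 7 := by
        refine Finset.card_image_le.trans ?_
        rw [Int.card_Icc]
        have : c0 + 3 + 1 - (c0 - 3) = 7 := by ring
        rw [this]
        rfl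
      exact_mod_cast h1
    · intro ω hω
      have h3 := aos_side_L D hs π q σ hσ a v hl (hω.trans hω₀.symm)
      rw [← hc0] at h3
      have h3' : |(D.raw π q.ds ω).Lc D.s π q a v - c0| ≤ 3 := by exact_mod_cast h3
      rw [abs_le] at h3'
      refine Finset.mem_image.2 ⟨(D.raw π q.ds ω).Lc D.s π q a v, Finset.mem_Icc.2 ⟨by linarith [h3'.1], by linarith [h3'.2]⟩, ?_⟩
      have hc : ∃ ω' : D.Row 1, D.side π q σ a ω' = z ∧ (D.raw π q.ds ω').Lc D.s π q a v = (D.raw π q.ds ω).Lc D.s π q a v := ⟨ω, hω, rfl⟩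
      show (if hc : ∃ ω' : D.Row 1, D.side π q σ a ω' = z ∧ (D.raw π q.ds ω').Lc D.s π q a v = (D.raw π q.ds ω).Lc D.s π q a v
        then D.nm π ⟨q.ds, q.tp, g'⟩ a v hc.choose else nmZero) = _
      rw [dif_pos hc]
      obtain ⟨hs1, hs2⟩ := hc.choose_spec
      obtain ⟨-, hkb, hz, ht, hR, hk⟩ := aos_side_raw D π q σ hσ a (hs1.trans hω.symm)
      exact aos_name_eq _ _ D.s π ⟨q.ds, q.tp, g'⟩ a v hkb hz ht hR hk hs2
  · exact ⟨∅, by simp, fun ω hω => absurd ⟨ω, hω⟩ hex⟩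

/-- **EXIT**: the exact side lists `(y_0, 𝒞^{g1}(a,v1), X^{(x)}, 𝒞^{g2}(a,v2))`.      OWNER L-256-AOS-KIT, EST 60 -/
theorem aos_side_ls (D : SfDoc) (hs : 0 < D.s ∧ D.s < 1) (π : SfPar) (q : NmQ) (σ : NmSd) (hσ : σ.exact = true) (a v1 v2 g1 g2 x : ℝ)
    (h1 : AosDep π q σ a v1) (h2 : AosDep π q σ a v2) :
    AosLs D π q σ a [NmAt.nm ⟨q.ds, q.tp, g1⟩ a v1, NmAt.Xc x, NmAt.nm ⟨q.ds, q.tp, g2⟩ a v2] 49 := by
  intro z
  by_cases hex : ∃ ω₀ : D.Row 1, D.side π q σ a ω₀ = z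
  · obtain ⟨ω₀, hω₀⟩ := hex
    obtain ⟨S1, hS1, hS1'⟩ := aos_side_nm D hs π q σ hσ a v1 g1 h1 z
    obtain ⟨S2, hS2, hS2'⟩ := aos_side_nm D hs π q σ hσ a v2 g2 h2 z
    refine ⟨(S1 ×ˢ S2).image (fun n : NmNm × NmNm =>
      (D.y0 ω₀, [(Sum.inl n.1 : NmVl D.Idx), Sum.inr (Sum.inl (D.Xc x ω₀)), Sum.inl n.2])), ?_, ?_⟩
    · have e1 : (((S1 ×ˢ S2).image (fun n : NmNm × NmNm =>
          (D.y0 ω₀, [(Sum.inl n.1 : NmVl D.Idx), Sum.inr (Sum.inl (D.Xc x ω₀)), Sum.inl n.2]))).card : ℝ) ≤ (S1.card : ℝ) * S2.card := by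
        have := (Finset.card_image_le (s := S1 ×ˢ S2) (f := fun n : NmNm × NmNm =>
          (D.y0 ω₀, [(Sum.inl n.1 : NmVl D.Idx), Sum.inr (Sum.inl (D.Xc x ω₀)), Sum.inl n.2])))
        rw [Finset.card_product] at this
        exact_mod_cast this
      have e2 : (S1.card : ℝ) * S2.card ≤ 7 * 7 := mul_le_mul hS1 hS2 (Nat.cast_nonneg _) (by norm_num)
      linarith
    · intro ω hω
      obtain ⟨hy, -⟩ := aos_side_raw D π q σ hσ a (hω.trans hω₀.symm)
      have hX : D.Xc x ω = D.Xc x ω₀ := by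
        unfold SfDoc.Xc
        have hray : D.ray 1 ω = D.ray 1 ω₀ := congrArg Prod.snd hy
        rw [hray]
      refine Finset.mem_image.2 ⟨(D.nm π ⟨q.ds, q.tp, g1⟩ a v1 ω, D.nm π ⟨q.ds, q.tp, g2⟩ a v2 ω),
        Finset.mem_product.2 ⟨hS1' ω hω, hS2' ω hω⟩, ?_⟩
      show _ = (D.y0 ω, [(Sum.inl (D.nm π ⟨q.ds, q.tp, g1⟩ a v1 ω) : NmVl D.Idx), Sum.inr (Sum.inl (D.Xc x ω)), Sum.inl (D.nm π ⟨q.ds, q.tp, g2⟩ a v2 ω)])
      rw [hy, hX]
  · exact ⟨∅, by simp, fun ω hω => absurd ⟨ω, hω⟩ hex⟩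

end

end Claimed.Agent.R256
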