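import Claimed.Agent.R256.Act.Raw

/-!
# Row 256, section Act, file 4: FROM ROOTS TO ACTIONS      (chief helper277)      PAPER FREE

`ac_bridge_pt` : `ItExit` + `AcProd` at a differentiability point give `(∂_a - k ∂_v) H ≥ rhs` in the Dini form (backward time).
`ac_act` : the same for the excess `E = acE ..`, surplus `2Γ + η (c - k)` (quadratic), `2Γ + η c` (linear)   (05 l.1296-1301).
`ac_eq_acts`, `ac_lin_acts`, `ac_str_acts` : `AcIntC → Prods → Acts`;   `ac_supply_of_raw : AcIntC → AcRawSupply → AcSupply`.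
-/

set_option autoImplicit false

namespace Claimed.Agent.R256

open MeasureTheory Filter Topology

/-- a positive lower bound of a finite set of positive numbers -/
theorem ac_B1_lmin (Λ : Finset ℝ) (h : ∀ l ∈ Λ, 0 < l) : ∃ c : ℝ, 0 < c ∧ ∀ l ∈ Λ, c ≤ l := by
  classical
  induction Λ using Finset.induction_on with
  | empty => exact ⟨1, one_pos, by simp⟩
  | insert k B hk ih =>
    obtain ⟨ε, hε, h'⟩ := ih (fun k' hk' => h k' (Finset.mem_insert_of_mem hk'))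
    refine ⟨min ε k, lt_min hε (h k (Finset.mem_insert_self _ _)), ?_⟩
    intro k' hk'
    rcases Finset.mem_insert.1 hk' with rfl | h''
    · exact min_le_right _ _
    · exact (min_le_left _ _).trans (h' k' h'')

/-- the two increments at roots within `C h` of a differentiability point -/
theorem ac_B1_incr (H : ℝ → ℝ → ℝ) (p : ℝ × ℝ) (L : ℝ × ℝ →L[ℝ] ℝ)
    (hL : HasFDerivAt (fun q : ℝ × ℝ => H q.1 q.2) L p) (k : ℝ) (hk : 0 ≤ k) (l : ℝ) (hl : 0 < l) (C : ℝ) (ε : ℝ) (hε : 0 < ε) :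
    ∀ᶠ h in 𝓝[>] (0 : ℝ), ∀ r : ℝ × ℝ, |r.1 - p.1| ≤ C * h → |r.2 - p.2| ≤ C * h →
      ((H (r.1 - l * h) r.2 - H r.1 r.2) / h - k * ((H r.1 (r.2 + l * h) - H r.1 r.2) / h)) / l
        ≤ -(L (1, k)) + ε := by
  set M : ℝ := |C| + l with hM
  have hM0 : 0 < M := by positivity
  set c : ℝ := ε * l / (2 * M * (1 + k)) with hc
  have hc0 : 0 < c := by positivity
  have hlo := hL.isLittleO.def hc0
  obtain ⟨ρ, hρ, hball⟩ := Metric.eventually_nhds_iff.1 hlo
  have hsmall : ∀ᶠ h in 𝓝[>] (0 : ℝ), M * h < ρ := by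
    have hcont : Continuous fun h : ℝ => M * h := by fun_prop
    refine nhdsWithin_le_nhds (hcont.continuousAt.eventually (gt_mem_nhds ?_))
    simpa using hρ
  filter_upwards [hsmall, self_mem_nhdsWithin] with h hs e3 r hr1 hr2
  have hh : (0 : ℝ) < h := e3
  have hCh : C * h ≤ |C| * h := mul_le_mul_of_nonneg_right (le_abs_self C) hh.le
  have hlh : 0 < l * h := mul_pos hl hh
  -- the basic estimate
  have key : ∀ x : ℝ × ℝ, |x.1 - p.1| ≤ M * h → |x.2 - p.2| ≤ M * h →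
      |H x.1 x.2 - H p.1 p.2 - L (x - p)| ≤ c * (M * h) := by
    intro x h1 h2
    have hd : dist x p ≤ M * h := by
      rw [Prod.dist_eq, Real.dist_eq, Real.dist_eq]
      exact max_le h1 h2
    have := hball (lt_of_le_of_lt hd hs)
    rw [Real.norm_eq_abs] at this
    refine this.trans (mul_le_mul_of_nonneg_left ?_ hc0.le)
    rw [← dist_eq_norm]
    exact hd
  have k0 := key r (by rw [hM, add_mul]; linarith) (by rw [hM, add_mul]; linarith)
  have k1 := key (r.1 - l * h, r.2)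
    (by
      simp only
      rw [hM, add_mul]
      have : |r.1 - l * h - p.1| ≤ |r.1 - p.1| + |l * h| := by
        have : r.1 - l * h - p.1 = (r.1 - p.1) - l * h := by ring
        rw [this]
        exact abs_sub _ _
      rw [abs_of_pos hlh] at this
      linarith)
    (by simp only; rw [hM, add_mul]; linarith)
  have k2 := key (r.1, r.2 + l * h)
    (by simp only; rw [hM, add_mul]; linarith)
    (by
      simp only
      rw [hM, add_mul]
      have : |r.2 + l * h - p.2| ≤ |r.2 - p.2| + |l * h| := by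
        have : r.2 + l * h - p.2 = (r.2 - p.2) + l * h := by ring
        rw [this]
        exact abs_add_le _ _
      rw [abs_of_pos hlh] at this
      linarith)
  simp only at k1 k2
  have c1 : L ((r.1 - l * h, r.2) - p) = L (r - p) - l * h * L (1, 0) := by
    have : ((r.1 - l * h, r.2) - p : ℝ × ℝ) = (r - p) - (l * h) • ((1, 0) : ℝ × ℝ) := by
      ext <;> simp <;> ring
    rw [this, map_sub, map_smul, smul_eq_mul]
  have c2 : L ((r.1, r.2 + l * h) - p) = L (r - p) + l * h * L (0, 1) := by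
    have : ((r.1, r.2 + l * h) - p : ℝ × ℝ) = (r - p) + (l * h) • ((0, 1) : ℝ × ℝ) := by
      ext <;> simp <;> ring
    rw [this, map_add, map_smul, smul_eq_mul]
  have c3 : L (1, k) = L (1, 0) + k * L (0, 1) := by
    have : ((1, k) : ℝ × ℝ) = ((1, 0) : ℝ × ℝ) + k • ((0, 1) : ℝ × ℝ) := by simp
    rw [this, map_add, map_smul, smul_eq_mul]
  rw [c1] at k1
  rw [c2] at k2
  have a0 := abs_le.1 k0
  have a1 := abs_le.1 k1
  have a2 := abs_le.1 k2
  have d1 : (H (r.1 - l * h) r.2 - H r.1 r.2) / h ≤ -l * L (1, 0) + 2 * c * M := by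
    rw [div_le_iff₀ hh]
    nlinarith [a0.1, a0.2, a1.1, a1.2]
  have d2 : l * L (0, 1) - 2 * c * M ≤ (H r.1 (r.2 + l * h) - H r.1 r.2) / h := by
    rw [le_div_iff₀ hh]
    nlinarith [a0.1, a0.2, a2.1, a2.2]
  have d3 : k * (l * L (0, 1) - 2 * c * M) ≤ k * ((H r.1 (r.2 + l * h) - H r.1 r.2) / h) :=
    mul_le_mul_of_nonneg_left d2 hk
  have d4 : 2 * c * M * (1 + k) = ε * l := by
    rw [hc]
    field_simp
  rw [c3, div_le_iff₀ hl]
  nlinarith

/-- LEAF L-256-ACT-B1.  Recipe: fix `ε`; `σ = ε/2` in `hex` gives `τ`; `hp τ` gives `κ0`; `hex` gives `pk, acc`; `hp` with `σ' = ε l_min / (4 (1+k))`.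
For the frequent `h`: `rhs - σ ≤ T.mean pk k ≤ mean over l of [(H(t-lh,v)-H)/(lh) - k (H(t,v+lh)-H)/(lh)] + σ'(1+k)/l_min` (divide by `T.L > 0`: `lg` of `δ ∈ (0,1)`).
By `HasFDerivAt` (see `og_S6_curve`) each bracket tends to `-f'(1,0) - k f'(0,1) = -f'(1,k)`.  Hence `f'(1,k) ≤ -rhs`; conclude by `og_S6_dini`. -/
theorem ac_bridge_pt (H : ℝ → ℝ → ℝ) (quad av cr : Bool) (a : ItPar) (k : ℝ) (hk : 0 ≤ k) (p : ℝ × ℝ)
    (hd : DifferentiableAt ℝ (fun q : ℝ × ℝ => H q.1 q.2) p)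
    (hex : ItExit quad av cr a k) (hp : AcProd H quad av cr a p) :
    OgDiniLe (fun τ => H (p.1 + τ) (p.2 + k * τ)) 0 (-(a.rhs quad k)) := by
  obtain ⟨L, hL⟩ := hd
  have hcurve := og_S6_curve _ p L hL 1 k
  simp only [one_mul] at hcurve
  refine og_S6_dini _ _ _ hcurve ?_
  refine le_of_forall_pos_le_add fun ε hε => ?_
  obtain ⟨τ, hτ, hex1⟩ := hex (ε / 2) (by positivity)
  obtain ⟨κ0, hκ0, hp1⟩ := hp τ hτ
  obtain ⟨pk, acc, hpk, hacc, hex2⟩ := hex1 κ0 hκ0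
  have hpk' := hpk
  obtain ⟨-, -, -, -, hne, hpos, -⟩ := hpk'
  obtain ⟨lm, hlm, hlm'⟩ := ac_B1_lmin pk.Lam hpos
  have hσ' : 0 < ε * lm / (4 * (1 + k)) := by positivity
  obtain ⟨C, hfr⟩ := hp1 pk acc hpk hacc _ hσ'
  have hev : ∀ᶠ h in 𝓝[>] (0 : ℝ), ∀ l ∈ pk.Lam, ∀ r : ℝ × ℝ, |r.1 - p.1| ≤ C * h → |r.2 - p.2| ≤ C * h →
      ((H (r.1 - l * h) r.2 - H r.1 r.2) / h - k * ((H r.1 (r.2 + l * h) - H r.1 r.2) / h)) / l
        ≤ -(L (1, k)) + ε / 4 :=
    (Filter.eventually_all_finset pk.Lam).2 fun l hl => ac_B1_incr H p L hL k hk l (hpos l hl) C (ε / 4) (by positivity)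
  obtain ⟨h, ⟨p', T, hr1, hr2, hTq, hTadm, hTav, hTcr, hT⟩, hh⟩ := (hfr.and_eventually hev).exists
  have hmean := hex2 T hTq hTadm hTav hTcr
  have hLpos : 0 < T.L := by
    unfold Tan.L Claimed.Agent.R255.lg
    refine Real.log_pos ?_
    rw [lt_div_iff₀ hTadm.t0.δ0]
    linarith [hTadm.t0.δ1]
  have hterm : ∀ l ∈ pk.Lam, (T.P.entC (T.O l) T.Cs - k * T.P.entC (T.Wd l) T.Cs) / (l * T.L) ≤ -(L (1, k)) + ε / 2 := by
    intro l hl
    have hl0 := hpos l hl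
    obtain ⟨u1, u2⟩ := hT l hl
    have u3 := hh l hl p' hr1 hr2
    have u4 : k * (((H p'.1 (p'.2 + l * h) - H p'.1 p'.2) / h - ε * lm / (4 * (1 + k))) * T.L) ≤ k * T.P.entC (T.Wd l) T.Cs :=
      mul_le_mul_of_nonneg_left u2 hk
    rw [div_le_iff₀ (mul_pos hl0 hLpos)]
    rw [div_le_iff₀ hl0] at u3
    have u5 : ε * lm / (4 * (1 + k)) * (1 + k) = ε * lm / 4 := by field_simp
    have u6 : ε * lm / 4 ≤ ε * l / 4 := by
      have := mul_le_mul_of_nonneg_left (hlm' l hl) hε.le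
      linarith
    have u7 : T.P.entC (T.O l) T.Cs - k * T.P.entC (T.Wd l) T.Cs
        ≤ (((H (p'.1 - l * h) p'.2 - H p'.1 p'.2) / h - k * ((H p'.1 (p'.2 + l * h) - H p'.1 p'.2) / h))
            + ε * lm / (4 * (1 + k)) * (1 + k)) * T.L := by
      nlinarith
    rw [u5] at u7
    have u8 : (((H (p'.1 - l * h) p'.2 - H p'.1 p'.2) / h - k * ((H p'.1 (p'.2 + l * h) - H p'.1 p'.2) / h)) + ε * lm / 4) * T.L
        ≤ ((-(L (1, k)) + ε / 4) * l + ε * l / 4) * T.L :=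
      mul_le_mul_of_nonneg_right (by linarith) hLpos.le
    calc T.P.entC (T.O l) T.Cs - k * T.P.entC (T.Wd l) T.Cs ≤ _ := u7
      _ ≤ _ := u8
      _ = (-(L (1, k)) + ε / 2) * (l * T.L) := by ring
  have hcard : (0 : ℝ) < pk.Lam.card := by exact_mod_cast Finset.card_pos.2 hne
  have hmean2 : T.mean pk k ≤ -(L (1, k)) + ε / 2 := by
    unfold Tan.mean
    rw [div_le_iff₀ hcard]
    calc ∑ l ∈ pk.Lam, (T.P.entC (T.O l) T.Cs - k * T.P.entC (T.Wd l) T.Cs) / (l * T.L)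
        ≤ ∑ _l ∈ pk.Lam, (-(L (1, k)) + ε / 2) := Finset.sum_le_sum hterm
      _ = (-(L (1, k)) + ε / 2) * pk.Lam.card := by rw [Finset.sum_const, nsmul_eq_mul, mul_comm]
  linarith

theorem acV_of_acM (E : ℝ → ℝ → ℝ) (G : ℝ) (p : ℝ × ℝ) (h : AcM E 0 G p) : AcV E G p := by
  unfold AcM at h
  unfold AcV
  simpa using h

/-- from the profile to the excess -/
theorem ac_E_of_H (P : AcPar) (D0 : ℝ) (H w : ℝ → ℝ → ℝ) (k r sw G : ℝ) (p : ℝ × ℝ)
    (hw : ∀ᶠ τ in 𝓝[>] (0 : ℝ), w (p.1 + τ) (p.2 + k * τ) - w p.1 p.2 = sw * τ)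
    (hH : OgDiniLe (fun τ => H (p.1 + τ) (p.2 + k * τ)) 0 (-r))
    (hG : G ≤ r - (1 + 3 * P.d - 2 * P.Γ) + (3 + P.η) * k + (1 - P.η) * sw) :
    AcM (acE P D0 H w) k G p := by
  intro ε hε
  filter_upwards [hH ε hε, hw, self_mem_nhdsWithin] with τ h1 h2 h3
  have hτ : (0 : ℝ) < τ := h3
  simp only [zero_add, add_zero, mul_zero] at h1 ⊢
  unfold acE
  have h4 : w (p.1 + τ) (p.2 + k * τ) = w p.1 p.2 + sw * τ := by linarith
  rw [h4]
  nlinarith [mul_le_mul_of_nonneg_right hG hτ.le]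

/-- one action at one root -/
theorem ac_act (P : AcPar) (hη : 0 ≤ P.η) (D0 : ℝ) (H w : ℝ → ℝ → ℝ) (quad av cr : Bool) (c m : ℝ)
    (N : ℝ → Prop) (k : ℝ) (p : ℝ × ℝ) (hroot : AcRoot H quad av cr c P.d m N p)
    (hex : ∀ a : ItPar, a.Ok → a.c = c → a.d = P.d → a.m = m → N a.ν → ItExit quad av cr a k)
    (hk : 0 ≤ k) (hkc : quad = true → 0 < c → k ≤ c)
    (hw : ∀ᶠ τ in 𝓝[>] (0 : ℝ),
      w (p.1 + τ) (p.2 + k * τ) - w p.1 p.2 = (-c + (if quad then 2 else 1) * k) * τ) :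
    AcM (acE P D0 H w) k (2 * P.Γ) p := by
  obtain ⟨hd, a, ha, hc, hdd, hm, hN, hp⟩ := hroot
  have hb := ac_bridge_pt H quad av cr a k hk p hd (hex a ha hc hdd hm hN) hp
  refine ac_E_of_H P D0 H w k (a.rhs quad k) _ _ p hw hb ?_
  have hc0 : 0 < c := hc ▸ ha.1
  unfold ItPar.rhs
  rw [hc, hdd]
  cases quad
  · simp only [Bool.false_eq_true, if_false]
    nlinarith [mul_nonneg hη hc0.le]
  · simp only [if_true]
    nlinarith [mul_nonneg hη (sub_nonneg.2 (hkc rfl hc0))]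

/-- quadratic template -/
theorem ac_act_q (P : AcPar) (hη : 0 ≤ P.η) (D0 : ℝ) (H : ℝ → ℝ → ℝ) (av cr : Bool) (c m : ℝ)
    (N : ℝ → Prop) (k : ℝ) (p : ℝ × ℝ) (hroot : AcRoot H true av cr c P.d m N p)
    (hex : ∀ a : ItPar, a.Ok → a.c = c → a.d = P.d → a.m = m → N a.ν → ItExit true av cr a k)
    (hk : 0 ≤ k) (hkc : 0 < c → k ≤ c) :
    AcM (acE P D0 H (fun t v => -(c * t) + 2 * v)) k (2 * P.Γ) p := by
  refine ac_act P hη D0 H _ true av cr c m N k p hroot hex hk (fun _ => hkc) ?_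
  refine Eventually.of_forall fun τ => ?_
  simp only [if_true]
  ring

/-- pure linear template -/
theorem ac_act_l (P : AcPar) (hη : 0 ≤ P.η) (D0 : ℝ) (H : ℝ → ℝ → ℝ) (av cr : Bool) (c m : ℝ)
    (N : ℝ → Prop) (k : ℝ) (p : ℝ × ℝ) (hroot : AcRoot H false av cr c P.d m N p)
    (hex : ∀ a : ItPar, a.Ok → a.c = c → a.d = P.d → a.m = m → N a.ν → ItExit false av cr a k)
    (hk : 0 ≤ k) :
    AcM (acE P D0 H (fun t v => -(c * t) + v)) k (2 * P.Γ) p := by
  refine ac_act P hη D0 H _ false av cr c m N k p hroot hex hk (fun h => absurd h (by simp)) ?_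
  refine Eventually.of_forall fun τ => ?_
  simp only [Bool.false_eq_true, if_false]
  ring

/-- linear branch of a clipped template: `b + v > b₁` at the root -/
theorem ac_act_c (P : AcPar) (hη : 0 ≤ P.η) (D0 : ℝ) (H : ℝ → ℝ → ℝ) (av cr : Bool) (c C1 m : ℝ)
    (N : ℝ → Prop) (k : ℝ) (p : ℝ × ℝ) (hroot : AcRoot H false av cr C1 P.d m N p)
    (hex : ∀ a : ItPar, a.Ok → a.c = C1 → a.d = P.d → a.m = m → N a.ν → ItExit false av cr a k)
    (hk : 0 ≤ k) (hbr : -(C1 * p.1) < -(c * p.1) + p.2) :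
    AcM (acE P D0 H (fun t v => min (-(c * t) + v) (-(C1 * t)) + v)) k (2 * P.Γ) p := by
  refine ac_act P hη D0 H _ false av cr C1 m N k p hroot hex hk (fun h => absurd h (by simp)) ?_
  have hcont : Continuous fun τ : ℝ => -(c * (p.1 + τ)) + (p.2 + k * τ) + C1 * (p.1 + τ) := by
    fun_prop
  have hpos : ∀ᶠ τ in 𝓝 (0 : ℝ), 0 < -(c * (p.1 + τ)) + (p.2 + k * τ) + C1 * (p.1 + τ) := by
    refine hcont.continuousAt.eventually (lt_mem_nhds ?_)
    simp only [add_zero, mul_zero]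
    linarith
  filter_upwards [nhdsWithin_le_nhds hpos] with τ hτ
  simp only [Bool.false_eq_true, if_false]
  rw [min_eq_right (by linarith), min_eq_right hbr.le]
  ring

theorem ac_eq_acts (hI : AcIntC) (K : AcEq) (HQ HC : ℝ → ℝ → ℝ) (D0 : ℝ)
    (hP : K.Prods HQ HC D0) : K.Acts := by
  have hk0 : K.k0 = 1 - K.d := rfl
  -- quadratic freezing at a root
  have qf : ∀ p : ℝ × ℝ, AcRoot HQ true true false K.c K.d (K.mQ p.1 p.2) (fun _ => True) p →
      0 < K.mQ p.1 p.2 → K.thrQ ≤ K.mQ p.1 p.2 → AcV K.EQ (2 * K.Γ) p := by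
    intro p hr hm hthr
    rw [hP.linkQ]
    refine acV_of_acM _ _ _ (ac_act_q K.toAcPar hP.η_nn D0 HQ true false K.c _ _ 0 p hr ?_ le_rfl
      (fun h => h.le))
    intro a ha hc hd hm' _
    unfold AcEq.thrQ at hthr
    by_cases h1 : K.c < 1
    · rw [if_pos h1, hk0] at hthr
      exact hI.qf_lo a ha (hc ▸ h1) (hm' ▸ hm) (by rw [hc, hd, hm']; exact hthr)
    · rw [if_neg h1, hk0] at hthr
      exact hI.qf_hi a ha (hc ▸ not_lt.1 h1) (hm' ▸ hm) (by rw [hd, hm']; exact hthr)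
  -- quadratic motion at a root
  have qm : 1 ≤ K.c → ∀ p : ℝ × ℝ,
      AcRoot HQ true true false K.c K.d (K.mQ p.1 p.2) (fun _ => True) p →
      0 < K.mQ p.1 p.2 → AcM K.EQ ((K.c + 1) / 4) (2 * K.Γ) p := by
    intro h1 p hr hm
    rw [hP.linkQ]
    refine ac_act_q K.toAcPar hP.η_nn D0 HQ true false K.c _ _ _ p hr ?_ (by linarith)
      (fun _ => by linarith)
    intro a ha hc hd hm' _
    have := hI.qm a ha (hc ▸ h1) (hm' ▸ hm)
    rwa [hc] at this
  refine ⟨?_, ?_, ?_, ?_⟩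
  · filter_upwards [hP.left] with p hp hL hm hthr
    exact qf p (hp hL hm) hm hthr
  · intro h1
    filter_upwards [hP.left] with p hp hL hm
    exact qm h1.le p (hp hL hm) hm
  · intro hh hC hcJ t0 t1 σ hS
    obtain ⟨wd, hwd, hr⟩ := hP.strong hh hC hcJ t0 t1 σ hS
    refine ⟨wd, hwd, ?_, ?_⟩
    · filter_upwards [hr] with p hp hL hm hthr
      exact qf p (hp hL hm) hm hthr
    · intro h1
      filter_upwards [hr] with p hp hL hm
      exact qm h1 p (hp hL hm) hm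
  · intro hh hC t0 t1 hW
    obtain ⟨wd, hwd, hr⟩ := hP.weak hh hC t0 t1 hW
    have hbr : ∀ p : ℝ × ℝ, K.RStrip t0 t1 wd p → -(K.C1 * p.1) < -(K.c * p.1) + p.2 := by
      intro p hp
      have := hp.2.2.1
      unfold AcEq.C1
      nlinarith
    refine ⟨wd, hwd, ?_, ?_, ?_⟩
    · filter_upwards [hr] with p hp hL hm hthr
      rw [hP.linkC]
      refine acV_of_acM _ _ _ (ac_act_c K.toAcPar hP.η_nn D0 HC false true K.c K.C1 _ _ 0 p
        (hp hL hm) ?_ le_rfl (hbr p hL))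
      intro a ha hc hd hm' _
      exact hI.lf a ha (hm' ▸ hm) (by rw [hd, hm', ← hk0]; exact hthr)
    · intro hc1 h1
      filter_upwards [hr] with p hp hL hm hthr
      rw [hP.linkC]
      refine acV_of_acM _ _ _ (ac_act_c K.toAcPar hP.η_nn D0 HC false true K.c K.C1 _ _ 0 p
        (hp hL hm) ?_ le_rfl (hbr p hL))
      intro a ha hc hd hm' hν
      exact hI.lf_lo a ha (hc ▸ h1) (hm' ▸ hm) (by rw [hd, hm', hc, hν hc1 h1, ← hk0]; exact hthr)
    · intro h1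
      filter_upwards [hr] with p hp hL hm hle
      rw [hP.linkC]
      refine ac_act_c K.toAcPar hP.η_nn D0 HC false true K.c K.C1 _ _ _ p
        (hp hL hm) ?_ (by linarith) (hbr p hL)
      intro a ha hc hd hm' _
      have := hI.lm_hi a ha (hc ▸ h1) (hm' ▸ hm) (by rw [hd, hm', ← hk0]; exact hle)
      rwa [hc] at this

theorem ac_lin_acts (hI : AcIntC) (K : AcLin) (HL : ℝ → ℝ → ℝ) (D0 : ℝ)
    (hP : K.Prods HL D0) : K.Acts := by
  have hk0 : K.k0 = 1 - K.d := rfl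
  refine ⟨?_, ?_, ?_, ?_⟩
  · filter_upwards [hP.root] with p hp hL hm hthr
    rw [hP.link]
    refine acV_of_acM _ _ _ (ac_act_l K.toAcPar hP.η_nn D0 HL false true K.c _ _ 0 p
      (hp hL hm) ?_ le_rfl)
    intro a ha hc hd hm' _
    exact hI.lf a ha (hm' ▸ hm) (by rw [hd, hm', ← hk0]; exact hthr)
  · intro hh h1
    filter_upwards [hP.root] with p hp hL hm hthr
    rw [hP.link]
    refine acV_of_acM _ _ _ (ac_act_l K.toAcPar hP.η_nn D0 HL false true K.c _ _ 0 p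
      (hp hL hm) ?_ le_rfl)
    intro a ha hc hd hm' hν
    exact hI.lf_lo a ha (hc ▸ h1) (hm' ▸ hm) (by rw [hd, hm', hc, hν hh h1, ← hk0]; exact hthr)
  · intro h1
    filter_upwards [hP.root] with p hp hL hm hle
    rw [hP.link]
    refine ac_act_l K.toAcPar hP.η_nn D0 HL false true K.c _ _ _ p (hp hL hm) ?_ (by linarith)
    intro a ha hc hd hm' _
    have := hI.lm_hi a ha (hc ▸ h1) (hm' ▸ hm) (by rw [hd, hm', ← hk0]; exact hle)
    rwa [hc] at this
  · intro h1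
    filter_upwards [hP.root] with p hp hL hm hge hle
    rw [hP.link]
    have hr := hp hL hm
    have hc0 : 0 < K.c := by
      obtain ⟨-, a, ha, hc, -⟩ := hr
      exact hc ▸ ha.1
    refine ac_act_l K.toAcPar hP.η_nn D0 HL false true K.c _ _ _ p hr ?_ hc0.le
    intro a ha hc hd hm' _
    have := hI.lm_lo a ha (hc ▸ h1) (hm' ▸ hm) (by rw [hd, hm', hc, ← hk0]; exact hge)
      (by rw [hd, hm', ← hk0]; exact hle)
    rwa [hc] at this

theorem ac_str_acts (hI : AcIntC) (K : AcStr) (HA HK : ℝ → ℝ → ℝ) (D0 : ℝ)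
    (hP : K.Prods HA HK D0) : K.Acts := by
  refine ⟨?_, ?_⟩
  · intro hC hd4
    filter_upwards [hP.half hC hd4] with p hp h1 h2 h3 h4 h5 h6
    obtain ⟨m, hr⟩ := hp h1 h2 h3 h4 h5 h6
    rw [hP.linkA]
    have := ac_act_q K.toAcPar hP.η_nn D0 HA false false 1 m _ (1 / 2) p hr
      (fun a ha hc hd _ _ => hI.qh a ha hc (hd ▸ hd4)) (by norm_num) (fun _ => by norm_num)
    simpa using this
  · intro hh hC hw h2d hC1
    filter_upwards [hP.one hh hC hw h2d hC1] with p hp h1 h2 h3 h4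
    rw [hP.linkK]
    have hbr : -(K.C1 * p.1) < -(1 * p.1) + p.2 := by nlinarith
    rcases hp h1 h2 h3 h4 with ⟨m, hm, hr⟩ | hr
    · have := ac_act_c K.toAcPar hP.η_nn D0 HK false true 1 K.C1 m _ 1 p hr
        (fun a ha hc hd hm' _ => hI.l1 a ha (by rw [hc, hd]; exact h2d) (hc ▸ hC1) (hm' ▸ hm))
        (by norm_num) hbr
      simpa using this
    · have := ac_act_c K.toAcPar hP.η_nn D0 HK false false 1 K.C1 0 _ 1 p hr
        (fun a ha hc hd hm' _ => hI.l1z a ha (by rw [hc, hd]; exact h2d) (hc ▸ hC1) hm')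
        (by norm_num) hbr
      simpa using this

/-- **roots + Int ⇒ packages** -/
theorem ac_supply_of_raw (hI : AcIntC) (η Γ : ℝ) (hyb : Prop) (h : AcRawSupply η Γ hyb) :
    AcSupply η Γ hyb := by
  rcases h with ⟨K, hK, h1, h2, h3⟩ | ⟨K, hK, h1, h2, h3⟩ | ⟨K, hK, h1, h2, h3⟩
  · obtain ⟨HQ, HC, D0, hP⟩ := hK.prods
    exact Or.inl ⟨K, hK.rest (ac_eq_acts hI K HQ HC D0 hP), h1, h2, h3⟩
  · obtain ⟨HL, D0, hP⟩ := hK.prods
    exact Or.inr (Or.inl ⟨K, hK.rest (ac_lin_acts hI K HL D0 hP), h1, h2, h3⟩)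
  · obtain ⟨HA, HK, D0, hP⟩ := hK.prods
    exact Or.inr (Or.inr ⟨K, hK.rest (ac_str_acts hI K HA HK D0 hP), h1, h2, h3⟩)

end Claimed.Agent.R256
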