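import Claimed.Agent.R256.LT.Main
import Claimed.Agent.R256.Int.Defs
import Claimed.Agent.R256.Lay.Law
import Claimed.Agent.R256.Lay.Sco
import Claimed.Agent.R256.Lay.Bud
import Claimed.Agent.R256.Lay.StarKit

/-!
# Row 256, section Act: THE ADAPTER  `Tan` (Int/Defs) ⟶ `LtData` (LT/Defs)      (architect helper279; shared by E1 = act:stationary-boundary and E2 = act:strict-boundary, helper46)      prefix `ltt_`

PAPER FREE.   `T : Tan` = a ONE-RECORD tangent datum (`nmTan` of Nm/Defs: law of the single experiment, `T.mrk 0` = the stored mark of the record, `T.O l` = child name at `a + l h`, `T.dsp l` its display), quadratic branch, rate `c = 1`.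
`A : T.Ω → Prop` = an event to which the single law is restricted (E1: the line event; E2 classical: `fun _ => True`),   `Z : T.Ω → ζ'` = the side (ANY map of which `T.Cs`, `T.F` are functions; E1: `T.Zs`; E2: a refinement of `T.Zs`),   `be, ka : ζ' → ℝ` = the line predicted by the side.
* `T.lt A Z be ka R : LtData (T.Ω × (Fin 2 → T.Ω))` : law `(T.P.cnd A).star Z 2` (base point `x.1`, two records `x.2 0`, `x.2 1`, conditionally i.i.d. given the side), side / root name / phase / line = functions of `Z x.1`,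
  marks of the record `i` = `T.mrk 0 (x.2 i)`, fibre label `S i` = cells of depth `R` of the two marks and of the five fibre entries (`T.ltS R`), output `O` = `T.O 1 (x.2 0)`.
* `T.LtIn ..` = what the consumer supplies, ALL ON THE SINGLE LAW `T.P.cnd A`:  geometry (`DspAt` at `l = 1`, pointwise on the support of `T.P`), the line on `A`, and the four probabilistic clauses `time`, `stat`, `prof`, `mem`.
* EXITS: `ltt_hyp` (`LtIn` + (mis) ⟹ `LtData.Hyp` with `G = True`), `ltt_ent` (the entropy of the conclusion of `lt_main` is an entropy of the single law), `ltt_pop` (failure of (mis) ⟹ a predictor of the slope from `(C, S)`),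
  `ltt_read` (a later child name `T.O l`, `l ≥ R + 1`, reads the fibre label), `ltt_main` = `lt_main` in this language.
CONSTANTS.  `A0 = δ^(-acc)` is the loss factor of `DspAt`; `B0 ≤ A0`, `10^6 ≤ A0`, `1000 acc ≤ min τ ε`: every list below has at most `C A0^k ≤ δ^(-τ)` elements (`C ≤ 10^12`, `k ≤ 100`).
Star calculus: `ltt_star_*` (from `iso_star_p_eq`, `iso_star_supp`, `en_copies_marg`, `lay_star_entC`, `lay_star_ci` of Lay/Walk).   Lists: `ltk_nval_close`, `ltk_nval_comp`, `ltk_nval_mono` (LT/Kit).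
-/

set_option autoImplicit false

namespace Claimed.Agent.R256

open Claimed.Agent.R255
open Claimed.Agent.R255.FLaw
open scoped BigOperators
open Classical

/-- a phase of Int as a phase of LT -/
def ItPh.ph (f : ItPh) : Ph := ⟨f.X, f.B, f.P, f.Y, f.N, f.D⟩

/-- type of the fibre labels -/
abbrev LttS : Type := (ℤ × ℤ) × ((ℤ × ℤ × ℤ) × (ℤ × ℤ))

namespace Tan

variable (T : Tan)

/-- the fibre label: cells of depth `R` of the marks and of the five fibre entries -/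
noncomputable def ltLab (R : ℝ) (f : ItPh) (μ : ItMk) : LttS := (itXi T.δ R μ, itQ true T.δ R f μ)

/-- the fibre label of the record, as an observation of the single experiment -/
noncomputable def ltS (R : ℝ) : T.Ω → LttS := fun ω => T.ltLab R (T.F ω) (T.mrk 0 ω)

/-- **the data of the line test** -/
noncomputable def lt {ζ' : Type} (A : T.Ω → Prop) (Z : T.Ω → ζ') (be ka : ζ' → ℝ) (R : ℝ) : LtData (T.Ω × (Fin 2 → T.Ω)) where
  P := (T.P.cnd A).star Z 2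
  δ := T.δ
  tZ := ζ'
  tC := T.γ
  tS := LttS
  tO := T.ο
  Zs := fun x => Z x.1
  C := fun x => T.Cs x.1
  S := fun i x => T.ltLab R (T.F x.1) (T.mrk 0 (x.2 i))
  O := fun x => T.O 1 (x.2 0)
  F := fun x => (T.F x.1).ph
  β := fun x => be (Z x.1)
  κ := fun x => ka (Z x.1)
  θ := fun i x => (T.mrk 0 (x.2 i)).th
  r := fun i x => (T.mrk 0 (x.2 i)).r

/-- the structural and geometric input (pointwise on the support of the UNRESTRICTED law) -/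
structure LtGeo {ζ' : Type} (Z : T.Ω → ζ') (a : ItPar) (K acc : ℝ) : Prop where
  δ0 : 0 < T.δ
  δ1 : T.δ < 1
  quad : T.quad = true
  c1 : a.c = 1
  acc0 : 0 < acc
  hB : a.B0 ≤ T.δ ^ (-acc)
  hC : (10 : ℝ) ^ 6 ≤ T.δ ^ (-acc)
  side_C : ∀ ω ω', Z ω = Z ω' → T.Cs ω = T.Cs ω'
  side_F : ∀ ω ω', Z ω = Z ω' → T.F ω = T.F ω'
  bdF : ∀ ω, T.P.p ω ≠ 0 → (T.F ω).nrm ≤ a.B0
  bdM : ∀ ω, T.P.p ω ≠ 0 → |(T.mrk 0 ω).th| ≤ a.B0 ∧ |(T.mrk 0 ω).r| ≤ a.B0 ∧ |(T.mrk 0 ω).k| ≤ a.B0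

/-- the display of the child name at `l` -/
structure LtDsp (a : ItPar) (K acc l : ℝ) : Prop where
  dfun : ∀ ω ω', T.O l ω = T.O l ω' → T.Cs ω = T.Cs ω' → T.dsp l ω = T.dsp l ω'
  dsp : ∀ ω, T.P.p ω ≠ 0 → T.DspAt a K (T.δ ^ (-acc)) l (T.F ω) (T.mrk 0 ω) (T.dsp l ω)

/-- the line on the event `A` -/
structure LtLine {ζ' : Type} (A : T.Ω → Prop) (Z : T.Ω → ζ') (be ka : ζ' → ℝ) (τ : ℝ) : Prop where
  hA : 0 < T.P.pr A
  bdL : ∀ ω, T.P.p ω ≠ 0 → A ω → |be (Z ω)| ≤ T.δ ^ (-τ) ∧ |ka (Z ω)| ≤ T.δ ^ (-τ)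
  line : ∀ ω, T.P.p ω ≠ 0 → A ω → |(T.mrk 0 ω).r - be (Z ω) - ka (Z ω) * (T.mrk 0 ω).th| ≤ T.δ ^ (10 - τ)

/-- the probabilistic clauses, on the single law restricted to `A` -/
structure LtPrb {ζ' : Type} (A : T.Ω → Prop) (Z : T.Ω → ζ') (d g τ R : ℝ) (Q : Finset ℝ) (M : ℝ → ℝ) : Prop where
  time : ∀ p ∈ Q, ∀ v ∈ Q, p ≤ v →
    (T.P.cnd A).pr (fun ω => (T.P.cnd A).surC (T.thn 0 v) (pair Z (T.thn 0 p)) ω < (d * (v - p) - τ) * T.L) ≤ τ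
  stat : (T.P.cnd A).miC (T.Xn 6) (T.ltS R) T.Cs ≤ τ * T.L
  prof : ∀ z ∈ Q, (T.P.cnd A).pr (fun ω => τ * T.L < |(T.P.cnd A).surC (T.Xn z) T.Cs ω - M z * T.L|) ≤ τ
  mem : ∀ z ∈ Q, g * z ≤ M z

end Tan

theorem ltt_eqns_cite : True := by
  have := @ItPh.ph.eq_1
  have := @Tan.ltLab.eq_1
  have := @Tan.ltS.eq_1
  have := @Tan.lt.eq_1
  trivial

/-! ## star calculus (leaf L-256-LTT-STAR) -/

section star

variable {Ω : Type} [Fintype Ω] {υ α β γ : Type}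

/-- support of the star law (`iso_star_supp`) -/
theorem ltt_star_supp (P : FLaw Ω) (Z : Ω → υ) (M : ℕ) (x : Ω × (Fin M → Ω)) (hx : (P.star Z M).p x ≠ 0) :
    P.p x.1 ≠ 0 ∧ ∀ i, P.p (x.2 i) ≠ 0 ∧ Z (x.2 i) = Z x.1 :=
  lsk_supp P Z M x hx

/-- one record of the star law has the law of the single experiment: events   (`iso_star_p_eq`, `en_cp_disint`, `en_cp_pi_marg`; or `en_copies_marg`-type computation with indicator functions) -/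
theorem ltt_star_pr (P : FLaw Ω) (Z : Ω → υ) (M : ℕ) (i : Fin M) (E : υ → Ω → Prop) :
    (P.star Z M).pr (fun x => E (Z x.1) (x.2 i)) = P.pr (fun ω => E (Z ω) ω) :=
  lsk_pr P Z M i E

/-- conditional surprises of functions of (side, record `i`)   (`ltt_star_pr` for the two fibres, `ltt_star_supp`) -/
theorem ltt_star_sur (P : FLaw Ω) (Z : Ω → υ) (M : ℕ) (i : Fin M) (g : υ → Ω → α) (g' : υ → Ω → β)
    (x : Ω × (Fin M → Ω)) (hx : (P.star Z M).p x ≠ 0) :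
    (P.star Z M).surC (fun x => g (Z x.1) (x.2 i)) (fun x => g' (Z x.1) (x.2 i)) x
      = P.surC (fun ω => g (Z ω) ω) (fun ω => g' (Z ω) ω) (x.2 i) :=
  lsk_sur P Z M i g g' x hx

/-- conditional mutual information of functions of (side, record `i`)   (four entropies, `en_copies_marg` as in `lay_star_entC`) -/
theorem ltt_star_miC (P : FLaw Ω) (Z : Ω → υ) (M : ℕ) (i : Fin M) (g : υ → Ω → α) (g' : υ → Ω → β) (g'' : υ → Ω → γ) :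
    (P.star Z M).miC (fun x => g (Z x.1) (x.2 i)) (fun x => g' (Z x.1) (x.2 i)) (fun x => g'' (Z x.1) (x.2 i))
      = P.miC (fun ω => g (Z ω) ω) (fun ω => g' (Z ω) ω) (fun ω => g'' (Z ω) ω) := by
  unfold FLaw.miC
  have a1 : (P.star Z M).ent (pair (fun x : Ω × (Fin M → Ω) => g (Z x.1) (x.2 i)) (fun x => g'' (Z x.1) (x.2 i)))
      = P.ent (pair (fun ω => g (Z ω) ω) (fun ω => g'' (Z ω) ω)) := by
    rw [iso_star_ent_pm, ie_ent]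
    exact Claimed.Agent.RW.en_copies_marg P.isoPm Z i (fun u ω => (g u ω, g'' u ω))
  have a2 : (P.star Z M).ent (pair (fun x : Ω × (Fin M → Ω) => g' (Z x.1) (x.2 i)) (fun x => g'' (Z x.1) (x.2 i)))
      = P.ent (pair (fun ω => g' (Z ω) ω) (fun ω => g'' (Z ω) ω)) := by
    rw [iso_star_ent_pm, ie_ent]
    exact Claimed.Agent.RW.en_copies_marg P.isoPm Z i (fun u ω => (g' u ω, g'' u ω))
  have a3 : (P.star Z M).ent (pair (pair (fun x : Ω × (Fin M → Ω) => g (Z x.1) (x.2 i)) (fun x => g' (Z x.1) (x.2 i)))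
        (fun x => g'' (Z x.1) (x.2 i)))
      = P.ent (pair (pair (fun ω => g (Z ω) ω) (fun ω => g' (Z ω) ω)) (fun ω => g'' (Z ω) ω)) := by
    rw [iso_star_ent_pm, ie_ent]
    exact Claimed.Agent.RW.en_copies_marg P.isoPm Z i (fun u ω => ((g u ω, g' u ω), g'' u ω))
  have a4 : (P.star Z M).ent (fun x : Ω × (Fin M → Ω) => g'' (Z x.1) (x.2 i)) = P.ent (fun ω => g'' (Z ω) ω) := by
    rw [iso_star_ent_pm, ie_ent]
    exact Claimed.Agent.RW.en_copies_marg P.isoPm Z i g''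
  rw [a1, a2, a3, a4]

/-- two records are conditionally independent given the side   (`iso_star_p_eq`: product weights; cf. `lay_star_ci` of Lay/Walk) -/
theorem ltt_star_ci (P : FLaw Ω) (Z : Ω → υ) (f : Ω → α) :
    (P.star Z 2).CI (fun x => f (x.2 0)) (fun x => f (x.2 1)) (fun x => Z x.1) := by
  rw [ent_ci_iff]
  unfold FLaw.miC
  have h := Claimed.Agent.RW.en_copies_ci (ι := Fin 2) P.isoPm Z (fun _ => f)
  rw [Fin.sum_univ_two] at h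
  have e0 : (P.star Z 2).ent (fun x => Z x.1) = (P.isoPm.copies Z (Fin 2)).ent (fun ω => Z ω.1) :=
    iso_star_ent_pm P Z 2 _
  have e1 : ∀ t : Fin 2, (P.star Z 2).ent (pair (fun x => f (x.2 t)) (fun x => Z x.1))
      = (P.isoPm.copies Z (Fin 2)).ent (fun ω => (Z ω.1, f (ω.2 t))) := by
    intro t
    rw [ent_pair_comm, iso_star_ent_pm]
    rfl
  have e3 : (P.star Z 2).ent (pair (pair (fun x => f (x.2 0)) (fun x => f (x.2 1))) (fun x => Z x.1))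
      = (P.isoPm.copies Z (Fin 2)).ent (fun ω => (Z ω.1, fun t => f (ω.2 t))) := by
    rw [← iso_star_ent_pm]
    refine ent_congr_ker _ _ _ fun ω ω' _ _ => ?_
    simp only [FLaw.pair, Prod.mk.injEq]
    constructor
    · rintro ⟨⟨h0, h1⟩, h2⟩
      refine ⟨h2, ?_⟩
      funext t
      fin_cases t
      · exact h0
      · exact h1
    · rintro ⟨h2, h3⟩
      exact ⟨⟨congrFun h3 0, congrFun h3 1⟩, h2⟩
  rw [e0, e1, e1, e3, h]
  ring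

/-- list relations of functions of (side, record `i`) -/
theorem ltt_star_nval (P : FLaw Ω) (Z : Ω → υ) (M : ℕ) (i : Fin M) (g : υ → Ω → α) (g' : υ → Ω → β) (N : ℝ)
    (h : P.NVal (fun _ => True) (fun ω => g (Z ω) ω) (fun ω => g' (Z ω) ω) N) :
    (P.star Z M).NVal (fun _ => True) (fun x => g (Z x.1) (x.2 i)) (fun x => g' (Z x.1) (x.2 i)) N :=
  lsk_nval P Z M i g g' N h

/-- restriction keeps list relations -/
theorem ltt_cnd_nval (P : FLaw Ω) (A : Ω → Prop) (hA : 0 < P.pr A) (X : Ω → α) (Y : Ω → β) (N : ℝ)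
    (h : P.NVal (fun _ => True) X Y N) : (P.cnd A).NVal (fun _ => True) X Y N :=
  lsk_cnd_nval P A hA X Y N h

/-- **popular value** (paper free; 06 l.390-393): if an independent posterior copy given `W` has `|k' - k| < w` with probability `> τ`, some function of `W` predicts `k` within `w` with probability `> τ`.
For each value of `W` take the point `ω'` of the fibre which maximises `P(|k ω' - k| < w | W)`;  `(P.ext (P.kerOf id W)).pr E = ∑_ω P.p ω ∑_ω' P(ω' | W = W ω) 1_E(ω, ω')`. -/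
theorem ltt_pop_abs (P : FLaw Ω) (W : Ω → γ) (k : Ω → ℝ) (w τ : ℝ)
    (h : τ < (P.ext (P.kerOf (fun ω => ω) W)).pr (fun x => |k x.2 - k x.1| < w)) :
    ∃ I : γ → ℝ, τ < P.pr (fun ω => |I (W ω) - k ω| < w) := by
  have hne : Nonempty Ω := by
    by_contra hcon
    have := P.sum_one
    rw [not_nonempty_iff] at hcon
    simp at this
  -- the maximiser
  have hmax : ∀ c : γ, ∃ ω'' : Ω, ∀ ω' : Ω, P.pr (fun ω => |k ω' - k ω| < w ∧ W ω = c)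
      ≤ P.pr (fun ω => |k ω'' - k ω| < w ∧ W ω = c) := by
    intro c
    obtain ⟨ω'', _, h2⟩ := Finset.exists_max_image (Finset.univ : Finset Ω)
      (fun ω' => P.pr (fun ω => |k ω' - k ω| < w ∧ W ω = c)) ⟨hne.some, Finset.mem_univ _⟩
    exact ⟨ω'', fun ω' => h2 ω' (Finset.mem_univ _)⟩
  choose m hm using hmax
  refine ⟨fun c => k (m c), lt_of_lt_of_le h ?_⟩
  -- symmetric form of the weights
  have hw : ∀ ω ω' : Ω, P.p ω * (P.kerOf (fun ω => ω) W).k ω ω'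
      = P.p ω' * ((if W ω = W ω' then P.p ω else 0) / P.fib W ω') := by
    intro ω ω'
    by_cases h0 : P.p ω = 0
    · rw [h0]; simp
    · have hpos : 0 < P.fib W ω := ent_fib_pos P W h0
      show P.p ω * (P.cfib W ω).pr (fun ω'' => ω'' = ω') = _
      rw [ent_cfib_pr P W hpos]
      have e1 : P.pr (fun ω'' => ω'' = ω' ∧ W ω'' = W ω) = if W ω = W ω' then P.p ω' else 0 := by
        unfold FLaw.pr
        rw [Finset.sum_eq_single ω']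
        · by_cases hW : W ω = W ω'
          · rw [if_pos hW, if_pos ⟨rfl, hW.symm⟩]
          · rw [if_neg hW, if_neg (fun hh => hW hh.2.symm)]
        · intro b _ hb
          rw [if_neg (fun hh => hb hh.1)]
        · intro hh; exact absurd (Finset.mem_univ _) hh
      rw [e1]
      by_cases hW : W ω = W ω'
      · rw [if_pos hW, if_pos hW, ent_fib_congr P W hW]; ring
      · rw [if_neg hW, if_neg hW]; simp
  have e1 : (P.ext (P.kerOf (fun ω => ω) W)).pr (fun x => |k x.2 - k x.1| < w)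
      = P.ev (fun ω' => P.pr (fun ω => |k ω' - k ω| < w ∧ W ω = W ω') / P.fib W ω') := by
    unfold FLaw.pr FLaw.ev
    rw [Fintype.sum_prod_type, Finset.sum_comm]
    refine Finset.sum_congr rfl fun ω' _ => ?_
    beta_reduce
    rw [Finset.sum_div, Finset.mul_sum]
    refine Finset.sum_congr rfl fun ω _ => ?_
    show (if |k ω' - k ω| < w then P.p ω * (P.kerOf (fun ω => ω) W).k ω ω' else 0) = _
    rw [hw]
    by_cases hE : |k ω' - k ω| < w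
    · by_cases hW : W ω = W ω'
      · rw [if_pos hE, if_pos hW, if_pos ⟨hE, hW⟩]
      · rw [if_pos hE, if_neg hW, if_neg (fun hh => hW hh.2)]
    · rw [if_neg hE, if_neg (fun hh => hE hh.1)]; simp
  rw [e1, ent_pr_tower P W]
  refine ent_ev_mono P fun ω' h0 => ?_
  have hpos : 0 < P.fib W ω' := ent_fib_pos P W h0
  rw [ent_cfib_pr P W hpos]
  refine div_le_div_of_nonneg_right ?_ hpos.le
  refine (hm (W ω') ω').trans (le_of_eq ?_)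
  refine ent_pr_congr P fun ω _ => ?_
  constructor
  · rintro ⟨h1, h2⟩
    exact ⟨by rw [h2]; exact h1, h2⟩
  · rintro ⟨h1, h2⟩
    exact ⟨by rw [h2] at h1; exact h1, h2⟩

end star

/-! ## the fields of `LtData.Hyp` -/

/-- entropies of observations which agree on the support -/
theorem ltt_aux_ent_ae {Ω : Type} [Fintype Ω] {α : Type} (P : FLaw Ω) (X X' : Ω → α)
    (h : ∀ ω, P.p ω ≠ 0 → X ω = X' ω) : P.ent X = P.ent X' :=
  ent_congr_ker P _ _ fun ω ω' h1 h2 => by rw [h ω h1, h ω' h2]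

/-- conditional mutual informations of observations which agree on the support -/
theorem ltt_aux_miC_ae {Ω : Type} [Fintype Ω] {α β γ : Type} (P : FLaw Ω) (X X' : Ω → α) (Y Y' : Ω → β) (Z Z' : Ω → γ)
    (hX : ∀ ω, P.p ω ≠ 0 → X ω = X' ω) (hY : ∀ ω, P.p ω ≠ 0 → Y ω = Y' ω) (hZ : ∀ ω, P.p ω ≠ 0 → Z ω = Z' ω) :
    P.miC X Y Z = P.miC X' Y' Z' := by
  unfold FLaw.miC
  rw [ltt_aux_ent_ae P (pair X Z) (pair X' Z') (fun ω h => by simp only [pair, hX ω h, hZ ω h]),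
    ltt_aux_ent_ae P (pair Y Z) (pair Y' Z') (fun ω h => by simp only [pair, hY ω h, hZ ω h]),
    ltt_aux_ent_ae P (pair (pair X Y) Z) (pair (pair X' Y') Z')
      (fun ω h => by simp only [pair, hX ω h, hY ω h, hZ ω h]),
    ltt_aux_ent_ae P Z Z' hZ]

/-- conditional surprises of observations which agree on the support -/
theorem ltt_aux_surC_ae {Ω : Type} [Fintype Ω] {α β : Type} (P : FLaw Ω) (X X' : Ω → α) (Y Y' : Ω → β)
    (hX : ∀ ω, P.p ω ≠ 0 → X ω = X' ω) (hY : ∀ ω, P.p ω ≠ 0 → Y ω = Y' ω) (ω : Ω) (hω : P.p ω ≠ 0) :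
    P.surC X Y ω = P.surC X' Y' ω :=
  ent_surC_congr P X X' Y Y' ω (fun ω' h => by rw [hY ω' h, hY ω hω]) (fun ω' h _ => by rw [hX ω' h, hX ω hω])

section fields

variable (T : Tan) {ζ' : Type} (A : T.Ω → Prop) (Z : T.Ω → ζ') (be ka : ζ' → ℝ) (a : ItPar) (K acc d g τ χ ε R : ℝ) (Q : Finset ℝ) (M : ℝ → ℝ)

/-- LEAF L-256-LTT-STR. -/
theorem ltt_side (hG : T.LtGeo Z a K acc) (x x' : T.Ω × (Fin 2 → T.Ω)) (h : (T.lt A Z be ka R).Zs x = (T.lt A Z be ka R).Zs x') :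
    (T.lt A Z be ka R).C x = (T.lt A Z be ka R).C x' ∧ (T.lt A Z be ka R).F x = (T.lt A Z be ka R).F x' ∧
      (T.lt A Z be ka R).β x = (T.lt A Z be ka R).β x' ∧ (T.lt A Z be ka R).κ x = (T.lt A Z be ka R).κ x' := by
  have h' : Z x.1 = Z x'.1 := h
  refine ⟨hG.side_C _ _ h', ?_, ?_, ?_⟩
  · show (T.F x.1).ph = (T.F x'.1).ph
    rw [hG.side_F _ _ h']
  · show be (Z x.1) = be (Z x'.1)
    rw [h']
  · show ka (Z x.1) = ka (Z x'.1)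
    rw [h']

/-- LEAF L-256-LTT-STR.   `ltt_star_ci`. -/
theorem ltt_ci : (T.lt A Z be ka R).P.CI ((T.lt A Z be ka R).θ 0) ((T.lt A Z be ka R).θ 1) (T.lt A Z be ka R).Zs := by
  exact ltt_star_ci (T.P.cnd A) Z (fun ω => (T.mrk 0 ω).th)

/-- LEAF L-256-LTT-STR.   On the support of the star law of `T.P.cnd A` all three points are charged by `T.P`, lie in `A` and have the same side (`ltt_star_supp`, `ent_cnd_supp`); `B0 ≤ δ^(-acc) ≤ δ^(-τ)`. -/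
theorem ltt_size (hG : T.LtGeo Z a K acc) (hL : T.LtLine A Z be ka τ) (hτ : acc ≤ τ) (x : T.Ω × (Fin 2 → T.Ω))
    (hx : (T.lt A Z be ka R).P.p x ≠ 0) :
    ((T.lt A Z be ka R).F x).Bd (T.δ ^ (-τ)) ∧ |(T.lt A Z be ka R).β x| ≤ T.δ ^ (-τ) ∧ |(T.lt A Z be ka R).κ x| ≤ T.δ ^ (-τ) ∧
      ∀ i, |(T.lt A Z be ka R).θ i x| ≤ T.δ ^ (-τ) ∧ |(T.lt A Z be ka R).r i x| ≤ T.δ ^ (-τ) := by
  obtain ⟨h1, h2⟩ := ltt_star_supp (T.P.cnd A) Z 2 x hx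
  obtain ⟨hA1, hp1⟩ := (ent_cnd_supp T.P A hL.hA).1 h1
  have hB : a.B0 ≤ T.δ ^ (-τ) :=
    hG.hB.trans (Real.rpow_le_rpow_of_exponent_ge hG.δ0 hG.δ1.le (by linarith))
  have hn := hG.bdF x.1 hp1
  unfold ItPh.nrm at hn
  have hl := hL.bdL x.1 hp1 hA1
  refine ⟨⟨?_, ?_, ?_, ?_, ?_, ?_⟩, hl.1, hl.2, fun i => ?_⟩
  · exact (((le_max_left _ _).trans (le_max_left _ _)).trans (le_max_left _ _)).trans (hn.trans hB)
  · exact (((le_max_right _ _).trans (le_max_left _ _)).trans (le_max_left _ _)).trans (hn.trans hB)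
  · exact (((le_max_left _ _).trans (le_max_right _ _)).trans (le_max_left _ _)).trans (hn.trans hB)
  · exact (((le_max_right _ _).trans (le_max_right _ _)).trans (le_max_left _ _)).trans (hn.trans hB)
  · exact ((le_max_left _ _).trans (le_max_right _ _)).trans (hn.trans hB)
  · exact ((le_max_right _ _).trans (le_max_right _ _)).trans (hn.trans hB)
  · obtain ⟨_, hp2⟩ := (ent_cnd_supp T.P A hL.hA).1 (h2 i).1
    have hm := hG.bdM (x.2 i) hp2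
    exact ⟨hm.1.trans hB, hm.2.1.trans hB⟩

/-- LEAF L-256-LTT-STR. -/
theorem ltt_sline (hL : T.LtLine A Z be ka τ) (i : Fin 2) (x : T.Ω × (Fin 2 → T.Ω)) (hx : (T.lt A Z be ka R).P.p x ≠ 0) :
    |(T.lt A Z be ka R).r i x - (T.lt A Z be ka R).β x - (T.lt A Z be ka R).κ x * (T.lt A Z be ka R).θ i x| ≤ T.δ ^ (10 - τ) := by
  obtain ⟨_, h2⟩ := ltt_star_supp (T.P.cnd A) Z 2 x hx
  obtain ⟨hA2, hp2⟩ := (ent_cnd_supp T.P A hL.hA).1 (h2 i).1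
  have h := hL.line (x.2 i) hp2 hA2
  rw [(h2 i).2] at h
  exact h

/-- LEAF L-256-LTT-STR.   Two reals in the same cell `tcell δ R` differ by at most `2^(-tlev δ R) ≤ δ^R ≤ δ^(10-τ)`; the phase is a function of the root side... NOT needed: the label contains the cells of the entries themselves. -/
theorem ltt_fib (hG : T.LtGeo Z a K acc) (hR : 10 ≤ R) (hτ : 0 ≤ τ) (i : Fin 2) (x x' : T.Ω × (Fin 2 → T.Ω))
    (h : (T.lt A Z be ka R).CS i x = (T.lt A Z be ka R).CS i x') :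
    ((T.lt A Z be ka R).F x).SameFib ((T.lt A Z be ka R).θ i x) ((T.lt A Z be ka R).r i x) ((T.lt A Z be ka R).F x')
      ((T.lt A Z be ka R).θ i x') ((T.lt A Z be ka R).r i x') (T.δ ^ (10 - τ)) := by
  have h' : T.ltLab R (T.F x.1) (T.mrk 0 (x.2 i)) = T.ltLab R (T.F x'.1) (T.mrk 0 (x'.2 i)) := (Prod.mk.inj h).2
  unfold Tan.ltLab itXi itQ at h'
  simp only [if_true, Prod.mk.injEq] at h'
  obtain ⟨⟨a1, a2⟩, ⟨a3, a4, a5⟩, a6, a7⟩ := h'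
  have hle : T.δ ^ R ≤ T.δ ^ (10 - τ) := Real.rpow_le_rpow_of_exponent_ge hG.δ0 hG.δ1.le (by linarith)
  have key : ∀ v v' : ℝ, tcell T.δ R v = tcell T.δ R v' → |v - v'| ≤ T.δ ^ (10 - τ) := fun v v' hv =>
    (ltlo_cell_close hG.δ0 hG.δ1 (by linarith) hv).trans hle
  exact ⟨key _ _ a1, key _ _ a2, key _ _ a3, key _ _ a4, key _ _ a5, key _ _ a6, key _ _ a7⟩

/-- LEAF L-256-LTT-PRB.   `ltt_star_pr`, `ltt_star_sur` with `i = 0`. -/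
theorem ltt_time (hP : T.LtPrb A Z d g τ R Q M) : ∀ p ∈ Q, ∀ v ∈ Q, p ≤ v →
    (T.lt A Z be ka R).P.pr (fun x => (T.lt A Z be ka R).P.surC ((T.lt A Z be ka R).cb v ((T.lt A Z be ka R).θ 0))
      (pair (T.lt A Z be ka R).Zs ((T.lt A Z be ka R).cb p ((T.lt A Z be ka R).θ 0))) x < (d * (v - p) - τ) * (T.lt A Z be ka R).ℓ) ≤ τ := by
  intro p hp v hv hpv
  refine le_trans (le_of_eq ?_) (hP.time p hp v hv hpv)
  have e1 : ((T.P.cnd A).star Z 2).pr (fun x => ((T.P.cnd A).star Z 2).surC ((T.lt A Z be ka R).cb v ((T.lt A Z be ka R).θ 0))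
      (pair (T.lt A Z be ka R).Zs ((T.lt A Z be ka R).cb p ((T.lt A Z be ka R).θ 0))) x < (d * (v - p) - τ) * T.L)
      = ((T.P.cnd A).star Z 2).pr (fun x => (T.P.cnd A).surC (T.thn 0 v) (pair Z (T.thn 0 p)) (x.2 0) < (d * (v - p) - τ) * T.L) := by
    refine ent_pr_congr _ fun x hx => ?_
    have := ltt_star_sur (T.P.cnd A) Z 2 0 (fun _ ω => T.thn 0 v ω) (fun u ω => (u, T.thn 0 p ω)) x hx
    have e2 : ((T.P.cnd A).star Z 2).surC ((T.lt A Z be ka R).cb v ((T.lt A Z be ka R).θ 0))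
        (pair (T.lt A Z be ka R).Zs ((T.lt A Z be ka R).cb p ((T.lt A Z be ka R).θ 0))) x
        = (T.P.cnd A).surC (T.thn 0 v) (pair Z (T.thn 0 p)) (x.2 0) := this
    rw [e2]
  exact e1.trans (ltt_star_pr (T.P.cnd A) Z 2 0
    (fun _ ω => (T.P.cnd A).surC (T.thn 0 v) (pair Z (T.thn 0 p)) ω < (d * (v - p) - τ) * T.L))

/-- LEAF L-256-LTT-PRB.   `ltt_star_miC`; `T.Cs`, `T.F` are functions of the side (`LtGeo.side_C`, `side_F`). -/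
theorem ltt_stat (hG : T.LtGeo Z a K acc) (hP : T.LtPrb A Z d g τ R Q M) (i : Fin 2) :
    (T.lt A Z be ka R).P.miC ((T.lt A Z be ka R).Xb 6) ((T.lt A Z be ka R).S i) (T.lt A Z be ka R).C ≤ τ * (T.lt A Z be ka R).ℓ := by
  refine le_trans (le_of_eq ?_) hP.stat
  have hs : ∀ x : T.Ω × (Fin 2 → T.Ω), ((T.P.cnd A).star Z 2).p x ≠ 0 → Z (x.2 i) = Z x.1 := fun x hx =>
    ((ltt_star_supp (T.P.cnd A) Z 2 x hx).2 i).2
  have e1 : ((T.P.cnd A).star Z 2).miC ((T.lt A Z be ka R).Xb 6) ((T.lt A Z be ka R).S i) (T.lt A Z be ka R).C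
      = ((T.P.cnd A).star Z 2).miC (fun x => T.Xn 6 (x.2 i)) (fun x => T.ltS R (x.2 i)) (fun x => T.Cs (x.2 i)) := by
    refine ltt_aux_miC_ae _ _ _ _ _ _ _ (fun x hx => ?_) (fun x hx => ?_) (fun x hx => ?_)
    · show tcell T.δ 6 (T.F x.1).X = tcell T.δ 6 (T.F (x.2 i)).X
      rw [hG.side_F _ _ (hs x hx)]
    · show T.ltLab R (T.F x.1) (T.mrk 0 (x.2 i)) = T.ltLab R (T.F (x.2 i)) (T.mrk 0 (x.2 i))
      rw [hG.side_F _ _ (hs x hx)]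
    · exact (hG.side_C _ _ (hs x hx)).symm
  exact e1.trans (ltt_star_miC (T.P.cnd A) Z 2 i (fun _ ω => T.Xn 6 ω) (fun _ ω => T.ltS R ω) (fun _ ω => T.Cs ω))

/-- LEAF L-256-LTT-PRB. -/
theorem ltt_prof (hG : T.LtGeo Z a K acc) (hP : T.LtPrb A Z d g τ R Q M) : ∀ z ∈ Q,
    (T.lt A Z be ka R).P.pr (fun x => τ * (T.lt A Z be ka R).ℓ
      < |(T.lt A Z be ka R).P.surC ((T.lt A Z be ka R).Xb z) (T.lt A Z be ka R).C x - M z * (T.lt A Z be ka R).ℓ|) ≤ τ := by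
  intro z hz
  refine le_trans (le_of_eq ?_) (hP.prof z hz)
  have hs : ∀ x : T.Ω × (Fin 2 → T.Ω), ((T.P.cnd A).star Z 2).p x ≠ 0 → Z (x.2 0) = Z x.1 := fun x hx =>
    ((ltt_star_supp (T.P.cnd A) Z 2 x hx).2 0).2
  have e1 : ((T.P.cnd A).star Z 2).pr (fun x => τ * T.L
      < |((T.P.cnd A).star Z 2).surC ((T.lt A Z be ka R).Xb z) (T.lt A Z be ka R).C x - M z * T.L|)
      = ((T.P.cnd A).star Z 2).pr (fun x => τ * T.L < |(T.P.cnd A).surC (T.Xn z) T.Cs (x.2 0) - M z * T.L|) := by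
    refine ent_pr_congr _ fun x hx => ?_
    have e2 : ((T.P.cnd A).star Z 2).surC ((T.lt A Z be ka R).Xb z) (T.lt A Z be ka R).C x
        = ((T.P.cnd A).star Z 2).surC (fun x => T.Xn z (x.2 0)) (fun x => T.Cs (x.2 0)) x := by
      refine ltt_aux_surC_ae _ _ _ _ _ (fun y hy => ?_) (fun y hy => ?_) x hx
      · show tcell T.δ z (T.F y.1).X = tcell T.δ z (T.F (y.2 0)).X
        rw [hG.side_F _ _ (hs y hy)]
      · exact (hG.side_C _ _ (hs y hy)).symm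
    rw [e2, ltt_star_sur (T.P.cnd A) Z 2 0 (fun _ ω => T.Xn z ω) (fun _ ω => T.Cs ω) x hx]
  exact e1.trans (ltt_star_pr (T.P.cnd A) Z 2 0
    (fun _ ω => τ * T.L < |(T.P.cnd A).surC (T.Xn z) T.Cs ω - M z * T.L|))

theorem ltt_o_pair {Ω : Type} [Fintype Ω] {α β γ : Type} (P : FLaw Ω) (G : Ω → Prop) (A : Ω → α) (B : Ω → β) (C' : Ω → γ) {N M : ℝ}
    (hM : 0 ≤ M) (h1 : P.NVal G B A N) (h2 : P.NVal G C' A M) : P.NVal G (pair C' B) A (N * M) :=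
  ltk_nval_comp P G A B C' hM h1
    (ltk_nval_mono P h2 (fun _ h => h) (fun _ _ h => congrArg Prod.snd h) ⟨id, fun _ => rfl⟩ le_rfl)

theorem ltt_o_cell {Ω : Type} [Fintype Ω] {α : Type} (P : FLaw Ω) (A : Ω → α) (v : Ω → ℝ) {δ q Rr N : ℝ} (h0 : 0 < δ) (h1 : δ < 1)
    (hq : 0 ≤ q) (hR : 0 ≤ Rr) (h : ∀ ω ω', P.p ω ≠ 0 → P.p ω' ≠ 0 → A ω = A ω' → |v ω - v ω'| ≤ Rr * δ ^ q) (hN : 2 * Rr + 2 ≤ N) :
    P.NVal (fun _ => True) (fun ω => tcell δ q (v ω)) A N := by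
  have hp : 0 < δ ^ q := Real.rpow_pos_of_pos h0 q
  have := ltk_nval_close P (fun _ => True) A v (tlev δ q) (R := Rr * δ ^ q) (mul_nonneg hR hp.le)
    (fun ω ω' a b _ _ c => h ω ω' a b c)
  refine ltk_nval_mono P this (fun _ h => h) (fun _ _ h => h) ⟨id, fun _ => rfl⟩ ?_
  have e1 := lts_aux_pow_le h0 h1 hq
  have e2 : δ ^ q * δ ^ (-q) = 1 := by rw [← Real.rpow_add h0, add_neg_cancel, Real.rpow_zero]
  have e3 : Rr * δ ^ q * 2 ^ (tlev δ q) ≤ Rr * δ ^ q * (2 * δ ^ (-q)) := mul_le_mul_of_nonneg_left e1 (mul_nonneg hR hp.le)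
  have e4 : Rr * δ ^ q * (2 * δ ^ (-q)) = 2 * Rr * (δ ^ q * δ ^ (-q)) := by ring
  rw [e4, e2, mul_one] at e3
  linarith

theorem ltt_o_num {δ acc τ : ℝ} (h0 : 0 < δ) (h1 : δ < 1) (ha : 0 < acc) (hτ : 1000 * acc ≤ τ) (k : ℕ) (hk : k ≤ 1000) :
    (δ ^ (-acc)) ^ k ≤ δ ^ (-τ) := by
  rw [← Real.rpow_natCast, ← Real.rpow_mul h0.le]
  refine Real.rpow_le_rpow_of_exponent_ge h0 h1.le ?_
  have : (k : ℝ) ≤ 1000 := by exact_mod_cast hk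
  nlinarith

theorem ltt_o_msh {δ : ℝ} (h0 : 0 < δ) (q : ℝ) : (1 : ℝ) / 2 ^ (tlev δ q) ≤ δ ^ q := by
  have e1 := lts_aux_le_pow q h0
  have hp : 0 < δ ^ (-q) := Real.rpow_pos_of_pos h0 _
  calc (1 : ℝ) / 2 ^ (tlev δ q) ≤ 1 / δ ^ (-q) := one_div_le_one_div_of_le hp e1
    _ = δ ^ q := by rw [Real.rpow_neg h0.le, one_div, inv_inv]

theorem ltt_o_nrm {f : ItPh} {b : ℝ} (h : f.nrm ≤ b) : |f.X| ≤ b ∧ |f.B| ≤ b ∧ |f.P| ≤ b ∧ |f.Y| ≤ b ∧ |f.N| ≤ b ∧ |f.D| ≤ b := by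
  unfold ItPh.nrm at h
  simp only [max_le_iff] at h
  obtain ⟨⟨⟨h1, h2⟩, h3, h4⟩, h5, h6⟩ := h
  exact ⟨h1, h2, h3, h4, h5, h6⟩

theorem ltt_o_clean (T : Tan) {a : ItPar} {K A0 : ℝ} {f : ItPh} {μ : ItMk} {s : ItDsp} (hq : T.quad = true) (hc : a.c = 1)
    (h : T.DspAt a K A0 1 f μ s) :
    (|s.th| ≤ A0 ∧ |s.L| ≤ A0 ∧ |s.R| ≤ A0) ∧ (|s.th - μ.th| ≤ A0 * T.δ ∧ |s.R - μ.r| ≤ A0 * T.δ) ∧
    (|s.W - (f.B + s.th * f.X)| ≤ A0 * T.δ ∧ |s.V - (f.Y + s.th * f.X ^ 2)| ≤ A0 * T.δ) ∧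
    |s.vel - (f.N - s.L * f.X - s.R * f.X ^ 2)| ≤ A0 * T.δ ∧
    |s.pos - (f.D + s.th * f.N - s.L * (f.B + s.th * f.X) - s.R * (f.Y + s.th * f.X ^ 2))| ≤ A0 * T.δ ^ 2 ∧
    |f.P - s.L - 2 * s.R * f.X| ≤ A0 * T.δ := by
  obtain ⟨hb, hR⟩ := h.cutc hq hc.le
  have t := h.time
  have w := h.baseW
  have v := h.baseV
  have ve := h.vel
  have po := h.pos
  have dq := h.derq hq
  have e1 : T.δ ^ (1 : ℝ) = T.δ := Real.rpow_one _
  have e2 : T.δ ^ ((1 : ℝ) * 1) = T.δ := by rw [mul_one, Real.rpow_one]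
  have e3 : T.δ ^ ((1 + 1 : ℝ) * 1) = T.δ ^ 2 := by rw [mul_one, one_add_one_eq_two, Real.rpow_two]
  rw [hc, e2] at hR ve dq
  rw [hc, e3] at po
  rw [e1] at t w v
  rw [hb] at ve po dq
  simp only [zero_mul, mul_zero, sub_zero, add_zero] at ve po dq
  exact ⟨⟨h.bd.1, h.bd.2.1, h.bd.2.2.1⟩, ⟨t, hR⟩, ⟨w, v⟩, ve, po, dq⟩

theorem ltt_o_supp (T : Tan) {ζ' : Type} (A : T.Ω → Prop) (Z : T.Ω → ζ') (be ka : ζ' → ℝ) (a : ItPar) (K acc R : ℝ)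
    (hG : T.LtGeo Z a K acc) (hA : 0 < T.P.pr A) (x : T.Ω × (Fin 2 → T.Ω)) (hx : (T.lt A Z be ka R).P.p x ≠ 0) :
    T.P.p (x.2 0) ≠ 0 ∧ T.Cs (x.2 0) = T.Cs x.1 ∧ T.F (x.2 0) = T.F x.1 := by
  obtain ⟨-, h2⟩ := ltt_star_supp (T.P.cnd A) Z 2 x hx
  obtain ⟨h3, h4⟩ := h2 0
  exact ⟨((ent_cnd_supp T.P A hA).mp h3).2, hG.side_C _ _ h4, hG.side_F _ _ h4⟩

theorem ltt_o_pt (T : Tan) {ζ' : Type} (A : T.Ω → Prop) (Z : T.Ω → ζ') (be ka : ζ' → ℝ) (a : ItPar) (K acc R : ℝ)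
    (hG : T.LtGeo Z a K acc) (hD : T.LtDsp a K acc 1) (hA : 0 < T.P.pr A) (x : T.Ω × (Fin 2 → T.Ω))
    (hx : (T.lt A Z be ka R).P.p x ≠ 0) :
    T.DspAt a K (T.δ ^ (-acc)) 1 (T.F x.1) (T.mrk 0 (x.2 0)) (T.dsp 1 (x.2 0)) ∧ (T.F x.1).nrm ≤ T.δ ^ (-acc) ∧
      |(T.mrk 0 (x.2 0)).th| ≤ T.δ ^ (-acc) ∧ |(T.mrk 0 (x.2 0)).r| ≤ T.δ ^ (-acc) := by
  obtain ⟨h1, -, h3⟩ := ltt_o_supp T A Z be ka a K acc R hG hA x hx
  have h4 := hD.dsp _ h1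
  have h5 := hG.bdF _ h1
  rw [h3] at h4 h5
  exact ⟨h4, h5.trans hG.hB, (hG.bdM _ h1).1.trans hG.hB, (hG.bdM _ h1).2.1.trans hG.hB⟩

theorem ltt_o_same (T : Tan) {ζ' : Type} (A : T.Ω → Prop) (Z : T.Ω → ζ') (be ka : ζ' → ℝ) (a : ItPar) (K acc R : ℝ)
    (hG : T.LtGeo Z a K acc) (hD : T.LtDsp a K acc 1) (hA : 0 < T.P.pr A) (x x' : T.Ω × (Fin 2 → T.Ω))
    (hx : (T.lt A Z be ka R).P.p x ≠ 0) (hx' : (T.lt A Z be ka R).P.p x' ≠ 0)
    (h : (T.lt A Z be ka R).CO x = (T.lt A Z be ka R).CO x') : T.dsp 1 (x.2 0) = T.dsp 1 (x'.2 0) := by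
  obtain ⟨-, h2, -⟩ := ltt_o_supp T A Z be ka a K acc R hG hA x hx
  obtain ⟨-, h2', -⟩ := ltt_o_supp T A Z be ka a K acc R hG hA x' hx'
  have e1 : T.Cs x.1 = T.Cs x'.1 := congrArg Prod.fst h
  have e2 : T.O 1 (x.2 0) = T.O 1 (x'.2 0) := congrArg Prod.snd h
  exact hD.dfun _ _ e2 (by rw [h2, h2', e1])

theorem ltt_o_tri {s a b e : ℝ} (h1 : |s - a| ≤ e) (h2 : |s - b| ≤ e) : |a - b| ≤ 2 * e := by
  rw [abs_le] at h1 h2 ⊢
  constructor <;> linarith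

theorem ltt_o_mark (T : Tan) {ζ' : Type} (A : T.Ω → Prop) (Z : T.Ω → ζ') (be ka : ζ' → ℝ) (a : ItPar) (K acc R : ℝ)
    (hG : T.LtGeo Z a K acc) (hD : T.LtDsp a K acc 1) (hA : 0 < T.P.pr A) (x x' : T.Ω × (Fin 2 → T.Ω))
    (hx : (T.lt A Z be ka R).P.p x ≠ 0) (hx' : (T.lt A Z be ka R).P.p x' ≠ 0)
    (h : (T.lt A Z be ka R).CO x = (T.lt A Z be ka R).CO x') :
    |(T.mrk 0 (x.2 0)).th - (T.mrk 0 (x'.2 0)).th| ≤ 2 * (T.δ ^ (-acc) * T.δ) ∧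
      |(T.mrk 0 (x.2 0)).r - (T.mrk 0 (x'.2 0)).r| ≤ 2 * (T.δ ^ (-acc) * T.δ) := by
  have hs := ltt_o_same T A Z be ka a K acc R hG hD hA x x' hx hx' h
  obtain ⟨-, ⟨a1, a2⟩, -⟩ := ltt_o_clean T hG.quad hG.c1 (ltt_o_pt T A Z be ka a K acc R hG hD hA x hx).1
  obtain ⟨-, ⟨b1, b2⟩, -⟩ := ltt_o_clean T hG.quad hG.c1 (ltt_o_pt T A Z be ka a K acc R hG hD hA x' hx').1
  rw [← hs] at b1 b2
  exact ⟨ltt_o_tri a1 b1, ltt_o_tri a2 b2⟩

/-- LEAF L-256-LTT-O13.   `dfun`: the display is a function of `(C, O)`;  `DspAt.time`: `|θ' - θ| ≤ A0 δ`;  `ltk_nval_close`: at most `2 A0 δ 2^(tlev δ 1) + 2 ≤ 4 A0 + 2` cells. -/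
theorem ltt_out1 (hG : T.LtGeo Z a K acc) (hD : T.LtDsp a K acc 1) (hA : 0 < T.P.pr A) (hτ : 1000 * acc ≤ τ) :
    (T.lt A Z be ka R).P.NVal (fun _ => True) ((T.lt A Z be ka R).cb 1 ((T.lt A Z be ka R).θ 0)) (T.lt A Z be ka R).CO (T.δ ^ (-τ)) := by
  have h0 := hG.δ0
  have h1 := hG.δ1
  have hC := hG.hC
  have hn := ltt_o_num h0 h1 hG.acc0 hτ 2 (by norm_num)
  refine ltt_o_cell (T.lt A Z be ka R).P (T.lt A Z be ka R).CO ((T.lt A Z be ka R).θ 0) (δ := T.δ) (q := 1)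
    (Rr := 2 * T.δ ^ (-acc)) h0 h1 zero_le_one (by positivity) ?_ ?_
  · intro x x' hx hx' h
    have := (ltt_o_mark T A Z be ka a K acc R hG hD hA x x' hx hx' h).1
    rw [Real.rpow_one]
    refine this.trans (le_of_eq ?_)
    ring
  · nlinarith

theorem ltt_o_mul {u x e b : ℝ} (hu : |u| ≤ e) (hx : |x| ≤ b) : |u * x| ≤ e * b := by
  rw [abs_mul]
  exact mul_le_mul hu hx (abs_nonneg _) ((abs_nonneg _).trans hu)

theorem ltt_o2_real {A0 δ X B P Y N D X' B' P' Y' N' D' th L Rr W V vel pos : ℝ} (hA : 1 ≤ A0) (hδ0 : 0 < δ) (hδ1 : δ ≤ 1)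
    (bX : |X| ≤ A0) (bX' : |X'| ≤ A0) (bth : |th| ≤ A0) (bL : |L| ≤ A0) (bR : |Rr| ≤ A0) (hX : |X - X'| ≤ δ)
    (w : |W - (B + th * X)| ≤ A0 * δ) (w' : |W - (B' + th * X')| ≤ A0 * δ)
    (v : |V - (Y + th * X ^ 2)| ≤ A0 * δ) (v' : |V - (Y' + th * X' ^ 2)| ≤ A0 * δ)
    (ve : |vel - (N - L * X - Rr * X ^ 2)| ≤ A0 * δ) (ve' : |vel - (N' - L * X' - Rr * X' ^ 2)| ≤ A0 * δ)
    (po : |pos - (D + th * N - L * (B + th * X) - Rr * (Y + th * X ^ 2))| ≤ A0 * δ ^ 2)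
    (po' : |pos - (D' + th * N' - L * (B' + th * X') - Rr * (Y' + th * X' ^ 2))| ≤ A0 * δ ^ 2)
    (dq : |P - L - 2 * Rr * X| ≤ A0 * δ) (dq' : |P' - L - 2 * Rr * X'| ≤ A0 * δ) :
    |X - X'| ≤ 11 * A0 ^ 3 * δ ∧ |B - B'| ≤ 11 * A0 ^ 3 * δ ∧ |P - P'| ≤ 11 * A0 ^ 3 * δ ∧ |Y - Y'| ≤ 11 * A0 ^ 3 * δ ∧
      |N - N'| ≤ 11 * A0 ^ 3 * δ ∧ |D - D'| ≤ 11 * A0 ^ 3 * δ := by
  have hA0 : 0 < A0 := by linarith
  have h12 : A0 * δ ≤ A0 ^ 2 * δ := mul_le_mul_of_nonneg_right (by nlinarith) hδ0.le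
  have h23 : A0 ^ 2 * δ ≤ A0 ^ 3 * δ := mul_le_mul_of_nonneg_right (by nlinarith [sq_nonneg A0]) hδ0.le
  have h01 : δ ≤ A0 * δ := by nlinarith
  have hdd : A0 * δ ^ 2 ≤ A0 * δ := mul_le_mul_of_nonneg_left (by nlinarith) hA0.le
  have sXX : |X + X'| ≤ 2 * A0 := (abs_add_le _ _).trans (by linarith)
  have hXX : |X ^ 2 - X' ^ 2| ≤ δ * (2 * A0) := by
    have e : X ^ 2 - X' ^ 2 = (X - X') * (X + X') := by ring
    rw [e]
    exact ltt_o_mul hX sXX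
  have t1 := ltt_o_mul bth hX
  have t2 := ltt_o_mul bth hXX
  have t3 := ltt_o_mul bR hX
  have t4 := ltt_o_mul bL hX
  have t5 := ltt_o_mul bR hXX
  have dW : |(B + th * X) - (B' + th * X')| ≤ 2 * (A0 * δ) := ltt_o_tri w w'
  have dV : |(Y + th * X ^ 2) - (Y' + th * X' ^ 2)| ≤ 2 * (A0 * δ) := ltt_o_tri v v'
  have t7 := ltt_o_mul bL dW
  have t8 := ltt_o_mul bR dV
  have hN : |N - N'| ≤ 3 * (A0 * δ) + 2 * (A0 ^ 2 * δ) := by
    rw [abs_le] at ve ve' t4 t5 ⊢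
    constructor <;> linarith
  have t6 := ltt_o_mul bth hN
  have hB : |B - B'| ≤ 3 * (A0 * δ) := by
    rw [abs_le] at w w' t1 ⊢
    constructor <;> linarith
  have hY : |Y - Y'| ≤ 2 * (A0 * δ) + 2 * (A0 ^ 2 * δ) := by
    rw [abs_le] at v v' t2 ⊢
    constructor <;> linarith
  have hP : |P - P'| ≤ 4 * (A0 * δ) := by
    rw [abs_le] at dq dq' t3 ⊢
    constructor <;> linarith
  have hD : |D - D'| ≤ 2 * (A0 * δ) + 7 * (A0 ^ 2 * δ) + 2 * (A0 ^ 3 * δ) := by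
    rw [abs_le] at po po' t6 t7 t8 ⊢
    constructor <;> linarith
  refine ⟨by linarith, by linarith, by linarith, by linarith, by linarith, by linarith⟩

/-- LEAF L-256-LTT-O2.   Given `(C, O)` (hence the display `s`) and `X` within `δ`:   `B = W' - θ' X`, `Y = V' - θ' X²`, `P = 𝓛 + 2 𝓡 X` (`derq`, `cutc`: `𝔟 = 0`), `N = vel + 𝓛 X + 𝓡 X²`, `D = pos - θ' N + 𝓛 W' + 𝓡 V'`,
each within `C A0^4 δ`:  six applications of `ltk_nval_close`. -/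
theorem ltt_out2 (hG : T.LtGeo Z a K acc) (hD : T.LtDsp a K acc 1) (hA : 0 < T.P.pr A) (hτ : 1000 * acc ≤ τ) :
    (T.lt A Z be ka R).P.NVal (fun _ => True) ((T.lt A Z be ka R).Fb 1) (pair ((T.lt A Z be ka R).Xb 1) (T.lt A Z be ka R).CO) (T.δ ^ (-τ)) := by
  have h0 := hG.δ0
  have h1 := hG.δ1
  have hC := hG.hC
  have hn := ltt_o_num h0 h1 hG.acc0 hτ 24 (by norm_num)
  have hA0 : 0 < T.δ ^ (-acc) := Real.rpow_pos_of_pos h0 _
  have hA1 : 1 ≤ T.δ ^ (-acc) := le_trans (by norm_num) hC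
  have key : ∀ x x', (T.lt A Z be ka R).P.p x ≠ 0 → (T.lt A Z be ka R).P.p x' ≠ 0 →
      pair ((T.lt A Z be ka R).Xb 1) (T.lt A Z be ka R).CO x = pair ((T.lt A Z be ka R).Xb 1) (T.lt A Z be ka R).CO x' →
      |(T.F x.1).X - (T.F x'.1).X| ≤ 11 * (T.δ ^ (-acc)) ^ 3 * T.δ ^ (1 : ℝ) ∧ |(T.F x.1).B - (T.F x'.1).B| ≤ 11 * (T.δ ^ (-acc)) ^ 3 * T.δ ^ (1 : ℝ) ∧
      |(T.F x.1).P - (T.F x'.1).P| ≤ 11 * (T.δ ^ (-acc)) ^ 3 * T.δ ^ (1 : ℝ) ∧ |(T.F x.1).Y - (T.F x'.1).Y| ≤ 11 * (T.δ ^ (-acc)) ^ 3 * T.δ ^ (1 : ℝ) ∧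
      |(T.F x.1).N - (T.F x'.1).N| ≤ 11 * (T.δ ^ (-acc)) ^ 3 * T.δ ^ (1 : ℝ) ∧ |(T.F x.1).D - (T.F x'.1).D| ≤ 11 * (T.δ ^ (-acc)) ^ 3 * T.δ ^ (1 : ℝ) := by
    intro x x' hx hx' h
    have hX : tcell T.δ 1 (T.F x.1).X = tcell T.δ 1 (T.F x'.1).X := congrArg Prod.fst h
    have hCO : (T.lt A Z be ka R).CO x = (T.lt A Z be ka R).CO x' := congrArg Prod.snd h
    have hs := ltt_o_same T A Z be ka a K acc R hG hD hA x x' hx hx' hCO
    obtain ⟨p1, p2, -, -⟩ := ltt_o_pt T A Z be ka a K acc R hG hD hA x hx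
    obtain ⟨p1', p2', -, -⟩ := ltt_o_pt T A Z be ka a K acc R hG hD hA x' hx'
    obtain ⟨⟨a1, a2, a3⟩, -, ⟨a4, a5⟩, a6, a7, a8⟩ := ltt_o_clean T hG.quad hG.c1 p1
    obtain ⟨-, -, ⟨b4, b5⟩, b6, b7, b8⟩ := ltt_o_clean T hG.quad hG.c1 p1'
    rw [← hs] at b4 b5 b6 b7 b8
    have hXd : |(T.F x.1).X - (T.F x'.1).X| ≤ T.δ := by
      have := (ltpk_cell_near hX).trans (ltt_o_msh h0 1)
      rwa [Real.rpow_one] at this
    rw [Real.rpow_one]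
    exact ltt_o2_real hA1 h0 h1.le (ltt_o_nrm p2).1 (ltt_o_nrm p2').1 a1 a2 a3 hXd a4 b4 a5 b5 a6 b6 a7 b7 a8 b8
  have hN : 2 * (11 * (T.δ ^ (-acc)) ^ 3) + 2 ≤ (T.δ ^ (-acc)) ^ 4 := by
    have e1 : (10 : ℝ) ^ 6 * (T.δ ^ (-acc)) ^ 3 ≤ (T.δ ^ (-acc)) ^ 4 := by
      have := mul_le_mul_of_nonneg_right hC (pow_pos hA0 3).le
      calc (10 : ℝ) ^ 6 * (T.δ ^ (-acc)) ^ 3 ≤ T.δ ^ (-acc) * (T.δ ^ (-acc)) ^ 3 := this
        _ = (T.δ ^ (-acc)) ^ 4 := by ring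
    have e2 : (1 : ℝ) ≤ (T.δ ^ (-acc)) ^ 3 := one_le_pow₀ hA1
    linarith
  have hp4 : (0 : ℝ) ≤ (T.δ ^ (-acc)) ^ 4 := by positivity
  have cX := ltt_o_cell (T.lt A Z be ka R).P (pair ((T.lt A Z be ka R).Xb 1) (T.lt A Z be ka R).CO) (fun x => (T.F x.1).X) (δ := T.δ) (q := 1)
    (Rr := 11 * (T.δ ^ (-acc)) ^ 3) h0 h1 zero_le_one (by positivity) (fun x x' hx hx' h => (key x x' hx hx' h).1) hN
  have cB := ltt_o_cell (T.lt A Z be ka R).P (pair ((T.lt A Z be ka R).Xb 1) (T.lt A Z be ka R).CO) (fun x => (T.F x.1).B) (δ := T.δ) (q := 1)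
    (Rr := 11 * (T.δ ^ (-acc)) ^ 3) h0 h1 zero_le_one (by positivity) (fun x x' hx hx' h => (key x x' hx hx' h).2.1) hN
  have cP := ltt_o_cell (T.lt A Z be ka R).P (pair ((T.lt A Z be ka R).Xb 1) (T.lt A Z be ka R).CO) (fun x => (T.F x.1).P) (δ := T.δ) (q := 1)
    (Rr := 11 * (T.δ ^ (-acc)) ^ 3) h0 h1 zero_le_one (by positivity) (fun x x' hx hx' h => (key x x' hx hx' h).2.2.1) hN
  have cY := ltt_o_cell (T.lt A Z be ka R).P (pair ((T.lt A Z be ka R).Xb 1) (T.lt A Z be ka R).CO) (fun x => (T.F x.1).Y) (δ := T.δ) (q := 1)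
    (Rr := 11 * (T.δ ^ (-acc)) ^ 3) h0 h1 zero_le_one (by positivity) (fun x x' hx hx' h => (key x x' hx hx' h).2.2.2.1) hN
  have cN := ltt_o_cell (T.lt A Z be ka R).P (pair ((T.lt A Z be ka R).Xb 1) (T.lt A Z be ka R).CO) (fun x => (T.F x.1).N) (δ := T.δ) (q := 1)
    (Rr := 11 * (T.δ ^ (-acc)) ^ 3) h0 h1 zero_le_one (by positivity) (fun x x' hx hx' h => (key x x' hx hx' h).2.2.2.2.1) hN
  have cD := ltt_o_cell (T.lt A Z be ka R).P (pair ((T.lt A Z be ka R).Xb 1) (T.lt A Z be ka R).CO) (fun x => (T.F x.1).D) (δ := T.δ) (q := 1)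
    (Rr := 11 * (T.δ ^ (-acc)) ^ 3) h0 h1 zero_le_one (by positivity) (fun x x' hx hx' h => (key x x' hx hx' h).2.2.2.2.2) hN
  have c5 := ltt_o_pair _ _ _ _ _ hp4 cD cN
  have c4 := ltt_o_pair _ _ _ _ _ hp4 c5 cY
  have c3 := ltt_o_pair _ _ _ _ _ hp4 c4 cP
  have c2 := ltt_o_pair _ _ _ _ _ hp4 c3 cB
  have c1 := ltt_o_pair _ _ _ _ _ hp4 c2 cX
  refine ltk_nval_mono _ c1 (fun _ h => h) (fun _ _ h => h) ⟨id, fun _ => rfl⟩ ?_
  refine le_trans (le_of_eq ?_) hn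
  ring

/-- LEAF L-256-LTT-O13.   `DspAt.time`, `DspAt.cutc` (`|𝓡 - r| ≤ A0 δ`), `ε ≤ 1`. -/
theorem ltt_out3 (hG : T.LtGeo Z a K acc) (hD : T.LtDsp a K acc 1) (hA : 0 < T.P.pr A) (hτ : 1000 * acc ≤ τ) (hε : 0 < ε) (hε1 : ε ≤ 1) :
    (T.lt A Z be ka R).P.NVal (fun _ => True) ((T.lt A Z be ka R).mk0 ε) (T.lt A Z be ka R).CO (T.δ ^ (-τ)) := by
  have h0 := hG.δ0
  have h1 := hG.δ1
  have hC := hG.hC
  have hn := ltt_o_num h0 h1 hG.acc0 hτ 4 (by norm_num)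
  have hle : T.δ ≤ T.δ ^ ε := by
    calc T.δ = T.δ ^ (1 : ℝ) := (Real.rpow_one _).symm
      _ ≤ T.δ ^ ε := Real.rpow_le_rpow_of_exponent_ge h0 h1.le hε1
  have hA0 : 0 < T.δ ^ (-acc) := Real.rpow_pos_of_pos h0 _
  have c1 : (T.lt A Z be ka R).P.NVal (fun _ => True) (fun x => tcell T.δ ε ((T.lt A Z be ka R).θ 0 x)) (T.lt A Z be ka R).CO
      ((T.δ ^ (-acc)) ^ 2) := by
    refine ltt_o_cell (T.lt A Z be ka R).P (T.lt A Z be ka R).CO ((T.lt A Z be ka R).θ 0) (δ := T.δ) (q := ε)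
      (Rr := 2 * T.δ ^ (-acc)) h0 h1 hε.le (by positivity) ?_ (by nlinarith)
    intro x x' hx hx' h
    have := (ltt_o_mark T A Z be ka a K acc R hG hD hA x x' hx hx' h).1
    refine this.trans ?_
    rw [mul_assoc]
    exact mul_le_mul_of_nonneg_left (mul_le_mul_of_nonneg_left hle hA0.le) (by norm_num)
  have c2 : (T.lt A Z be ka R).P.NVal (fun _ => True) (fun x => tcell T.δ ε ((T.lt A Z be ka R).r 0 x)) (T.lt A Z be ka R).CO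
      ((T.δ ^ (-acc)) ^ 2) := by
    refine ltt_o_cell (T.lt A Z be ka R).P (T.lt A Z be ka R).CO ((T.lt A Z be ka R).r 0) (δ := T.δ) (q := ε)
      (Rr := 2 * T.δ ^ (-acc)) h0 h1 hε.le (by positivity) ?_ (by nlinarith)
    intro x x' hx hx' h
    have := (ltt_o_mark T A Z be ka a K acc R hG hD hA x x' hx hx' h).2
    refine this.trans ?_
    rw [mul_assoc]
    exact mul_le_mul_of_nonneg_left (mul_le_mul_of_nonneg_left hle hA0.le) (by norm_num)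
  refine ltk_nval_mono _ (ltt_o_pair _ _ _ _ _ (by positivity) c2 c1) (fun _ h => h) (fun _ _ h => h) ⟨id, fun _ => rfl⟩ ?_
  refine le_trans (le_of_eq ?_) hn
  ring

theorem ltt_o4_real {A0 u w e2 X B P Y N D X' B' Y' N' D' th L Rr pos cX cP tε rε : ℝ} (hA : 1 ≤ A0) (hu : 0 ≤ u) (hw : 0 ≤ w)
    (bX : |X| ≤ A0) (bth : |th| ≤ A0) (bR : |Rr| ≤ A0) (bcP : |cP| ≤ A0 + 1) (brε : |rε| ≤ A0 + 1)
    (hcX : |X - cX| ≤ u) (hcP : |P - cP| ≤ u) (ht : |th - tε| ≤ 2 * A0 * u) (hr : |Rr - rε| ≤ 2 * A0 * u)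
    (dq : |P - L - 2 * Rr * X| ≤ A0 * u)
    (po : |pos - (D + th * N - L * (B + th * X) - Rr * (Y + th * X ^ 2))| ≤ e2)
    (po' : |pos - (D' + th * N' - L * (B' + th * X') - Rr * (Y' + th * X' ^ 2))| ≤ e2)
    (dX : |X - X'| ≤ w) (dB : |B - B'| ≤ w) (dY : |Y - Y'| ≤ w) (dN : |N - N'| ≤ w) :
    |((D - cP * B) + tε * (N - cP * X) - rε * (Y - 2 * cX * B)) - ((D' - cP * B') + tε * (N' - cP * X') - rε * (Y' - 2 * cX * B'))|
      ≤ 2 * e2 + 20 * A0 ^ 2 * (u * w) + A0 ^ 2 * w ^ 2 := by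
  have huw : 0 ≤ u * w := mul_nonneg hu hw
  have m1 : A0 * (u * w) ≤ A0 ^ 2 * (u * w) := mul_le_mul_of_nonneg_right (by nlinarith) huw
  have m0 : u * w ≤ A0 ^ 2 * (u * w) := by
    have : (1 : ℝ) ≤ A0 ^ 2 := one_le_pow₀ hA
    nlinarith
  have cB : |L - cP + 2 * rε * cX| ≤ A0 * u + u + 2 * (2 * A0 * u * A0) + 2 * ((A0 + 1) * u) := by
    have q1 := ltt_o_mul hr bX
    have q2 := ltt_o_mul brε hcX
    rw [abs_le] at q1 q2 dq hcP ⊢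
    constructor <;> linarith
  have cXb : |-(tε * cP) + L * th + 2 * Rr * th * X| ≤ A0 * (A0 * u) + A0 * u + 2 * A0 * u * (A0 + 1) := by
    have q1 := ltt_o_mul bth dq
    have q2 := ltt_o_mul bth hcP
    have q3 := ltt_o_mul ht bcP
    rw [abs_le] at q1 q2 q3 ⊢
    constructor <;> linarith
  have s1 := ltt_o_mul ht dN
  have s2 := ltt_o_mul cB dB
  have s3 := ltt_o_mul cXb dX
  have s4 := ltt_o_mul hr dY
  have s5 := ltt_o_mul (ltt_o_mul bR bth) (ltt_o_mul dX dX)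
  rw [abs_le] at s1 s2 s3 s4 s5 po po' ⊢
  constructor <;> linarith

theorem ltt_o_tri2 {s a b e1 e2 : ℝ} (h1 : |s - a| ≤ e1) (h2 : |a - b| ≤ e2) : |s - b| ≤ e1 + e2 := by
  rw [abs_le] at h1 h2 ⊢
  constructor <;> linarith

theorem ltt_o_xt (T : Tan) {ζ' : Type} (A : T.Ω → Prop) (Z : T.Ω → ζ') (be ka : ζ' → ℝ) (R ε : ℝ) (x : T.Ω × (Fin 2 → T.Ω)) :
    (T.lt A Z be ka R).xt ε x = ((T.F x.1).D - trep T.δ ε (T.F x.1).P * (T.F x.1).B)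
        + trep T.δ ε (T.mrk 0 (x.2 0)).th * ((T.F x.1).N - trep T.δ ε (T.F x.1).P * (T.F x.1).X)
        - trep T.δ ε (T.mrk 0 (x.2 0)).r * ((T.F x.1).Y - 2 * trep T.δ ε (T.F x.1).X * (T.F x.1).B) := rfl

theorem ltt_o4_frz (T : Tan) {ζ' : Type} (A : T.Ω → Prop) (Z : T.Ω → ζ') (be ka : ζ' → ℝ) (R ε p : ℝ) (h0 : 0 < T.δ) (h1 : T.δ < 1)
    (hεp : ε ≤ p) (x x' : T.Ω × (Fin 2 → T.Ω))
    (h : pair (pair ((T.lt A Z be ka R).Fb p) ((T.lt A Z be ka R).mk0 ε)) (T.lt A Z be ka R).CO x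
      = pair (pair ((T.lt A Z be ka R).Fb p) ((T.lt A Z be ka R).mk0 ε)) (T.lt A Z be ka R).CO x') :
    (trep T.δ ε (T.F x'.1).X = trep T.δ ε (T.F x.1).X ∧ trep T.δ ε (T.F x'.1).P = trep T.δ ε (T.F x.1).P ∧
      trep T.δ ε (T.mrk 0 (x'.2 0)).th = trep T.δ ε (T.mrk 0 (x.2 0)).th ∧
      trep T.δ ε (T.mrk 0 (x'.2 0)).r = trep T.δ ε (T.mrk 0 (x.2 0)).r) ∧
    (|(T.F x.1).X - (T.F x'.1).X| ≤ T.δ ^ p ∧ |(T.F x.1).B - (T.F x'.1).B| ≤ T.δ ^ p ∧ |(T.F x.1).Y - (T.F x'.1).Y| ≤ T.δ ^ p ∧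
      |(T.F x.1).N - (T.F x'.1).N| ≤ T.δ ^ p) ∧ (T.lt A Z be ka R).CO x = (T.lt A Z be ka R).CO x' := by
  have hF : ((T.F x.1).ph).cell T.δ p = ((T.F x'.1).ph).cell T.δ p := congrArg (fun y => y.1.1) h
  have hM : (T.lt A Z be ka R).mk0 ε x = (T.lt A Z be ka R).mk0 ε x' := congrArg (fun y => y.1.2) h
  have hCO : (T.lt A Z be ka R).CO x = (T.lt A Z be ka R).CO x' := congrArg Prod.snd h
  have hMt : tcell T.δ ε (T.mrk 0 (x.2 0)).th = tcell T.δ ε (T.mrk 0 (x'.2 0)).th := congrArg Prod.fst hM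
  have hMr : tcell T.δ ε (T.mrk 0 (x.2 0)).r = tcell T.δ ε (T.mrk 0 (x'.2 0)).r := congrArg Prod.snd hM
  obtain ⟨n1, n2, -, n4, n5, -⟩ := ltpk_ph_near hF
  have hmp := ltt_o_msh h0 p
  have hFε := ltpk_ph_nest h0 h1 hεp hF
  unfold Ph.cell at hFε
  simp only [Prod.mk.injEq] at hFε
  obtain ⟨k1, -, k3, -, -, -⟩ := hFε
  exact ⟨⟨(ltpk_trep_congr k1).symm, (ltpk_trep_congr k3).symm, (ltpk_trep_congr hMt).symm, (ltpk_trep_congr hMr).symm⟩,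
    ⟨n1.trans hmp, n2.trans hmp, n4.trans hmp, n5.trans hmp⟩, hCO⟩

theorem ltt_o4_pt (T : Tan) {ζ' : Type} (A : T.Ω → Prop) (Z : T.Ω → ζ') (be ka : ζ' → ℝ) (a : ItPar) (K acc R ε p : ℝ)
    (hG : T.LtGeo Z a K acc) (hD : T.LtDsp a K acc 1) (hA : 0 < T.P.pr A) (hε : 0 < ε) (hε1 : ε ≤ 1) (hp1 : 1 ≤ p)
    (x x' : T.Ω × (Fin 2 → T.Ω)) (hx : (T.lt A Z be ka R).P.p x ≠ 0) (hx' : (T.lt A Z be ka R).P.p x' ≠ 0)
    (h : pair (pair ((T.lt A Z be ka R).Fb p) ((T.lt A Z be ka R).mk0 ε)) (T.lt A Z be ka R).CO x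
      = pair (pair ((T.lt A Z be ka R).Fb p) ((T.lt A Z be ka R).mk0 ε)) (T.lt A Z be ka R).CO x') :
    |(T.lt A Z be ka R).xt ε x - (T.lt A Z be ka R).xt ε x'|
      ≤ 2 * (T.δ ^ (-acc) * T.δ ^ 2) + 20 * (T.δ ^ (-acc)) ^ 2 * (T.δ ^ ε * T.δ ^ p) + (T.δ ^ (-acc)) ^ 2 * (T.δ ^ p) ^ 2 := by
  have h0 := hG.δ0
  have h1 := hG.δ1
  have hA0 : 0 < T.δ ^ (-acc) := Real.rpow_pos_of_pos h0 _
  have hA1 : 1 ≤ T.δ ^ (-acc) := le_trans (by norm_num) hG.hC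
  have hle : T.δ ≤ T.δ ^ ε := by
    calc T.δ = T.δ ^ (1 : ℝ) := (Real.rpow_one _).symm
      _ ≤ T.δ ^ ε := Real.rpow_le_rpow_of_exponent_ge h0 h1.le hε1
  have hu0 : 0 < T.δ ^ ε := Real.rpow_pos_of_pos h0 _
  have hw0 : 0 < T.δ ^ p := Real.rpow_pos_of_pos h0 _
  have hAu : T.δ ^ (-acc) * T.δ ≤ T.δ ^ (-acc) * T.δ ^ ε := mul_le_mul_of_nonneg_left hle hA0.le
  have hu1 : T.δ ^ ε ≤ T.δ ^ (-acc) * T.δ ^ ε := le_mul_of_one_le_left hu0.le hA1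
  have h2u : T.δ ^ (-acc) * T.δ + T.δ ^ ε ≤ 2 * T.δ ^ (-acc) * T.δ ^ ε := by linarith only [hAu, hu1]
  obtain ⟨⟨hcX, hcP, hct, hcr⟩, ⟨n1, n2, n4, n5⟩, hCO⟩ := ltt_o4_frz T A Z be ka R ε p h0 h1 (hε1.trans hp1) x x' h
  have hs := ltt_o_same T A Z be ka a K acc R hG hD hA x x' hx hx' hCO
  obtain ⟨p1, p2, p3, p4⟩ := ltt_o_pt T A Z be ka a K acc R hG hD hA x hx
  obtain ⟨p1', -, -, -⟩ := ltt_o_pt T A Z be ka a K acc R hG hD hA x' hx'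
  obtain ⟨⟨a1, a2, a3⟩, ⟨a9, a10⟩, -, -, a7, a8⟩ := ltt_o_clean T hG.quad hG.c1 p1
  obtain ⟨-, -, -, -, b7, -⟩ := ltt_o_clean T hG.quad hG.c1 p1'
  rw [← hs] at b7
  have hmε := ltt_o_msh h0 ε
  have uX := (ltpk_trep_near T.δ ε (T.F x.1).X).trans hmε
  have uP := (ltpk_trep_near T.δ ε (T.F x.1).P).trans hmε
  have ut := (ltpk_trep_near T.δ ε (T.mrk 0 (x.2 0)).th).trans hmε
  have ur := (ltpk_trep_near T.δ ε (T.mrk 0 (x.2 0)).r).trans hmε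
  have ht := (ltt_o_tri2 a9 ut).trans h2u
  have hr := (ltt_o_tri2 a10 ur).trans h2u
  have bcP : |trep T.δ ε (T.F x.1).P| ≤ T.δ ^ (-acc) + 1 :=
    (ltpk_trep_abs _ _ _).trans (add_le_add_left (ltt_o_nrm p2).2.2.1 1)
  have brε : |trep T.δ ε (T.mrk 0 (x.2 0)).r| ≤ T.δ ^ (-acc) + 1 := (ltpk_trep_abs _ _ _).trans (add_le_add_left p4 1)
  rw [ltt_o_xt, ltt_o_xt, hcX, hcP, hct, hcr]
  exact ltt_o4_real hA1 hu0.le hw0.le (ltt_o_nrm p2).1 a1 a3 bcP brε uX uP ht hr (a8.trans hAu) a7 b7 n1 n2 n4 n5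

/-- LEAF L-256-LTT-O4.   `xt = D - c_P B + θ_ε (N - c_P X) - r_ε (Y - 2 c_X B)`, `(c_X, c_P) = trep δ ε (X, P)`.   `pos = D + θ' N - 𝓛 (B + θ' X) - 𝓡 (Y + θ' X²) + O(A0 δ²)`.
For two points with the same `(F_p, mk0 ε, C, O)`: same display, same `c_X, c_P, θ_ε, r_ε`, phases within `δ^p`.   `Δ(pos - xt) = (θ' - θ_ε) ΔN - (𝓡 - r_ε) ΔY + (c_P - 𝓛 - 2 r_ε c_X) ΔB + (θ_ε c_P - θ' 𝓛) ΔX - 𝓡 θ' Δ(X²)`,
`Δ(X²) = 2 X ΔX + O(δ^(2p))`, `𝓛 + 2 𝓡 X = P + O(A0 δ)`: every coefficient is `O(A0^3 δ^ε)`.   So `|Δ xt| ≤ C A0^4 (δ^(p+ε) + δ^(2p) + δ²) ≤ C A0^4 δ^v`  (`v ≤ p + ε/4`, `v ≤ 2 ≤ 2p`);  `ltk_nval_close`. -/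
theorem ltt_out4 (hG : T.LtGeo Z a K acc) (hD : T.LtDsp a K acc 1) (hA : 0 < T.P.pr A) (hτ : 1000 * acc ≤ τ) (hε : 0 < ε) (hε1 : ε ≤ 1) :
    ∀ p ∈ Q, ∀ v ∈ Q, 1 ≤ p → p ≤ v → v ≤ 2 → v - p ≤ ε / 4 →
      (T.lt A Z be ka R).P.NVal (fun _ => True) ((T.lt A Z be ka R).cb v ((T.lt A Z be ka R).xt ε))
        (pair (pair ((T.lt A Z be ka R).Fb p) ((T.lt A Z be ka R).mk0 ε)) (T.lt A Z be ka R).CO) (T.δ ^ (-τ)) := by
  intro p _ v _ hp1 hpv hv2 hvp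
  have h0 := hG.δ0
  have h1 := hG.δ1
  have hC := hG.hC
  have hn := ltt_o_num h0 h1 hG.acc0 hτ 3 (by norm_num)
  have hA0 : 0 < T.δ ^ (-acc) := Real.rpow_pos_of_pos h0 _
  have hA1 : 1 ≤ T.δ ^ (-acc) := le_trans (by norm_num) hC
  have hv0 : 0 < T.δ ^ v := Real.rpow_pos_of_pos h0 _
  have g1 : T.δ ^ 2 ≤ T.δ ^ v := by
    rw [← Real.rpow_two]
    exact Real.rpow_le_rpow_of_exponent_ge h0 h1.le hv2
  have g2 : T.δ ^ ε * T.δ ^ p ≤ T.δ ^ v := by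
    rw [← Real.rpow_add h0]
    exact Real.rpow_le_rpow_of_exponent_ge h0 h1.le (by linarith)
  have g3 : (T.δ ^ p) ^ 2 ≤ T.δ ^ v := by
    rw [← Real.rpow_natCast, ← Real.rpow_mul h0.le]
    refine Real.rpow_le_rpow_of_exponent_ge h0 h1.le ?_
    push_cast
    linarith
  have hA2 : T.δ ^ (-acc) ≤ (T.δ ^ (-acc)) ^ 2 := by nlinarith only [hA1]
  have f1 : 2 * (T.δ ^ (-acc) * T.δ ^ 2) ≤ 2 * ((T.δ ^ (-acc)) ^ 2 * T.δ ^ v) :=
    mul_le_mul_of_nonneg_left (mul_le_mul hA2 g1 (by positivity) (by positivity)) (by norm_num)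
  have f2 : 20 * (T.δ ^ (-acc)) ^ 2 * (T.δ ^ ε * T.δ ^ p) ≤ 20 * (T.δ ^ (-acc)) ^ 2 * T.δ ^ v :=
    mul_le_mul_of_nonneg_left g2 (by positivity)
  have f3 : (T.δ ^ (-acc)) ^ 2 * (T.δ ^ p) ^ 2 ≤ (T.δ ^ (-acc)) ^ 2 * T.δ ^ v := mul_le_mul_of_nonneg_left g3 (by positivity)
  refine ltt_o_cell (T.lt A Z be ka R).P _ ((T.lt A Z be ka R).xt ε) (δ := T.δ) (q := v)
    (Rr := 23 * (T.δ ^ (-acc)) ^ 2) h0 h1 (by linarith) (by positivity) ?_ ?_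
  · intro x x' hx hx' h
    refine (ltt_o4_pt T A Z be ka a K acc R ε p hG hD hA hε hε1 hp1 x x' hx hx' h).trans ?_
    linarith only [f1, f2, f3]
  · have e1 : (10 : ℝ) ^ 6 * (T.δ ^ (-acc)) ^ 2 ≤ (T.δ ^ (-acc)) ^ 3 := by
      have := mul_le_mul_of_nonneg_right hC (pow_pos hA0 2).le
      calc (10 : ℝ) ^ 6 * (T.δ ^ (-acc)) ^ 2 ≤ T.δ ^ (-acc) * (T.δ ^ (-acc)) ^ 2 := this
        _ = (T.δ ^ (-acc)) ^ 3 := by ring
    have e2 : (1 : ℝ) ≤ (T.δ ^ (-acc)) ^ 2 := one_le_pow₀ hA1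
    linarith only [e1, e2, hn]

end fields

/-! ## EXITS -/

section exits

variable (T : Tan) {ζ' : Type} (A : T.Ω → Prop) (Z : T.Ω → ζ') (be ka : ζ' → ℝ) (a : ItPar) (K acc d g τ χ ε R : ℝ) (Q : Finset ℝ) (M : ℝ → ℝ)

/-- **`LtData.Hyp` from the single law** -/
theorem ltt_hyp (hG : T.LtGeo Z a K acc) (hD : T.LtDsp a K acc 1) (hL : T.LtLine A Z be ka τ) (hP : T.LtPrb A Z d g τ R Q M)
    (hτ : 1000 * acc ≤ τ) (hε : 0 < ε) (hε1 : ε ≤ 1) (hR : 10 ≤ R)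
    (hmis : (T.lt A Z be ka R).P2.pr (fun x => |(T.lt A Z be ka R).κ x.2 - (T.lt A Z be ka R).κ x.1| < T.δ ^ χ) ≤ τ) :
    (T.lt A Z be ka R).Hyp d g τ χ ε Q M (fun _ => True) where
  δpos := hG.δ0
  δlt := hG.δ1
  good := by
    have h0 : (T.lt A Z be ka R).P.pr (fun _ => ¬ True) = 0 := ent_pr_eq_zero _ (fun _ _ h => h trivial)
    rw [h0]
    have := hG.acc0
    linarith
  side := ltt_side T A Z be ka a K acc R hG
  ci := ltt_ci T A Z be ka R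
  size := fun x hx => ltt_size T A Z be ka a K acc τ R hG hL (by have := hG.acc0; linarith) x hx
  sline := fun i x hx _ => ltt_sline T A Z be ka τ R hL i x hx
  time := ltt_time T A Z be ka d g τ R Q M hP
  fib := fun i x x' _ _ _ _ h => ltt_fib T A Z be ka a K acc τ R hG hR (by have := hG.acc0; linarith) i x x' h
  out1 := ltt_out1 T A Z be ka a K acc τ R hG hD hL.hA hτ
  out2 := ltt_out2 T A Z be ka a K acc τ R hG hD hL.hA hτ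
  out3 := ltt_out3 T A Z be ka a K acc τ ε R hG hD hL.hA hτ hε hε1
  out4 := ltt_out4 T A Z be ka a K acc τ ε R Q hG hD hL.hA hτ hε hε1
  stat := ltt_stat T A Z be ka a K acc d g τ R Q M hG hP
  prof := ltt_prof T A Z be ka a K acc d g τ R Q M hG hP
  mem := hP.mem
  mis := hmis

/-- LEAF L-256-LTT-PRB.   the entropy of the conclusion (`lay_star_entC` with `i = 0`) -/
theorem ltt_ent (hG : T.LtGeo Z a K acc) :
    (T.lt A Z be ka R).P.entC (T.lt A Z be ka R).O (T.lt A Z be ka R).C = (T.P.cnd A).entC (T.O 1) T.Cs := by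
  have hs : ∀ x : T.Ω × (Fin 2 → T.Ω), ((T.P.cnd A).star Z 2).p x ≠ 0 → Z (x.2 0) = Z x.1 := fun x hx =>
    ((ltt_star_supp (T.P.cnd A) Z 2 x hx).2 0).2
  have e1 : ((T.P.cnd A).star Z 2).entC (T.lt A Z be ka R).O (T.lt A Z be ka R).C
      = ((T.P.cnd A).star Z 2).entC (fun x => T.O 1 (x.2 0)) (fun x => T.Cs (x.2 0)) := by
    refine ent_entC_congr _ _ _ _ _ (fun x x' hx hx' => ?_) (fun x x' _ _ _ => Iff.rfl)
    show T.Cs x.1 = T.Cs x'.1 ↔ T.Cs (x.2 0) = T.Cs (x'.2 0)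
    rw [hG.side_C _ _ (hs x hx), hG.side_C _ _ (hs x' hx')]
  exact e1.trans (lay_star_entC (T.P.cnd A) Z 2 0 (fun _ ω => T.O 1 ω) (fun _ ω => T.Cs ω))

/-- LEAF L-256-LTT-POP.   failure of (mis) gives a predictor of the slope from `(C, S)` on the single restricted law   (`ltt_pop_abs` on the star law with `W = CS 0`, then `ltt_star_pr`) -/
theorem ltt_pop (hG : T.LtGeo Z a K acc)
    (h : τ < (T.lt A Z be ka R).P2.pr (fun x => |(T.lt A Z be ka R).κ x.2 - (T.lt A Z be ka R).κ x.1| < T.δ ^ χ)) :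
    ∃ I : T.γ × LttS → ℝ, τ < (T.P.cnd A).pr (fun ω => |I (T.Cs ω, T.ltS R ω) - ka (Z ω)| < T.δ ^ χ) := by
  obtain ⟨I, hI⟩ := ltt_pop_abs (T.lt A Z be ka R).P ((T.lt A Z be ka R).CS 0) (T.lt A Z be ka R).κ (T.δ ^ χ) τ h
  refine ⟨I, lt_of_lt_of_le hI (le_of_eq ?_)⟩
  have hs : ∀ x : T.Ω × (Fin 2 → T.Ω), ((T.P.cnd A).star Z 2).p x ≠ 0 → Z (x.2 0) = Z x.1 := fun x hx =>
    ((ltt_star_supp (T.P.cnd A) Z 2 x hx).2 0).2
  have e1 : ((T.P.cnd A).star Z 2).pr (fun x => |I ((T.lt A Z be ka R).CS 0 x) - (T.lt A Z be ka R).κ x| < T.δ ^ χ)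
      = ((T.P.cnd A).star Z 2).pr (fun x => |I (T.Cs (x.2 0), T.ltS R (x.2 0)) - ka (Z x.1)| < T.δ ^ χ) := by
    refine ent_pr_congr _ fun x hx => ?_
    have e2 : (T.lt A Z be ka R).CS 0 x = (T.Cs (x.2 0), T.ltS R (x.2 0)) := by
      show (T.Cs x.1, T.ltLab R (T.F x.1) (T.mrk 0 (x.2 0))) = (T.Cs (x.2 0), T.ltLab R (T.F (x.2 0)) (T.mrk 0 (x.2 0)))
      rw [hG.side_C _ _ (hs x hx), hG.side_F _ _ (hs x hx)]
    rw [e2]
    exact Iff.rfl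
  exact e1.trans (ltt_star_pr (T.P.cnd A) Z 2 0 (fun u ω => |I (T.Cs ω, T.ltS R ω) - ka u| < T.δ ^ χ))

theorem ltt_rd_mul {u x e A : ℝ} (hu : |u| ≤ e) (hx : |x| ≤ A) : |u * x| ≤ e * A := by
  rw [abs_mul]
  exact mul_le_mul hu hx (abs_nonneg _) ((abs_nonneg _).trans hu)

theorem ltt_rd_add {u x e A : ℝ} (hu : |u| ≤ e) (hx : |x| ≤ A) : |u + x| ≤ e + A :=
  (abs_add_le _ _).trans (add_le_add hu hx)

/-- the algebra of the read-out (constant cuts: `𝔟 = 0`) -/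
theorem ltt_rd_alg {X B P Y N D th r t W V L R vel pos A e : ℝ} (hA : 1 ≤ A) (he : 0 ≤ e)
    (hX : |X| ≤ A) (hN : |N| ≤ A) (hL : |L| ≤ A) (hR : |R| ≤ A)
    (h1 : |t - th| ≤ e) (h2 : |W - (B + t * X)| ≤ e) (h3 : |V - (Y + t * X ^ 2)| ≤ e) (h4 : |R - r| ≤ e)
    (h6 : |P - L - 2 * R * X| ≤ e) (h7 : |vel - (N - L * X - R * X ^ 2)| ≤ e)
    (h8 : |pos - (D + t * N - L * (B + t * X) - R * (Y + t * X ^ 2))| ≤ e) :
    |t - th| ≤ 4 * A ^ 2 * e ∧ |R - r| ≤ 4 * A ^ 2 * e ∧ |W - (B + th * X)| ≤ 4 * A ^ 2 * e ∧ |V - (Y + th * X ^ 2)| ≤ 4 * A ^ 2 * e ∧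
      |(pos + L * W + R * V) - (D + th * N)| ≤ 4 * A ^ 2 * e ∧ |L - (P - 2 * r * X)| ≤ 4 * A ^ 2 * e ∧
      |vel - (N - P * X + r * X ^ 2)| ≤ 4 * A ^ 2 * e := by
  have hX2 : |X ^ 2| ≤ A * A := by rw [sq]; exact ltt_rd_mul hX hX
  have hAA : A ≤ A ^ 2 := by nlinarith
  have m1 : e ≤ A ^ 2 * e := by nlinarith
  have m2 : e * A ≤ A ^ 2 * e := by nlinarith
  have m3 : e * (A * A) = A ^ 2 * e := by ring
  have m4 : A * e ≤ A ^ 2 * e := by nlinarith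
  have m0 : 0 ≤ A ^ 2 * e := by positivity
  refine ⟨h1.trans (by linarith), h4.trans (by linarith), ?_, ?_, ?_, ?_, ?_⟩
  · have : W - (B + th * X) = (W - (B + t * X)) + (t - th) * X := by ring
    rw [this]
    exact (ltt_rd_add h2 (ltt_rd_mul h1 hX)).trans (by linarith)
  · have : V - (Y + th * X ^ 2) = (V - (Y + t * X ^ 2)) + (t - th) * X ^ 2 := by ring
    rw [this]
    exact (ltt_rd_add h3 (ltt_rd_mul h1 hX2)).trans (by linarith)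
  · have : (pos + L * W + R * V) - (D + th * N)
        = (pos - (D + t * N - L * (B + t * X) - R * (Y + t * X ^ 2))) + (L * (W - (B + t * X)) + (R * (V - (Y + t * X ^ 2)) + (t - th) * N)) := by ring
    rw [this]
    exact (ltt_rd_add h8 (ltt_rd_add (ltt_rd_mul hL h2) (ltt_rd_add (ltt_rd_mul hR h3) (ltt_rd_mul h1 hN)))).trans (by linarith)
  · have : L - (P - 2 * r * X) = -(P - L - 2 * R * X) + (-2 * ((R - r) * X)) := by ring
    rw [this]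
    have h6' : |-(P - L - 2 * R * X)| ≤ e := by rwa [abs_neg]
    have h9 : |-2 * ((R - r) * X)| ≤ 2 * (e * A) := ltt_rd_mul (by norm_num) (ltt_rd_mul h4 hX)
    exact (ltt_rd_add h6' h9).trans (by linarith)
  · have : vel - (N - P * X + r * X ^ 2) = (vel - (N - L * X - R * X ^ 2)) + ((P - L - 2 * R * X) * X + (R - r) * X ^ 2) := by ring
    rw [this]
    exact (ltt_rd_add h7 (ltt_rd_add (ltt_rd_mul h6 hX) (ltt_rd_mul h4 hX2))).trans (by linarith)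

/-- products of lists -/
theorem ltt_rd_prod {Ω : Type} [Fintype Ω] {α β γ : Type} (P : FLaw Ω) (G : Ω → Prop) (A : Ω → α) (B : Ω → β) (C' : Ω → γ) {N M : ℝ}
    (hN : 0 ≤ N) (h1 : P.NVal G B A N) (h2 : P.NVal G C' A M) : P.NVal G (fun ω => (B ω, C' ω)) A (N * M) := by
  intro ω₀
  obtain ⟨S₁, hS₁, hm₁⟩ := h1 ω₀
  obtain ⟨S₂, hS₂, hm₂⟩ := h2 ω₀
  refine ⟨S₁ ×ˢ S₂, ?_, fun ω hω hG hA => Finset.mem_product.2 ⟨hm₁ ω hω hG hA, hm₂ ω hω hG hA⟩⟩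
  rw [Finset.card_product, Nat.cast_mul]
  exact mul_le_mul hS₁ hS₂ (Nat.cast_nonneg _) hN

/-- one entry: a real observation fixed within `δ^R` by a function of `A` has at most six cells of depth `R` -/
theorem ltt_rd_six {Ω : Type} [Fintype Ω] {α σ : Type} (P : FLaw Ω) (A : Ω → α) (s : Ω → σ) (c : σ → ℝ) (v : Ω → ℝ) {δ R : ℝ}
    (h0 : 0 < δ) (h1 : δ < 1) (hR : 0 ≤ R) (hs : ∀ ω ω', A ω = A ω' → s ω = s ω') (h : ∀ ω, P.p ω ≠ 0 → |c (s ω) - v ω| ≤ δ ^ R) :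
    P.NVal (fun _ => True) (fun ω => tcell δ R (v ω)) A 6 := by
  have hp : (0 : ℝ) < δ ^ R := Real.rpow_pos_of_pos h0 _
  have key := ltk_nval_close P (fun _ => True) A v (tlev δ R) (R := 2 * δ ^ R) (by positivity) (by
    intro ω ω' hω hω' _ _ hA
    have e1 := h ω hω
    have e2 := h ω' hω'
    rw [hs ω ω' hA] at e1
    have : v ω - v ω' = -(c (s ω') - v ω) + (c (s ω') - v ω') := by ring
    rw [this]
    have e1' : |-(c (s ω') - v ω)| ≤ δ ^ R := by rwa [abs_neg]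
    exact (ltt_rd_add e1' e2).trans (by linarith))
  refine ltk_nval_mono P key (fun _ h => h) (fun _ _ h => h) ⟨id, fun _ => rfl⟩ ?_
  have h2 := lts_aux_pow_le h0 h1 hR
  have h3 : δ ^ R * δ ^ (-R) = 1 := by rw [← Real.rpow_add h0]; simp
  nlinarith


/-- the seven entries of the fibre label are fixed within `δ^R` by the display -/
theorem ltt_rd_pt (l : ℝ) (hG : T.LtGeo Z a K acc) (hD : T.LtDsp a K acc l) (hacc : 1000 * acc ≤ 1) (hR : 0 ≤ R) (hl : R + 1 ≤ l) (ω : T.Ω) (hω : T.P.p ω ≠ 0) :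
    |(T.dsp l ω).th - (T.mrk 0 ω).th| ≤ T.δ ^ R ∧ |(T.dsp l ω).R - (T.mrk 0 ω).r| ≤ T.δ ^ R ∧
      |(T.dsp l ω).W - ((T.F ω).B + (T.mrk 0 ω).th * (T.F ω).X)| ≤ T.δ ^ R ∧ |(T.dsp l ω).V - ((T.F ω).Y + (T.mrk 0 ω).th * (T.F ω).X ^ 2)| ≤ T.δ ^ R ∧
      |((T.dsp l ω).pos + (T.dsp l ω).L * (T.dsp l ω).W + (T.dsp l ω).R * (T.dsp l ω).V) - ((T.F ω).D + (T.mrk 0 ω).th * (T.F ω).N)| ≤ T.δ ^ R ∧
      |(T.dsp l ω).L - ((T.F ω).P - 2 * (T.mrk 0 ω).r * (T.F ω).X)| ≤ T.δ ^ R ∧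
      |(T.dsp l ω).vel - ((T.F ω).N - (T.F ω).P * (T.F ω).X + (T.mrk 0 ω).r * (T.F ω).X ^ 2)| ≤ T.δ ^ R := by
  have h0 := hG.δ0
  have h1 := hG.δ1
  have hd := hD.dsp ω hω
  obtain ⟨hb, hcut⟩ := hd.cutc hG.quad hG.c1.le
  have hder := hd.derq hG.quad
  have hvel := hd.vel
  have hpos := hd.pos
  rw [hG.c1, one_mul] at hcut hder hvel
  rw [hb] at hder hvel hpos
  rw [hG.c1] at hpos
  set A0 : ℝ := T.δ ^ (-acc) with hA0
  have hA1 : (1 : ℝ) ≤ A0 := le_trans (by norm_num) hG.hC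
  have hl0 : 0 ≤ l := by linarith
  have hδl : (0 : ℝ) < T.δ ^ l := Real.rpow_pos_of_pos h0 _
  have he : 0 ≤ A0 * T.δ ^ l := by positivity
  have hf : (T.F ω).nrm ≤ A0 := (hG.bdF ω hω).trans hG.hB
  unfold ItPh.nrm at hf
  simp only [max_le_iff] at hf
  obtain ⟨⟨⟨hX, -⟩, -, -⟩, hN, -⟩ := hf
  have h2l : A0 * T.δ ^ ((1 + 1) * l) ≤ A0 * T.δ ^ l :=
    mul_le_mul_of_nonneg_left (Real.rpow_le_rpow_of_exponent_ge h0 h1.le (by linarith)) (by linarith)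
  have key := ltt_rd_alg (X := (T.F ω).X) (B := (T.F ω).B) (P := (T.F ω).P) (Y := (T.F ω).Y) (N := (T.F ω).N) (D := (T.F ω).D)
    (th := (T.mrk 0 ω).th) (r := (T.mrk 0 ω).r) (t := (T.dsp l ω).th) (W := (T.dsp l ω).W) (V := (T.dsp l ω).V) (L := (T.dsp l ω).L)
    (R := (T.dsp l ω).R) (vel := (T.dsp l ω).vel) (pos := (T.dsp l ω).pos) hA1 he hX hN hd.bd.2.1 hd.bd.2.2.1 hd.time hd.baseW hd.baseV hcut
    (by simpa using hder) (by simpa using hvel) (by simpa using hpos.trans h2l)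
  have hnum : 4 * A0 ^ 2 * (A0 * T.δ ^ l) ≤ T.δ ^ R := by
    have h4 : (4 : ℝ) ≤ A0 := le_trans (by norm_num) hG.hC
    have e1 : A0 ^ 4 * T.δ ^ l = T.δ ^ (-(4 * acc) + l) := by
      rw [Real.rpow_add h0, hA0, ← Real.rpow_natCast, ← Real.rpow_mul h0.le]
      congr 2
      push_cast
      ring
    have e2 : T.δ ^ (-(4 * acc) + l) ≤ T.δ ^ R := Real.rpow_le_rpow_of_exponent_ge h0 h1.le (by linarith)
    have e3 : 4 * A0 ^ 2 * (A0 * T.δ ^ l) ≤ A0 ^ 4 * T.δ ^ l := by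
      have : 4 * A0 ^ 3 ≤ A0 ^ 4 := by
        have : 0 ≤ A0 ^ 3 := by positivity
        nlinarith
      nlinarith
    linarith
  obtain ⟨k1, k2, k3, k4, k5, k6, k7⟩ := key
  exact ⟨k1.trans hnum, k2.trans hnum, k3.trans hnum, k4.trans hnum, k5.trans hnum, k6.trans hnum, k7.trans hnum⟩

/-- LEAF L-256-LTT-READ.   a later child name reads the fibre label (X10, 04 l.963-1000): `lay_read_quad` (Lay/Contract; copy the algebra `lay_rd_quad`) with `e = A0 δ^l`, `𝔨`: `cutc` gives `𝔟 = 0`; the five entries and the two marks are fixed within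
`20 (1 + B0)^3 A0 δ^l ≤ δ^R` by `(O l, C)`: at most `3^7` labels. -/
theorem ltt_read (l : ℝ) (hG : T.LtGeo Z a K acc) (hD : T.LtDsp a K acc l) (hτ : 1000 * acc ≤ τ) (hacc : 1000 * acc ≤ 1) (hR : 0 ≤ R) (hl : R + 1 ≤ l) :
    T.P.NVal (fun _ => True) (T.ltS R) (pair (T.O l) T.Cs) (T.δ ^ (-τ)) := by
  have h0 := hG.δ0
  have h1 := hG.δ1
  have hs : ∀ ω ω', pair (T.O l) T.Cs ω = pair (T.O l) T.Cs ω' → T.dsp l ω = T.dsp l ω' := by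
    intro ω ω' h
    have h' := Prod.mk.inj h
    exact hD.dfun ω ω' h'.1 h'.2
  have pt := ltt_rd_pt T Z a K acc R l hG hD hacc hR hl
  have n1 := ltt_rd_six T.P (pair (T.O l) T.Cs) (T.dsp l) (fun s => s.th) (fun ω => (T.mrk 0 ω).th) h0 h1 hR hs (fun ω hω => (pt ω hω).1)
  have n2 := ltt_rd_six T.P (pair (T.O l) T.Cs) (T.dsp l) (fun s => s.R) (fun ω => (T.mrk 0 ω).r) h0 h1 hR hs (fun ω hω => (pt ω hω).2.1)
  have n3 := ltt_rd_six T.P (pair (T.O l) T.Cs) (T.dsp l) (fun s => s.W) (fun ω => (T.F ω).B + (T.mrk 0 ω).th * (T.F ω).X) h0 h1 hR hs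
    (fun ω hω => (pt ω hω).2.2.1)
  have n4 := ltt_rd_six T.P (pair (T.O l) T.Cs) (T.dsp l) (fun s => s.V) (fun ω => (T.F ω).Y + (T.mrk 0 ω).th * (T.F ω).X ^ 2) h0 h1 hR hs
    (fun ω hω => (pt ω hω).2.2.2.1)
  have n5 := ltt_rd_six T.P (pair (T.O l) T.Cs) (T.dsp l) (fun s => s.pos + s.L * s.W + s.R * s.V) (fun ω => (T.F ω).D + (T.mrk 0 ω).th * (T.F ω).N) h0 h1 hR hs
    (fun ω hω => (pt ω hω).2.2.2.2.1)
  have n6 := ltt_rd_six T.P (pair (T.O l) T.Cs) (T.dsp l) (fun s => s.L) (fun ω => (T.F ω).P - 2 * (T.mrk 0 ω).r * (T.F ω).X) h0 h1 hR hs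
    (fun ω hω => (pt ω hω).2.2.2.2.2.1)
  have n7 := ltt_rd_six T.P (pair (T.O l) T.Cs) (T.dsp l) (fun s => s.vel) (fun ω => (T.F ω).N - (T.F ω).P * (T.F ω).X + (T.mrk 0 ω).r * (T.F ω).X ^ 2) h0 h1 hR hs
    (fun ω hω => (pt ω hω).2.2.2.2.2.2)
  have p12 := ltt_rd_prod T.P _ _ _ _ (by norm_num) n1 n2
  have p45 := ltt_rd_prod T.P _ _ _ _ (by norm_num) n4 n5
  have p345 := ltt_rd_prod T.P _ _ _ _ (by norm_num) n3 p45
  have p67 := ltt_rd_prod T.P _ _ _ _ (by norm_num) n6 n7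
  have pQ := ltt_rd_prod T.P _ _ _ _ (by norm_num) p345 p67
  have pall := ltt_rd_prod T.P _ _ _ _ (by norm_num) p12 pQ
  refine ltk_nval_mono T.P pall (fun _ h => h) (fun _ _ h => h) ⟨id, fun ω => ?_⟩ ?_
  · simp [Tan.ltS, Tan.ltLab, itXi, itQ]
  · have hacc0 := hG.acc0
    have e1 : T.δ ^ (-acc) ≤ T.δ ^ (-τ) := Real.rpow_le_rpow_of_exponent_ge h0 h1.le (by linarith)
    have e2 := hG.hC
    norm_num at e2 ⊢
    linarith


end exits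

/-- **THE LINE TEST ON A TANGENT DATUM.**   If the entropy of the child name given the root name, on the restricted single law, is below the bound of the line test, the slope of the line is predicted by `(C, S)`. -/
theorem ltt_main (d g η : ℝ) (hd : 0 < d) (hd1 : d ≤ 1) (hg : 0 < g) (hg1 : g ≤ 1) (hη : 0 < η) :
    ∃ χ : ℝ, 0 < χ ∧ χ ≤ 1 ∧ ∃ Q : Finset ℝ, (∀ q ∈ Q, 0 ≤ q ∧ q ≤ 3) ∧ ∃ τ : ℝ, 0 < τ ∧ τ ≤ 1 ∧ ∃ δ₀ : ℝ, 0 < δ₀ ∧
      ∀ (T : Tan) (ζ' : Type) (A : T.Ω → Prop) (Z : T.Ω → ζ') (be ka : ζ' → ℝ) (a : ItPar) (K acc R : ℝ) (M : ℝ → ℝ), T.δ < δ₀ → 1000 * acc ≤ τ → 10 ≤ R →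
        T.LtGeo Z a K acc → T.LtDsp a K acc 1 → T.LtLine A Z be ka τ → T.LtPrb A Z d g τ R Q M →
        (T.P.cnd A).entC (T.O 1) T.Cs < (2 * d + g + 2 * min 1 (2 * d) + min 1 (d + g) - η) * T.L →
        ∃ I : T.γ × LttS → ℝ, τ < (T.P.cnd A).pr (fun ω => |I (T.Cs ω, T.ltS R ω) - ka (Z ω)| < T.δ ^ χ) := by
  obtain ⟨ε, hε, hε1, χ, hχ, hχ1, Q, hQ, τ, hτ, hτ1, δ₀, hδ₀, H⟩ := lt_main d g η hd hd1 hg hg1 hη
  refine ⟨χ, hχ, hχ1, Q, hQ, τ, hτ, hτ1, δ₀, hδ₀, ?_⟩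
  intro T ζ' A Z be ka a K acc R M hδ hacc hR hG hD hL hP hent
  refine ltt_pop T A Z be ka a K acc τ χ R hG ?_
  by_contra hcon
  have hmis := not_lt.1 hcon
  have hH := ltt_hyp T A Z be ka a K acc d g τ χ ε R Q M hG hD hL hP hacc hε hε1 hR hmis
  have h1 := H _ (T.lt A Z be ka R) M (fun _ => True) hδ hH
  rw [ltt_ent T A Z be ka a K acc R hG] at h1
  have h2 : (T.lt A Z be ka R).ℓ = T.L := rfl
  rw [h2] at h1
  linarith

end Claimed.Agent.R256
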