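import Claimed.Agent.R256.Act.Pkg

/-!
# Row 256, section Act, file 2: EXHAUSTION OF THE AFFINE CONFIGURATIONS      (chief helper277)

Paper 06-cylinder-actions.tex l.1081-1276.  PAPER FREE: no package `AcEq`, `AcLin`, `AcStr` exists.  18 leaves of the paper = the lemmas `ac_*_L*` below; each closes by ONE scheme of `Og/`:
`og_sch_corner` (L1, L2), `og_sch_ray` (L3, L10-12, L16, L18), `og_sch_slab` (L4, L5, L7, L9), `og_main` (L6, L8, L13), `og_sch_bdry` (L14, L15, L17).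
HOW TO (details in report 864 / notes/R256 of helper277):
* corner: `S : OgSeg` with `m = 1`, `k0 = 0`, `k = 1`, `RegM = False`, `RegF t v = 0 < t ≤ 1/2 ∧ 0 < v < κ t`, `κ = min J (min (c/2) Vm)`; memory slope `> thrQ` by `ac_mem_gt`.
* ray: speed `k = k* - ϑ` with `Lip ϑ ≤ Γ` (`og_dini_speed`, `ogDiniLe_mono`), `RegM = RegF = {0 < t ≤ T, 0 < v < k* t}`, `θ = ϑ/2`, `T` small so that `v < Vm`; surplus `Γ`.
* slab: shrink `τ0, ς0` of `AcSlab` so that the cone lies in the box / strip; constant threshold: `B = ∅`; threshold `k0 - C1 ν t`: `γ = Γ`, `B = {t | Γ / C1 < |ν t - ν tj|}`, `ac_lebesgue`.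
* og: `OgData.ok_of_facts` + arithmetic + `og_main`.
-/

set_option autoImplicit false

namespace Claimed.Agent.R256

open MeasureTheory Filter Topology

/-! ### paper-free tools -/

theorem ogDiniLe_mono (φ : ℝ → ℝ) (x c c' : ℝ) (h : c ≤ c') (hd : OgDiniLe φ x c) :
    OgDiniLe φ x c' := by
  intro ε hε
  filter_upwards [hd ε hε, self_mem_nhdsWithin] with t ht ht0
  have : (0 : ℝ) < t := ht0
  nlinarith

/-- memory slope versus a threshold `k0 / M`, `L ≤ M` -/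
theorem ac_mem_gt (P : AcPar) (hP : P.Ok) (L M : ℝ) (hL : 1 ≤ L) (hM : L ≤ M) :
    P.k0 / M < P.mem L := by
  have hk : 0 ≤ P.k0 := by unfold AcPar.k0; linarith [hP.d_le]
  have hL0 : 0 < L := by linarith
  have hM0 : 0 < M := by linarith
  unfold AcPar.mem
  rw [div_lt_div_iff₀ hM0 hL0]
  nlinarith [mul_nonneg hk (sub_nonneg.2 hM), mul_pos hP.Γ_pos hM0,
    mul_nonneg hP.η_pos.le (sub_nonneg.2 hL),
    mul_nonneg (mul_nonneg hP.η_pos.le (sub_nonneg.2 hL)) hM0.le]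

/-- strong / weak dichotomy (paper l.1132-1137): `pst` nonincreasing in backward time, `pst ≥ b₁ = -C1 t` -/
theorem ac_dich (pst : ℝ → ℝ) (C1 : ℝ) (hC : 0 ≤ C1)
    (hanti : ∀ t t', 0 < t → t ≤ t' → t' < 1 → pst t' ≤ pst t)
    (hge : ∀ t, 0 < t → t < 1 → -(C1 * t) ≤ pst t) :
    (∃ t0 t1 σ : ℝ, 0 < t0 ∧ t0 < t1 ∧ t1 < 1 ∧ 0 < σ ∧ ∀ t, t0 < t → t < t1 → -(C1 * t) + σ ≤ pst t) ∨
      ∀ t, 0 < t → t < 1 → pst t = -(C1 * t) := by
  by_cases hall : ∀ t, 0 < t → t < 1 → pst t = -(C1 * t)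
  · exact Or.inr hall
  left
  push Not at hall
  obtain ⟨ts, hts0, hts1, hne⟩ := hall
  have hgt : -(C1 * ts) < pst ts := lt_of_le_of_ne (hge ts hts0 hts1) (Ne.symm hne)
  set σ0 := pst ts + C1 * ts with hσ0
  have hσ0pos : 0 < σ0 := by rw [hσ0]; linarith
  have hq : 0 < σ0 / (2 * (C1 + 1)) := by positivity
  have hq' : σ0 / (2 * (C1 + 1)) * (2 * (C1 + 1)) = σ0 := by field_simp
  refine ⟨max (ts / 2) (ts - σ0 / (2 * (C1 + 1))), ts, σ0 / 2, lt_max_of_lt_left (by linarith),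
    max_lt (by linarith) (by linarith), hts1, by linarith, ?_⟩
  intro t ht0 ht1
  have h1 : ts / 2 < t := lt_of_le_of_lt (le_max_left _ _) ht0
  have h2 : ts - σ0 / (2 * (C1 + 1)) < t := lt_of_le_of_lt (le_max_right _ _) ht0
  have h3 := hanti t ts (by linarith) ht1.le hts1
  have h4 : C1 * (ts - t) ≤ σ0 / 2 := by nlinarith
  nlinarith

/-- one-sided Lebesgue points in measure -/
theorem ac_lebesgue (ν : ℝ → ℝ) (hm : Measurable ν) (hb : ∀ t, 0 ≤ ν t ∧ ν t ≤ 1) :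
    ∀ᵐ tj : ℝ, ∀ θ : ℝ, 0 < θ → ∀ η : ℝ, 0 < η → ∀ᶠ τ in 𝓝[>] (0 : ℝ),
      (volume ({t | θ < |ν t - ν tj|} ∩ Set.Icc tj (tj + τ))).toReal ≤ η * τ := by
  have hbd : ∀ t, ‖ν t‖ ≤ 1 := fun t => by
    rw [Real.norm_eq_abs, abs_of_nonneg (hb t).1]; exact (hb t).2
  have hloc : LocallyIntegrable ν volume := by
    refine (locallyIntegrable_const (1 : ℝ)).mono hm.aestronglyMeasurable ?_
    exact Eventually.of_forall fun t => by simpa using hbd t
  filter_upwards [(IsUnifLocDoublingMeasure.vitaliFamily (volume : Measure ℝ) 1).ae_tendsto_average_norm_sub hloc]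
    with tj htj θ hθ η hη
  have h1 := htj.comp (Real.tendsto_Icc_vitaliFamily_right tj)
  have hshift : Tendsto (fun τ : ℝ => tj + τ) (𝓝[>] (0 : ℝ)) (𝓝[>] tj) := by
    refine tendsto_nhdsWithin_of_tendsto_nhds_of_eventually_within _ ?_ ?_
    · have : Tendsto (fun τ : ℝ => tj + τ) (𝓝 (0 : ℝ)) (𝓝 (tj + 0)) := (continuous_const.add continuous_id).tendsto 0
      rw [add_zero] at this
      exact this.mono_left nhdsWithin_le_nhds
    · filter_upwards [self_mem_nhdsWithin] with τ hτ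
      have : (0 : ℝ) < τ := hτ
      show tj < tj + τ
      linarith
  have h2 := h1.comp hshift
  have h3 : ∀ᶠ τ in 𝓝[>] (0 : ℝ), (⨍ y in Set.Icc tj (tj + τ), ‖ν y - ν tj‖) < θ * η :=
    h2.eventually (Iio_mem_nhds (by positivity))
  filter_upwards [h3, self_mem_nhdsWithin] with τ hτ hτ0
  have hτ' : (0 : ℝ) < τ := hτ0
  rw [setAverage_eq, smul_eq_mul] at hτ
  have hvol : (volume.real (Set.Icc tj (tj + τ))) = τ := by
    rw [measureReal_def, Real.volume_Icc, ENNReal.toReal_ofReal (by linarith)]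
    ring
  rw [hvol, inv_mul_lt_iff₀ hτ'] at hτ
  have hint : Integrable (fun y => ‖ν y - ν tj‖) (volume.restrict (Set.Icc tj (tj + τ))) := by
    refine Integrable.mono' (g := fun _ => (2 : ℝ)) (integrable_const _) ?_ ?_
    · exact ((hm.sub measurable_const).norm).aestronglyMeasurable
    · refine Eventually.of_forall fun y => ?_
      rw [norm_norm]
      calc ‖ν y - ν tj‖ ≤ ‖ν y‖ + ‖ν tj‖ := norm_sub_le _ _
        _ ≤ 2 := by linarith [hbd y, hbd tj]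
  have hmk := mul_meas_ge_le_integral_of_nonneg (μ := volume.restrict (Set.Icc tj (tj + τ)))
    (Eventually.of_forall fun y => norm_nonneg (ν y - ν tj)) hint θ
  have hms : MeasurableSet {x | θ ≤ ‖ν x - ν tj‖} :=
    measurableSet_le measurable_const ((hm.sub measurable_const).norm)
  rw [measureReal_def, Measure.restrict_apply hms] at hmk
  have hle : (volume ({t | θ < |ν t - ν tj|} ∩ Set.Icc tj (tj + τ))).toReal
      ≤ (volume ({x | θ ≤ ‖ν x - ν tj‖} ∩ Set.Icc tj (tj + τ))).toReal := by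
    refine ENNReal.toReal_mono ?_ (measure_mono ?_)
    · exact ne_of_lt (lt_of_le_of_lt (measure_mono Set.inter_subset_right) measure_Icc_lt_top)
    · exact Set.inter_subset_inter_left _ fun t (ht : θ < |ν t - ν tj|) => (show θ ≤ ‖ν t - ν tj‖ from le_of_lt ht)
  have h5 : θ * (volume ({t | θ < |ν t - ν tj|} ∩ Set.Icc tj (tj + τ))).toReal ≤ θ * (η * τ) := by
    calc θ * (volume ({t | θ < |ν t - ν tj|} ∩ Set.Icc tj (tj + τ))).toReal
        ≤ θ * (volume ({x | θ ≤ ‖ν x - ν tj‖} ∩ Set.Icc tj (tj + τ))).toReal := mul_le_mul_of_nonneg_left hle hθ.le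
      _ ≤ ∫ y in Set.Icc tj (tj + τ), ‖ν y - ν tj‖ := hmk
      _ ≤ τ * (θ * η) := hτ.le
      _ = θ * (η * τ) := by ring
  exact le_of_mul_le_mul_left h5 hθ

/-- the slab scheme in the box of the profiles: `Reg` = region of validity of the freezing action, containing a small square behind the equality point -/
theorem ac_slab_false (P : AcPar) (hP : P.Ok) (E m : ℝ → ℝ → ℝ) (thr : ℝ → ℝ) (Nn Reg : ℝ → ℝ → Prop)
    (tj μ γ δ : ℝ) (hb : AcBase P E Nn) (hNn : ∀ t v, Nn t v) (htj0 : 0 < tj) (htj1 : tj < 1) (hδ : 0 < δ)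
    (hE0 : E tj (P.J * tj) = 0) (hslab : AcSlab m tj (P.J * tj) μ) (hγ : 0 < γ) (hγμ : γ < μ)
    (hReg : ∀ t v, tj < t → t < tj + δ → P.J * tj < v → v < P.J * tj + δ → Reg t v)
    (freeze : ∀ᵐ p : ℝ × ℝ, Reg p.1 p.2 → 0 < m p.1 p.2 → thr p.1 ≤ m p.1 p.2 → AcV E (2 * P.Γ) p)
    (hthr : ∀ η : ℝ, 0 < η → ∀ᶠ τ in 𝓝[>] (0 : ℝ), ∃ B : Set ℝ, MeasurableSet B ∧
      (volume (B ∩ Set.Icc tj (tj + τ))).toReal ≤ η * τ ∧
      ∀ t ∈ Set.Icc tj (tj + τ), t ∉ B → thr t ≤ μ - γ) : False := by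
  obtain ⟨R, C, lam, τ0, ς0, hlam, hτ0, hς0, hRlip, hR0, hRs, htr⟩ := hslab
  have hJ := hP.J_nn
  have huj0 : 0 ≤ P.J * tj := mul_nonneg hJ htj0.le
  have hujV : P.J * tj < P.Vm := by
    have : P.J * tj ≤ P.J := by nlinarith
    linarith [hP.J_lt_Vm]
  set τ1 := min τ0 (min δ (1 - tj)) with hτ1
  set ς1 := min ς0 (min δ (P.Vm - P.J * tj)) with hς1
  have hτ1pos : 0 < τ1 := lt_min hτ0 (lt_min hδ (by linarith))
  have hς1pos : 0 < ς1 := lt_min hς0 (lt_min hδ (by linarith))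
  have a1 : τ1 ≤ τ0 := min_le_left _ _
  have a2 : τ1 ≤ δ := (min_le_right _ _).trans (min_le_left _ _)
  have a3 : τ1 ≤ 1 - tj := (min_le_right _ _).trans (min_le_right _ _)
  have b1 : ς1 ≤ ς0 := min_le_left _ _
  have b2 : ς1 ≤ δ := (min_le_right _ _).trans (min_le_left _ _)
  have b3 : ς1 ≤ P.Vm - P.J * tj := (min_le_right _ _).trans (min_le_right _ _)
  have hbox : ∀ t v, tj ≤ t → t ≤ tj + τ1 → P.J * tj ≤ v → v ≤ P.J * tj + ς1 → P.Box t v :=
    fun t v h1 h2 h3 h4 => ⟨by linarith, by linarith, by linarith, by linarith⟩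
  refine og_sch_slab E m R thr (2 * P.Γ) P.Lip C tj (P.J * tj) τ1 ς1 lam μ γ (by linarith [hP.Γ_pos]) hP.Lip_nn
    hτ1pos hς1pos hlam hγ hγμ ?_ ?_ hE0 ?_ hR0 hRs ?_ ?_ hthr
  · intro t v h1 h2 h3 h4
    exact hb.nn t v (hbox t v h1 h2 h3 h4) (hNn t v)
  · intro t v t' v' h1 h2 h3 h4 h5 h6 h7 h8
    exact hb.lip t v t' v' (hbox t v h1 h2 h3 h4) (hbox t' v' h5 h6 h7 h8)
  · intro x hx y hy
    exact hRlip x ⟨hx.1, by linarith [hx.2]⟩ y ⟨hy.1, by linarith [hy.2]⟩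
  · filter_upwards [htr] with p hp h1 h2 h3 h4 h5
    exact hp h1 (by linarith) h3 (by linarith) h5
  · filter_upwards [freeze] with p hp h1 h2 h3 h4 _ h6 h7
    exact hp (hReg p.1 p.2 h1 (by linarith) h3 (by linarith)) h6 h7

/-- a point of an interval in a conull set -/
theorem ac_pick (t0 t1 : ℝ) (h : t0 < t1) (Q : ℝ → Prop) (hQ : ∀ᵐ t : ℝ, Q t) : ∃ t, t0 < t ∧ t < t1 ∧ Q t := by
  by_contra hcon
  have hsub : Set.Ioo t0 t1 ⊆ {t | ¬ Q t} := fun t ht hq => hcon ⟨t, ht.1, ht.2, hq⟩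
  have h1 := measure_mono_null hsub (ae_iff.1 hQ)
  rw [Real.volume_Ioo] at h1
  have := ENNReal.ofReal_eq_zero.1 h1
  linarith

/-- the threshold `k0 - C1 ν t` behind a one-sided Lebesgue point of `ν` -/
theorem ac_thr_leb (ν : ℝ → ℝ) (hm : Measurable ν) (k0 C1 Γ μ tj : ℝ) (hC : 0 < C1) (hΓ : 0 < Γ)
    (hμ : k0 + 2 * Γ - C1 * ν tj ≤ μ)
    (hleb : ∀ θ : ℝ, 0 < θ → ∀ η : ℝ, 0 < η → ∀ᶠ τ in 𝓝[>] (0 : ℝ),
      (volume ({t | θ < |ν t - ν tj|} ∩ Set.Icc tj (tj + τ))).toReal ≤ η * τ) :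
    ∀ η : ℝ, 0 < η → ∀ᶠ τ in 𝓝[>] (0 : ℝ), ∃ B : Set ℝ, MeasurableSet B ∧
      (volume (B ∩ Set.Icc tj (tj + τ))).toReal ≤ η * τ ∧
      ∀ t ∈ Set.Icc tj (tj + τ), t ∉ B → k0 - C1 * ν t ≤ μ - Γ := by
  intro η hη
  filter_upwards [hleb (Γ / C1) (by positivity) η hη] with τ hτ
  refine ⟨{t | Γ / C1 < |ν t - ν tj|}, ?_, hτ, ?_⟩
  · exact measurableSet_lt measurable_const ((hm.sub measurable_const).abs)
  · intro t _ htB
    have h1 : |ν t - ν tj| ≤ Γ / C1 := not_lt.1 htB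
    have h2 : C1 * |ν t - ν tj| ≤ Γ := by
      have := mul_le_mul_of_nonneg_left h1 hC.le
      rwa [mul_div_cancel₀ _ hC.ne'] at this
    have h3 : -(ν t - ν tj) ≤ |ν t - ν tj| := neg_le_abs _
    nlinarith

/-- values near the corner are small -/
theorem ac_corner_small (P : AcPar) (hP : P.Ok) (E : ℝ → ℝ → ℝ) (Nn : ℝ → ℝ → Prop) (hb : AcBase P E Nn) (t v : ℝ)
    (hbox : P.Box t v) : E t v ≤ P.Lip * (t + v) := by
  have h0 : P.Box 0 0 := ⟨le_rfl, by norm_num, le_rfl, by linarith [hP.J_nn, hP.J_lt_Vm]⟩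
  have h := hb.lip t v 0 0 hbox h0
  rw [hb.corner, sub_zero, sub_zero, sub_zero, abs_of_nonneg hbox.1, abs_of_nonneg hbox.2.2.1] at h
  exact (le_abs_self _).trans h

/-- the ray scheme in the box of the profiles: motion of speed `ks` in the sector `lo t < v < hi t`, freezing in `0 < v < hi t` -/
theorem ac_ray_false (P : AcPar) (hP : P.Ok) (E m : ℝ → ℝ → ℝ) (Nn : ℝ → ℝ → Prop) (ks k0 lo hi T : ℝ)
    (hb : AcBase P E Nn) (hlo : 0 ≤ lo) (hlk : lo < ks) (hkh : ks ≤ hi) (hT0 : 0 < T) (hT1 : T < 1)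
    (hTV : hi * T < P.Vm)
    (hNn : ∀ t v, 0 < t → t ≤ T → 0 < v → v < hi * t → Nn t v)
    (m_mono : ∀ t v t', 0 < t → 0 < v → v < hi * t → t ≤ t' → t' ≤ T → m t v ≤ m t' v)
    (move : ∀ᵐ p : ℝ × ℝ, 0 < p.1 → p.1 ≤ T → lo * p.1 < p.2 → p.2 < hi * p.1 → m p.1 p.2 ≤ k0 →
      AcM E ks (2 * P.Γ) p)
    (freeze : ∀ᵐ p : ℝ × ℝ, 0 < p.1 → p.1 ≤ T → 0 < p.2 → p.2 < hi * p.1 → k0 < m p.1 p.2 →
      AcV E (2 * P.Γ) p) : False := by
  have hΓ := hP.Γ_pos
  have hLip := hP.Lip_nn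
  have hks : 0 < ks := by linarith
  have hhi : 0 < hi := by linarith
  set ϑ := min ((ks - lo) / 2) (P.Γ / (P.Lip + 1)) with hϑ
  have hϑ0 : 0 < ϑ := lt_min (by linarith) (by positivity)
  have hϑ1 : ϑ ≤ (ks - lo) / 2 := min_le_left _ _
  have hϑ2 : P.Lip * ϑ ≤ P.Γ := by
    have h1 : ϑ ≤ P.Γ / (P.Lip + 1) := min_le_right _ _
    have h2 : P.Γ / (P.Lip + 1) * (P.Lip + 1) = P.Γ := by field_simp
    have h3 : 0 < P.Γ / (P.Lip + 1) := by positivity
    nlinarith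
  have hbox : ∀ t v, 0 < t → t ≤ T → 0 < v → v < hi * t → P.Box t v := by
    intro t v h1 h2 h3 h4
    refine ⟨h1.le, by linarith, h3.le, ?_⟩
    have : hi * t ≤ hi * T := mul_le_mul_of_nonneg_left h2 hhi.le
    linarith
  let S : OgSeg :=
    { Γ := P.Γ, k := ks - ϑ, k0 := k0, Lip := P.Lip, T := T, E := E, m := m
      RegM := fun t v => 0 < t ∧ t ≤ T ∧ lo * t < v ∧ v < hi * t
      RegF := fun t v => 0 < t ∧ t ≤ T ∧ 0 < v ∧ v < hi * t }
  have hS : S.Ok :=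
    { Γ_nn := hΓ.le
      k_pos := by show 0 < ks - ϑ; linarith
      Lip_nn := hLip
      sub := by
        rintro t v ⟨h1, h2, h3, h4⟩
        exact ⟨h1, h2, lt_of_le_of_lt (mul_nonneg hlo h1.le) h3, h4⟩
      vert := by
        rintro t v t' ⟨h1, h2, h3, h4⟩ h5 h6
        exact ⟨by linarith, h6, h3, lt_of_lt_of_le h4 (mul_le_mul_of_nonneg_left h5 hhi.le)⟩
      E_nn := by
        rintro t v ⟨h1, h2, h3, h4⟩
        exact hb.nn t v (hbox t v h1 h2 h3 h4) (hNn t v h1 h2 h3 h4)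
      E_lip := by
        rintro t v t' v' ⟨h1, h2, h3, h4⟩ ⟨h5, h6, h7, h8⟩
        exact hb.lip t v t' v' (hbox t v h1 h2 h3 h4) (hbox t' v' h5 h6 h7 h8)
      m_mono := by
        rintro t v t' ⟨h1, h2, h3, h4⟩ h5 h6
        exact m_mono t v t' h1 h3 h4 h5 h6
      move := by
        filter_upwards [move] with p hp
        rintro ⟨h1, h2, h3, h4⟩ h5
        have hv0 : 0 < p.2 := lt_of_le_of_lt (mul_nonneg hlo h1.le) h3
        have hvV : p.2 < P.Vm := by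
          have : hi * p.1 ≤ hi * T := mul_le_mul_of_nonneg_left h2 hhi.le
          linarith
        have hmv : OgDiniLe (fun τ => E (p.1 + τ) (p.2 + ks * τ)) 0 (-(2 * P.Γ)) := hp h1 h2 h3 h4 h5
        have hev1 : ∀ᶠ τ in 𝓝[>] (0 : ℝ), τ < 1 - T := nhdsWithin_le_nhds (Iio_mem_nhds (by linarith))
        have hev2 : ∀ᶠ τ in 𝓝[>] (0 : ℝ), τ < (P.Vm - p.2) / ks :=
          nhdsWithin_le_nhds (Iio_mem_nhds (div_pos (by linarith) hks))
        have hsp := og_dini_speed E p.1 p.2 ks (ks - ϑ) (-(2 * P.Γ)) P.Lip (by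
          filter_upwards [hev1, hev2, self_mem_nhdsWithin] with τ e1 e2 e3
          have hτ : (0 : ℝ) < τ := e3
          rw [lt_div_iff₀ hks] at e2
          have b1 : P.Box (p.1 + τ) (p.2 + ks * τ) :=
            ⟨by linarith, by linarith, by nlinarith, by nlinarith⟩
          have b2 : P.Box (p.1 + τ) (p.2 + (ks - ϑ) * τ) :=
            ⟨by linarith, by linarith, by nlinarith, by nlinarith⟩
          have := hb.lip _ _ _ _ b1 b2
          rw [sub_self, abs_zero, zero_add] at this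
          have e : p.2 + ks * τ - (p.2 + (ks - ϑ) * τ) = ks * τ - (ks - ϑ) * τ := by ring
          rwa [e] at this) hmv
        refine ogDiniLe_mono _ _ _ _ ?_ hsp
        have e : ks - (ks - ϑ) = ϑ := by ring
        rw [e, abs_of_pos hϑ0]
        show -(2 * P.Γ) + P.Lip * ϑ ≤ -P.Γ
        linarith
      freeze := by
        filter_upwards [freeze] with p hp
        rintro ⟨h1, h2, h3, h4⟩ h5
        exact ogDiniLe_mono _ _ _ _ (by show -(2 * P.Γ) ≤ -P.Γ; linarith) (hp h1 h2 h3 h4 h5) }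
  refine og_sch_ray S hS hΓ hT0 (ϑ / 2) (by positivity) ?_ ?_
  · intro t v h1 h2 h3
    have h3' : |v - (ks - ϑ) * t| ≤ ϑ / 2 * t := h3
    rw [abs_le] at h3'
    refine ⟨h1, h2, ?_, ?_⟩
    · nlinarith [h3'.1]
    · nlinarith [h3'.2]
  · intro ε hε
    have hden : 0 < 2 * (P.Lip * (1 + ks) + 1) := by positivity
    have hq : 0 < ε / (2 * (P.Lip * (1 + ks) + 1)) := by positivity
    have hq' : ε / (2 * (P.Lip * (1 + ks) + 1)) * (2 * (P.Lip * (1 + ks) + 1)) = ε := by field_simp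
    refine ⟨min (ε / 2) (min T (ε / (2 * (P.Lip * (1 + ks) + 1)))), lt_min (by linarith) (lt_min hT0 hq),
      lt_of_le_of_lt (min_le_left _ _) (by linarith), ?_⟩
    set t := min (ε / 2) (min T (ε / (2 * (P.Lip * (1 + ks) + 1)))) with ht
    have ht0 : 0 < t := lt_min (by linarith) (lt_min hT0 hq)
    have ht1 : t ≤ T := (min_le_right _ _).trans (min_le_left _ _)
    have ht2 : t ≤ ε / (2 * (P.Lip * (1 + ks) + 1)) := (min_le_right _ _).trans (min_le_right _ _)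
    show E t ((ks - ϑ) * t) < ε
    have hk0 : 0 < (ks - ϑ) * t := mul_pos (by linarith) ht0
    have hk1 : (ks - ϑ) * t < hi * t := by nlinarith
    have h5 := ac_corner_small P hP E Nn hb t ((ks - ϑ) * t) (hbox t _ ht0 ht1 hk0 hk1)
    have h6 : P.Lip * (t + (ks - ϑ) * t) ≤ P.Lip * (1 + ks) * t := by
      have : t + (ks - ϑ) * t ≤ (1 + ks) * t := by nlinarith
      calc P.Lip * (t + (ks - ϑ) * t) ≤ P.Lip * ((1 + ks) * t) := mul_le_mul_of_nonneg_left this hLip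
        _ = P.Lip * (1 + ks) * t := by ring
    have h7 : (P.Lip * (1 + ks) + 1) * t ≤ ε / 2 := by
      have : (P.Lip * (1 + ks) + 1) * t ≤ (P.Lip * (1 + ks) + 1) * (ε / (2 * (P.Lip * (1 + ks) + 1))) :=
        mul_le_mul_of_nonneg_left ht2 (by positivity)
      have e : (P.Lip * (1 + ks) + 1) * (ε / (2 * (P.Lip * (1 + ks) + 1))) = ε / 2 := by field_simp
      linarith
    nlinarith

theorem ac_mem_pos (P : AcPar) (hP : P.Ok) (L : ℝ) (hL : 1 ≤ L) : 0 < P.mem L := by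
  have hk : 0 ≤ P.k0 := by unfold AcPar.k0; linarith [hP.d_le]
  exact lt_of_le_of_lt (div_nonneg hk (by linarith)) (ac_mem_gt P hP L L hL le_rfl)

/-! ### equality curvature -/

theorem ac_eq_L12 (K : AcEq) (hK : K.Ok) (hJ : 0 < K.J) (h : K.c ≤ 1 ∨ K.Lraw ≤ 2) : False := by
  have hP := hK.par
  have hc0 := hK.c_pos
  have hΓ := hP.Γ_pos
  have hVm : 0 < K.Vm := by linarith [hP.J_lt_Vm]
  have hk0 : 0 ≤ K.k0 := by unfold AcPar.k0; linarith [hP.d_le]
  have hL1 : 1 ≤ K.Lraw := le_max_left _ _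
  have hLc : K.Lraw ≤ 1 + K.c := by
    unfold AcEq.Lraw
    exact max_le (by linarith) (max_le (by linarith) (by linarith))
  have hthr0 : 0 ≤ K.thrQ := by
    unfold AcEq.thrQ
    split_ifs
    · exact div_nonneg hk0 (by linarith)
    · exact div_nonneg hk0 (by norm_num)
  have hlt : K.thrQ < K.mem K.Lraw := by
    unfold AcEq.thrQ
    split_ifs with hc1
    · exact ac_mem_gt K.toAcPar hP _ _ hL1 hLc
    · refine ac_mem_gt K.toAcPar hP _ _ hL1 ?_
      rcases h with h | h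
      · have : K.c = 1 := le_antisymm h (not_lt.1 hc1)
        rw [this] at hLc
        linarith
      · exact h
  set κ := min K.J (min (K.c / 2) K.Vm) with hκ
  have hκ0 : 0 < κ := lt_min hJ (lt_min (by linarith) hVm)
  have k1 : κ ≤ K.J := min_le_left _ _
  have k2 : κ ≤ K.c / 2 := (min_le_right _ _).trans (min_le_left _ _)
  have k3 : κ ≤ K.Vm := (min_le_right _ _).trans (min_le_right _ _)
  have hbox : ∀ t v, 0 < t → t ≤ 1 / 2 → 0 < v → v < κ * t → K.Box t v := by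
    intro t v h1 h2 h3 h4
    refine ⟨h1.le, by linarith, h3.le, ?_⟩
    nlinarith
  have hleft : ∀ t v, 0 < t → t ≤ 1 / 2 → 0 < v → v < κ * t → K.Left t v := by
    intro t v h1 h2 h3 h4
    refine ⟨h1, by linarith, h3, by nlinarith, by nlinarith, by nlinarith, fun _ => by nlinarith⟩
  let S : OgSeg :=
    { Γ := 2 * K.Γ, k := 1, k0 := 0, Lip := K.Lip, T := 1 / 2, E := K.EQ, m := fun _ _ => 1
      RegM := fun _ _ => False
      RegF := fun t v => 0 < t ∧ t ≤ 1 / 2 ∧ 0 < v ∧ v < κ * t }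
  have hS : S.Ok :=
    { Γ_nn := by show 0 ≤ 2 * K.Γ; linarith
      k_pos := one_pos
      Lip_nn := hP.Lip_nn
      sub := fun _ _ h => h.elim
      vert := by
        rintro t v t' ⟨h1, h2, h3, h4⟩ h5 h6
        exact ⟨by linarith, h6, h3, lt_of_lt_of_le h4 (mul_le_mul_of_nonneg_left h5 hκ0.le)⟩
      E_nn := by
        rintro t v ⟨h1, h2, h3, h4⟩
        exact hK.baseQ.nn t v (hbox t v h1 h2 h3 h4) (fun _ => by nlinarith)
      E_lip := by
        rintro t v t' v' ⟨h1, h2, h3, h4⟩ ⟨h5, h6, h7, h8⟩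
        exact hK.baseQ.lip t v t' v' (hbox t v h1 h2 h3 h4) (hbox t' v' h5 h6 h7 h8)
      m_mono := fun _ _ _ _ _ _ => le_rfl
      move := Eventually.of_forall fun _ h => h.elim
      freeze := by
        filter_upwards [hK.left_mem, hK.left_freeze] with p hp1 hp2
        rintro ⟨h1, h2, h3, h4⟩ _
        have hl := hleft p.1 p.2 h1 h2 h3 h4
        have hm := hp1 hl
        exact hp2 hl (by linarith) (by linarith) }
  refine og_sch_corner S hS (by show 0 < 2 * K.Γ; linarith) (by show (0 : ℝ) < 1 / 2; norm_num) κ hκ0 ?_ ?_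
  · intro t v h1 h2 h3 h4
    exact ⟨⟨h1, h2, h3, h4⟩, by show (0 : ℝ) < 1; norm_num⟩
  · intro ε hε
    have hLip := hP.Lip_nn
    have hden : 0 < K.Lip * (1 + κ) + 1 := by positivity
    refine ⟨min (1 / 2) (ε / (K.Lip * (1 + κ) + 1)), lt_min (by norm_num) (by positivity), ?_⟩
    intro t v h1 h2 h3 h4
    have t1 : t < 1 / 2 := lt_of_lt_of_le h2 (min_le_left _ _)
    have t2 : t < ε / (K.Lip * (1 + κ) + 1) := lt_of_lt_of_le h2 (min_le_right _ _)
    rw [lt_div_iff₀ hden] at t2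
    show K.EQ t v < ε
    have h5 := ac_corner_small K.toAcPar hP K.EQ _ hK.baseQ t v (hbox t v h1 t1.le h3 h4)
    have h6 : K.Lip * (t + v) ≤ K.Lip * ((1 + κ) * t) := mul_le_mul_of_nonneg_left (by nlinarith) hLip
    have h5' : K.EQ t v ≤ K.Lip * (t + v) := h5
    nlinarith

theorem ac_eq_L3 (K : AcEq) (hK : K.Ok) (hc : 1 < K.c) (hJ : (K.c + 1) / 4 ≤ K.J) : False := by
  have hP := hK.par
  have hL1 : 1 ≤ K.Lraw := le_max_left _ _
  have hmem := ac_mem_pos K.toAcPar hP K.Lraw hL1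
  have hVm := hP.J_lt_Vm
  refine ac_ray_false K.toAcPar hP K.EQ (fun _ _ => 0) _ ((K.c + 1) / 4) 0 0 ((K.c + 1) / 4) (1 / 2) hK.baseQ le_rfl
    (by linarith) le_rfl (by norm_num) (by norm_num) (by nlinarith) ?_ (fun _ _ _ _ _ _ _ _ => le_rfl) ?_ ?_
  · intro t v h1 h2 h3 h4 _
    nlinarith
  · filter_upwards [hK.left_mem, hK.left_move hc] with p hp1 hp2 h1 h2 h3 h4 _
    have hl : K.Left p.1 p.2 :=
      ⟨h1, by linarith, by linarith, by nlinarith, by nlinarith, by nlinarith, fun _ => by nlinarith⟩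
    exact hp2 hl (lt_of_lt_of_le hmem (hp1 hl))
  · exact Eventually.of_forall fun p _ _ _ _ h => absurd h (lt_irrefl _)

theorem ac_eq_L45 (K : AcEq) (hK : K.Ok) (hh : ¬ K.hyb) (hC : 0 < K.C1) (t0 t1 : ℝ) (h0 : 0 < t0)
    (h01 : t0 < t1) (h1 : t1 < 1) (hS : K.Strong t0 t1) (hc : K.c ≤ 3) : False := by
  obtain ⟨wd, hwd, hfr⟩ := hS.freeze
  obtain ⟨tj, htj0, htj1, hslab⟩ := ac_pick t0 t1 h01 _ hS.slab
  have hslab' := hslab htj0 htj1
  have hP := hK.par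
  have hk0 : 0 ≤ K.k0 := by unfold AcPar.k0; linarith [hP.d_le]
  have hc0 := hK.c_pos
  have hthr0 : 0 ≤ K.thrQ := by
    unfold AcEq.thrQ
    split_ifs
    · exact div_nonneg hk0 (by linarith)
    · exact div_nonneg hk0 (by norm_num)
  have hlt : K.thrQ < K.mem K.LS := by
    unfold AcEq.thrQ AcEq.LS
    split_ifs with hc1
    · exact ac_mem_gt K.toAcPar hP _ _ (le_max_left _ _) (max_le (by linarith) (by linarith))
    · exact ac_mem_gt K.toAcPar hP _ _ (le_max_left _ _) (max_le (by norm_num) (by linarith))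
  have hJ := hP.J_nn
  refine ac_slab_false K.toAcPar hP K.EQ K.mQ (fun _ => K.thrQ) _
    (fun t v => t0 < t ∧ t < t1 ∧ |v - K.J * t| < wd ∧ 0 < v) tj (K.mem K.LS) ((K.mem K.LS - K.thrQ) / 2)
    (min (t1 - tj) (wd / (2 * (K.J + 1)))) hK.baseQ (fun _ _ h => absurd h hh) (by linarith) (by linarith)
    (lt_min (by linarith) (by positivity)) (hK.seamQ hh hC tj (by linarith) (by linarith)) hslab' (by linarith) (by linarith)
    ?_ ?_ ?_
  · intro t v a1 a2 a3 a4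
    have e1 : min (t1 - tj) (wd / (2 * (K.J + 1))) ≤ t1 - tj := min_le_left _ _
    have e2 : min (t1 - tj) (wd / (2 * (K.J + 1))) ≤ wd / (2 * (K.J + 1)) := min_le_right _ _
    have e3 : wd / (2 * (K.J + 1)) * (2 * (K.J + 1)) = wd := by field_simp
    have e4 : 0 < wd / (2 * (K.J + 1)) := by positivity
    refine ⟨by linarith, by linarith, ?_, ?_⟩
    · rw [abs_lt]
      constructor
      · nlinarith
      · nlinarith
    · have : 0 ≤ K.J * tj := mul_nonneg hJ (by linarith)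
      linarith
  · filter_upwards [hfr] with p hp hr h6 h7
    exact hp hr.1 hr.2.1 hr.2.2.1 hr.2.2.2 h6 h7
  · intro η hη
    filter_upwards [self_mem_nhdsWithin] with τ hτ
    have hτ' : (0 : ℝ) < τ := hτ
    refine ⟨∅, MeasurableSet.empty, by simp; positivity, fun t _ _ => by linarith⟩

theorem ac_eq_L6 (K : AcEq) (hK : K.Ok) (t0 t1 : ℝ) (hS : K.Strong t0 t1) (hc : 3 < K.c)
    (hJ : K.J < (K.c + 1) / 4) : False := by
  obtain ⟨D, hF, hΓ, hDJ, hkp, hkmin, hkmax⟩ := hS.og hc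
  refine og_main D (D.ok_of_facts hF ?_ ?_ ?_ ?_ ?_ ?_ ?_)
  · rw [hΓ]; exact hK.par.Γ_pos
  · rw [hDJ]; exact hK.par.J_nn
  · rw [hkmin]; linarith
  · rw [hkmin, hkmax]; linarith
  · rw [hDJ, hkmin]; linarith
  · rw [hkp]; linarith
  · rw [hDJ, hkp]; exact hJ

theorem ac_eq_L7 (K : AcEq) (hK : K.Ok) (hh : ¬ K.hyb) (t0 t1 : ℝ) (h0 : 0 < t0) (h01 : t0 < t1)
    (h1 : t1 < 1) (hW : K.Weak t0 t1) (hc : K.c < 1) (hJ : K.J = 0) : False := by
  have hP := hK.par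
  have hc0 := hK.c_pos
  have hC1 : K.C1 = K.c := by unfold AcEq.C1; rw [hJ]; ring
  have hC : 0 < K.C1 := by rw [hC1]; exact hc0
  have hC' : K.C1 < 1 := by rw [hC1]; exact hc
  obtain ⟨wd, hwd, hfr⟩ := hW.freeze hC'
  obtain ⟨tj, htj0, htj1, hslab, hleb⟩ := ac_pick t0 t1 h01 _
    ((hW.slab hc.le hC').and (ac_lebesgue K.ν hW.ν_meas hW.ν_bd))
  have hslab' := hslab htj0 htj1
  have hk0 : 0 ≤ K.k0 := by unfold AcPar.k0; linarith [hP.d_le]
  have hΓ := hP.Γ_pos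
  have hL : K.Lraw = 1 + K.c := by
    unfold AcEq.Lraw
    rw [hJ, sub_zero, max_eq_right (by linarith : (1 + K.c) / 2 ≤ 1 + K.c), max_eq_right (by linarith)]
  have hmem : K.Γ < K.mem K.Lraw := by
    rw [hL]
    unfold AcPar.mem
    rw [lt_div_iff₀ (by linarith)]
    nlinarith [mul_pos hP.η_pos hc0]
  refine ac_slab_false K.toAcPar hP K.EC K.mC (fun t => K.k0 - K.C1 * K.ν t) _
    (fun t v => t0 < t ∧ t < t1 ∧ K.J * t < v ∧ v < K.J * t + wd) tj
    (max (K.mem K.Lraw) (K.k0 + 2 * K.Γ - K.C1 * K.ν tj)) K.Γ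
    (min (t1 - tj) wd) (hK.baseC hh hC) (fun _ _ => trivial) (by linarith) (by linarith)
    (lt_min (by linarith) hwd) (hK.seamC hh hC tj (by linarith) (by linarith)) hslab' hΓ
    (lt_of_lt_of_le hmem (le_max_left _ _)) ?_ ?_ ?_
  · intro t v a1 a2 a3 a4
    have e1 : min (t1 - tj) wd ≤ t1 - tj := min_le_left _ _
    have e2 : min (t1 - tj) wd ≤ wd := min_le_right _ _
    have hJ' : K.toAcPar.J = 0 := hJ
    rw [hJ'] at a3 a4
    rw [hJ]
    refine ⟨by linarith, by linarith, by linarith, by linarith⟩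
  · filter_upwards [hfr] with p hp hr h6 h7
    exact hp hr.1 hr.2.1 hr.2.2.1 hr.2.2.2 h6 h7
  · exact ac_thr_leb K.ν hW.ν_meas K.k0 K.C1 K.Γ _ tj hC hΓ (le_max_right _ _) hleb

theorem ac_eq_L8 (K : AcEq) (hK : K.Ok) (t0 t1 : ℝ) (hW : K.Weak t0 t1) (hC : 1 ≤ K.C1)
    (hc : 1 ≤ K.c) (hJ : K.J < (K.c + 1) / 4) : False := by
  obtain ⟨D, hF, hΓ, hDJ, hkp, hkmin, hkmax⟩ := hW.og hC
  have hC1 : K.C1 = K.c - K.J := rfl
  refine og_main D (D.ok_of_facts hF ?_ ?_ ?_ ?_ ?_ ?_ ?_)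
  · rw [hΓ]; exact hK.par.Γ_pos
  · rw [hDJ]; exact hK.par.J_nn
  · rw [hkmin]; exact hC
  · rw [hkmin, hkmax]; linarith
  · rw [hDJ, hkmin, hC1]; linarith
  · rw [hkp]; linarith
  · rw [hDJ, hkp, hC1]; linarith [hK.par.J_nn]

theorem ac_eq_false (K : AcEq) (hK : K.Ok) : False := by
  have hJ0 := hK.par.J_nn
  have hc0 := hK.c_pos
  by_cases hh : K.hyb
  · have hJ := hK.pl hh
    rcases le_or_gt K.c 1 with hc | hc
    · exact ac_eq_L12 K hK (by rw [hJ]; linarith) (Or.inl hc)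
    · exact ac_eq_L3 K hK hc (by rw [hJ]; linarith)
  -- classical
  by_cases hA : 0 < K.J ∧ (K.c ≤ 1 ∨ K.Lraw ≤ 2)
  · exact ac_eq_L12 K hK hA.1 hA.2
  by_cases hB : 1 < K.c ∧ (K.c + 1) / 4 ≤ K.J
  · exact ac_eq_L3 K hK hB.1 hB.2
  -- the remaining range
  have hC1def : K.C1 = K.c - K.J := rfl
  have hrem : K.J = 0 ∨ (1 < K.c ∧ 0 < K.J ∧ K.J < (K.c + 1) / 4 ∧ 1 < K.C1) := by
    rcases hJ0.eq_or_lt with h | h
    · exact Or.inl h.symm
    · right
      have h1 : 1 < K.c := by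
        by_contra hcon
        exact hA ⟨h, Or.inl (not_lt.1 hcon)⟩
      have h2 : K.J < (K.c + 1) / 4 := by
        by_contra hcon
        exact hB ⟨h1, not_lt.1 hcon⟩
      refine ⟨h1, h, h2, ?_⟩
      by_contra hcon
      have h3 : K.c - K.J ≤ 1 := not_lt.1 hcon
      refine hA ⟨h, Or.inr ?_⟩
      unfold AcEq.Lraw
      refine max_le (by norm_num) (max_le ?_ ?_) <;> linarith
  have hC : 0 < K.C1 := by
    rcases hrem with h | h
    · rw [hC1def, h]; linarith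
    · linarith [h.2.2.2]
  have hc1J : K.c = 1 → K.J = 0 := by
    intro h
    rcases hrem with h' | h'
    · exact h'
    · exact absurd h (ne_of_gt h'.1)
  have hJlt : K.J < (K.c + 1) / 4 := by
    rcases hrem with h | h
    · rw [h]; linarith
    · exact h.2.2.1
  rcases ac_dich K.pst K.C1 hC.le (hK.pst_anti hh hC) (hK.pst_ge hh hC) with
    ⟨t0, t1, σ, h0, h01, h1, hσ, hs⟩ | hw
  · have hS := hK.strong hh hC hc1J t0 t1 σ h0 h01 h1 hσ hs
    rcases le_or_gt K.c 3 with hc | hc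
    · exact ac_eq_L45 K hK hh hC t0 t1 h0 h01 h1 hS hc
    · exact ac_eq_L6 K hK t0 t1 hS hc hJlt
  · have hW := hK.weak hh hC (1 / 4) (3 / 4) (by norm_num) (by norm_num) (by norm_num)
      (fun t h0 h1 => hw t (by linarith) (by linarith))
    rcases lt_or_ge K.c 1 with hc | hc
    · have hJz : K.J = 0 := by
        rcases hrem with h | h
        · exact h
        · linarith [h.1]
      exact ac_eq_L7 K hK hh (1 / 4) (3 / 4) (by norm_num) (by norm_num) (by norm_num) hW hc hJz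
    · have hC1 : 1 ≤ K.C1 := by
        rcases hrem with h | h
        · rw [hC1def, h]; linarith
        · exact h.2.2.2.le
      exact ac_eq_L8 K hK (1 / 4) (3 / 4) hW hC1 hc hJlt

/-! ### pure linear cost -/

open Classical in
/-- the speed of the ray: `c` for `c < 1`, `(1+c)/2` for `c ≥ 1` -/
noncomputable def AcLin.kst (K : AcLin) : ℝ := if K.c < 1 then K.c else (1 + K.c) / 2

theorem ac_lin_L9 (K : AcLin) (hK : K.Ok) (hh : ¬ K.hyb) (hc : K.c < 1) : False := by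
  have hP := hK.par
  have hc0 := hK.c_pos
  obtain ⟨tj, htj0, htj1, hslab, hleb⟩ := ac_pick (1 / 4) (3 / 4) (by norm_num) _
    ((hK.slab hh hc).and (ac_lebesgue K.ν hK.ν_meas hK.ν_bd))
  have hslab' := hslab (by linarith) (by linarith)
  have hk0 : 0 ≤ K.k0 := by unfold AcPar.k0; linarith [hP.d_le]
  have hΓ := hP.Γ_pos
  have hJ := hP.J_nn
  have hmem : K.Γ < K.mem (1 + K.c) := by
    unfold AcPar.mem
    rw [lt_div_iff₀ (by linarith)]
    nlinarith [mul_pos hP.η_pos hc0]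
  have hujV : K.J * tj < K.Vm := by
    have : K.J * tj ≤ K.J := by nlinarith
    linarith [hP.J_lt_Vm]
  refine ac_slab_false K.toAcPar hP K.EL K.mL (fun t => K.k0 - K.c * K.ν t) _
    (fun t v => K.Reg t v) tj
    (max (K.mem (1 + K.c)) (K.k0 + 2 * K.Γ - K.c * K.ν tj)) K.Γ
    (min (1 - tj) (K.Vm - K.J * tj)) hK.base (fun _ _ h => absurd h hh) (by linarith) (by linarith)
    (lt_min (by linarith) (by linarith)) (hK.seam hh tj (by linarith) (by linarith)) hslab' hΓ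
    (lt_of_lt_of_le hmem (le_max_left _ _)) ?_ ?_ ?_
  · intro t v a1 a2 a3 a4
    have e1 : min (1 - tj) (K.Vm - K.J * tj) ≤ 1 - tj := min_le_left _ _
    have e2 : min (1 - tj) (K.Vm - K.J * tj) ≤ K.Vm - K.J * tj := min_le_right _ _
    have e3 : 0 ≤ K.J * tj := mul_nonneg hJ (by linarith)
    exact ⟨by linarith, by linarith, by linarith, by linarith, fun h => absurd h hh⟩
  · filter_upwards [hK.freeze_low hh hc] with p hp hr h6 h7
    exact hp hr h6 h7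
  · exact ac_thr_leb K.ν hK.ν_meas K.k0 K.c K.Γ _ tj hc0 hΓ (le_max_right _ _) hleb

/-- L10, L11, L12 -/
theorem ac_lin_ray (K : AcLin) (hK : K.Ok) (hJ : K.kst ≤ K.J) : False := by
  have hP := hK.par
  have hc0 := hK.c_pos
  have hVm := hP.J_lt_Vm
  have hk0 : 0 ≤ K.k0 := by unfold AcPar.k0; linarith [hP.d_le]
  have hkst0 : 0 < K.kst := by unfold AcLin.kst; split_ifs <;> linarith
  have hkstc : K.kst ≤ K.c := by unfold AcLin.kst; split_ifs <;> linarith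
  have hmem : K.k0 / (1 + K.c) < K.mem (1 + K.c) := ac_mem_gt K.toAcPar hP _ _ (by linarith) le_rfl
  have hq0 : 0 ≤ K.k0 / (1 + K.c) := div_nonneg hk0 (by linarith)
  have hreg : ∀ t v, 0 < t → t ≤ 1 / 2 → 0 < v → v < K.kst * t → K.Reg t v := by
    intro t v h1 h2 h3 h4
    exact ⟨h1, by linarith, h3, by nlinarith, fun _ => by nlinarith⟩
  refine ac_ray_false K.toAcPar hP K.EL K.mL _ K.kst K.k0 0 K.kst (1 / 2) hK.base le_rfl hkst0 le_rfl (by norm_num)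
    (by norm_num) (by nlinarith) ?_ ?_ ?_ ?_
  · intro t v h1 h2 h3 h4 _
    nlinarith
  · intro t v t' h1 h3 h4 h5 h6
    exact hK.m_mono t v t' (hreg t v h1 (by linarith) h3 h4) h5 (by linarith)
  · by_cases hc : K.c < 1
    · have hk : K.kst = K.c := by unfold AcLin.kst; rw [if_pos hc]
      filter_upwards [hK.left_mem, hK.move_lo hc] with p hp1 hp2 h1 h2 h3 h4 h5
      have h3' : 0 < p.2 := by linarith
      have hr := hreg p.1 p.2 h1 h2 h3' h4
      have hm := hp1 hr (by nlinarith)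
      rw [hk]
      exact hp2 hr (by linarith) (by linarith) h5
    · have hk : K.kst = (1 + K.c) / 2 := by unfold AcLin.kst; rw [if_neg hc]
      filter_upwards [hK.left_mem, hK.move_hi (not_lt.1 hc)] with p hp1 hp2 h1 h2 h3 h4 h5
      have h3' : 0 < p.2 := by linarith
      have hr := hreg p.1 p.2 h1 h2 h3' h4
      have hm := hp1 hr (by nlinarith)
      rw [hk]
      exact hp2 hr (by linarith) h5
  · filter_upwards [hK.freeze] with p hp h1 h2 h3 h4 h5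
    exact hp (hreg p.1 p.2 h1 h2 h3 h4) (by linarith) h5.le

theorem ac_lin_L13 (K : AcLin) (hK : K.Ok) (hh : ¬ K.hyb) (hc : 1 ≤ K.c)
    (hJ : K.J < (1 + K.c) / 2) : False := by
  obtain ⟨D, hF, hΓ, hDJ, hkp, hkmin, hkmax⟩ := hK.og hh hc hJ
  refine og_main D (D.ok_of_facts hF ?_ ?_ ?_ ?_ ?_ ?_ ?_)
  · rw [hΓ]; exact hK.par.Γ_pos
  · rw [hDJ]; exact hK.par.J_nn
  · rw [hkmin]; exact hc
  · rw [hkmin, hkmax]; linarith
  · rw [hDJ, hkmin]; linarith
  · rw [hkp]; linarith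
  · rw [hDJ, hkp]; exact hJ

theorem ac_lin_false (K : AcLin) (hK : K.Ok) : False := by
  have hc0 := hK.c_pos
  by_cases hh : K.hyb
  · refine ac_lin_ray K hK ?_
    rw [hK.pl hh]
    unfold AcLin.kst
    split_ifs <;> linarith
  rcases lt_or_ge K.c 1 with hc | hc
  · exact ac_lin_L9 K hK hh hc
  rcases lt_or_ge K.J ((1 + K.c) / 2) with hJ | hJ
  · exact ac_lin_L13 K hK hh hc hJ
  · refine ac_lin_ray K hK ?_
    unfold AcLin.kst
    rw [if_neg (not_lt.2 hc)]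
    exact hJ

/-! ### strict curvature -/

/-- L14, L15 -/
theorem ac_str_L1415 (K : AcStr) (hK : K.Ok)
    (h : K.C1 ≤ 0 ∨ (0 < K.C1 ∧ K.C1 / (1 + 2 * K.C1) ≤ K.d)) : False := by
  have hP := hK.par
  have hΓ := hP.Γ_pos
  have hVm : 0 ≤ K.Vm := by linarith [hP.J_lt_Vm, hP.J_nn]
  have hL1 : 1 ≤ K.Lraw := by unfold AcStr.Lraw; linarith [le_max_left 0 K.C1]
  have hmem0 := ac_mem_pos K.toAcPar hP K.Lraw hL1
  have hmem : 1 - 2 * K.d ≤ K.mem K.Lraw := by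
    unfold AcPar.mem AcPar.k0
    rw [le_div_iff₀ (by linarith)]
    rcases h with h | ⟨h1, h2⟩
    · have : K.Lraw = 1 := by unfold AcStr.Lraw; rw [max_eq_left h]; ring
      rw [this]
      linarith [hP.d_pos]
    · have : K.Lraw = 1 + K.C1 := by unfold AcStr.Lraw; rw [max_eq_right h1.le]
      rw [this]
      rw [div_le_iff₀ (by linarith)] at h2
      nlinarith [mul_pos hP.η_pos h1]
  have hbox : ∀ x ∈ Set.Icc (0 : ℝ) 1, K.Box x 0 := fun x hx => ⟨hx.1, hx.2, le_rfl, hVm⟩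
  refine og_sch_bdry (fun s => K.EA s 0) 0 1 K.Lip (2 * K.Γ) one_pos (by linarith) hP.Lip_nn ?_ hK.baseA.corner ?_ ?_
  · intro x hx y hy
    have := hK.baseA.lip x 0 y 0 (hbox x hx) (hbox y hy)
    simpa using this
  · exact hK.baseA.nn 1 0 (hbox 1 ⟨by norm_num, le_rfl⟩) (fun _ => by norm_num)
  · filter_upwards [hK.bdry hmem0 hmem] with x hx hxI
    exact hx hxI.1 hxI.2

theorem ac_str_L16 (K : AcStr) (hK : K.Ok) (hC : 0 < K.C1) (hC2 : K.C1 ≤ 1 / 2)
    (hd : K.d < K.C1 / (1 + 2 * K.C1)) : False := by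
  have hP := hK.par
  have hVm : 0 < K.Vm := by linarith [hP.J_lt_Vm, hP.J_nn]
  have hd4 : K.d ≤ 1 / 4 := by
    rw [lt_div_iff₀ (by linarith)] at hd
    nlinarith [hP.d_pos]
  have hT0 : 0 < min (1 / 2) K.Vm := lt_min (by norm_num) hVm
  have hT1 : min (1 / 2) K.Vm ≤ 1 / 2 := min_le_left _ _
  have hT2 : min (1 / 2) K.Vm ≤ K.Vm := min_le_right _ _
  refine ac_ray_false K.toAcPar hP K.EA (fun _ _ => 0) _ (1 / 2) 0 0 (1 / 2) (min (1 / 2) K.Vm) hK.baseA le_rfl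
    (by norm_num) le_rfl hT0 (by linarith) (by linarith) ?_ (fun _ _ _ _ _ _ _ _ => le_rfl) ?_ ?_
  · intro t v h1 h2 h3 h4 _
    linarith
  · filter_upwards [hK.move_half hC hd4] with p hp h1 h2 h3 h4 _
    exact hp h1 (by linarith) (by linarith) (by linarith) (by nlinarith) (by linarith)
  · exact Eventually.of_forall fun p _ _ _ _ h => absurd h (lt_irrefl _)

theorem ac_str_L17 (K : AcStr) (hK : K.Ok) (hh : ¬ K.hyb) (hC : 0 < K.C1) (t0 t1 σ : ℝ) (h0 : 0 < t0)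
    (h01 : t0 < t1) (h1 : t1 < 1) (hσ : 0 < σ)
    (hs : ∀ t, t0 < t → t < t1 → -(K.C1 * t) + σ ≤ K.pst t) : False := by
  have hd := hK.par.d_le
  have hd0 := hK.par.d_pos
  have hΓ := hK.par.Γ_pos
  have hk : K.k0 = 1 - K.d := rfl
  obtain ⟨φ, tD, ρ, M, hρ, hM, hL, hφ0, hφ1, hdini⟩ :=
    hK.strong hh hC t0 t1 σ h0 h01 h1 hσ hs (by rw [hk]; linarith) (by rw [hk]; linarith)
  exact og_sch_bdry φ tD (tD + ρ) M (2 * K.Γ) (by linarith) (by linarith) hM hL hφ0 hφ1 hdini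

theorem ac_str_L18 (K : AcStr) (hK : K.Ok) (hh : ¬ K.hyb) (hC : 1 / 2 < K.C1)
    (hw : ∀ t, 0 < t → t < 1 → K.pst t = -(K.C1 * t)) (hd : K.d < K.C1 / (1 + 2 * K.C1)) :
    False := by
  have hP := hK.par
  have hVm : 0 < K.Vm := by linarith [hP.J_lt_Vm, hP.J_nn]
  have hC0 : 0 < K.C1 := by linarith
  have hC1 : K.C1 < 1 := by unfold AcStr.C1; linarith [hK.q_lt, hP.J_nn]
  have hd2 : 2 * K.d ≤ K.C1 := by
    rw [lt_div_iff₀ (by linarith)] at hd
    nlinarith [hP.d_pos]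
  have hT0 : 0 < min (1 / 2) (K.Vm / 4) := lt_min (by norm_num) (by linarith)
  have hT1 : min (1 / 2) (K.Vm / 4) ≤ 1 / 2 := min_le_left _ _
  have hT2 : min (1 / 2) (K.Vm / 4) ≤ K.Vm / 4 := min_le_right _ _
  refine ac_ray_false K.toAcPar hP K.EK (fun _ _ => 0) _ 1 0 (1 - K.C1) 2 (min (1 / 2) (K.Vm / 4)) (hK.baseK hh hC0)
    (by linarith) (by linarith) (by norm_num) hT0 (by linarith) (by linarith) (fun _ _ _ _ _ _ => trivial)
    (fun _ _ _ _ _ _ _ _ => le_rfl) ?_ ?_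
  · filter_upwards [hK.move_one hh hC0 hw hd2 hC1] with p hp h1 h2 h3 h4 _
    exact hp h1 (by linarith) h3 (by linarith)
  · exact Eventually.of_forall fun p _ _ _ _ h => absurd h (lt_irrefl _)

theorem ac_str_false (K : AcStr) (hK : K.Ok) : False := by
  have hC1def : K.C1 = K.q - K.J := rfl
  by_cases hA : K.C1 ≤ 0 ∨ (0 < K.C1 ∧ K.C1 / (1 + 2 * K.C1) ≤ K.d)
  · exact ac_str_L1415 K hK hA
  have hC : 0 < K.C1 := by
    by_contra hcon
    exact hA (Or.inl (not_lt.1 hcon))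
  have hd : K.d < K.C1 / (1 + 2 * K.C1) := by
    by_contra hcon
    exact hA (Or.inr ⟨hC, not_lt.1 hcon⟩)
  rcases le_or_gt K.C1 (1 / 2) with hC2 | hC2
  · exact ac_str_L16 K hK hC hC2 hd
  have hh : ¬ K.hyb := by
    intro hh
    have := hK.pl hh
    have := hK.q_lt
    rw [hC1def] at hC2
    linarith
  rcases ac_dich K.pst K.C1 hC.le (hK.pst_anti hh hC) (hK.pst_ge hh hC) with
    ⟨t0, t1, σ, h0, h01, h1, hσ, hs⟩ | hw
  · exact ac_str_L17 K hK hh hC t0 t1 σ h0 h01 h1 hσ hs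
  · exact ac_str_L18 K hK hh hC2 hw hd

/-! ### EXIT of the exhaustion -/

/-- a positive-cost affine extremal configuration, as seen by Sec. 6.5 -/
def AcSupply (η Γ : ℝ) (hyb : Prop) : Prop :=
  (∃ K : AcEq, K.Ok ∧ K.η = η ∧ K.Γ = Γ ∧ (K.hyb ↔ hyb)) ∨
  (∃ K : AcLin, K.Ok ∧ K.η = η ∧ K.Γ = Γ ∧ (K.hyb ↔ hyb)) ∨
  (∃ K : AcStr, K.Ok ∧ K.η = η ∧ K.Γ = Γ ∧ (K.hyb ↔ hyb))

/-- **Every affine positive-cost configuration is excluded.** -/
theorem ac_no_supply (η Γ : ℝ) (hyb : Prop) : ¬ AcSupply η Γ hyb := by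
  rintro (⟨K, hK, -⟩ | ⟨K, hK, -⟩ | ⟨K, hK, -⟩)
  · exact ac_eq_false K hK
  · exact ac_lin_false K hK
  · exact ac_str_false K hK

theorem ac_exh_eqns_cite : True := by
  have := @AcLin.kst.eq_1
  have := @AcSupply.eq_1
  trivial

end Claimed.Agent.R256
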