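import Claimed.Agent.R255.Ent.Basic

/-!
# Row 256, section Act, unit FS (Lemma act:finite-step, 06 l.681-846), file 1: THE FINITE LAW CORE = (sh)      (architect helper277)      PAPER FREE: R255/Ent only

ONE finite law `P`.   `A` = the condition `(C, S_k)`, `Y` = the exact particle `y_0`, `O` = the output name, `θ` = the normalised child time (known to `(O, A)`), `(Vn, Vd)` = the normalised normal pair (a function of `(Y, A)`),
`Tz z` = the time cell of `θ` at the `δ`-depth `c + 1 - z`,  `Kg` = the grid `𝒦 ⊆ [c, c+1]`,  `nx z` = the next grid point,  `Dz z` = the exponent `D(z | k)` of the `V`-balls of radius `2 B δ^z`.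
`FsCore` = the hypotheses;   **`fs_core`** : `H(O | A) ≥ [(1-ε)(d-ε) + (1-λ)(m - dμ - 3ε)] log(1/δ)` for every `m ≤ min_z (Dz z + d (c+1-z))`,  `λ = 2|𝒦|ε + 5|𝒦|δ^ε`.
PROOF (06 l.786-822):  `H(O|A) = H(O|Y,A) + I(O;Y|A)`.
 * `fs_time_part` : `Tz c` (depth `1`) is a function of `(O,A)`, so `H(O|Y,A) ≥ H(Tz c|Y,A) = E[score] ≥ (1-ε)(d-ε) L`.
 * `fs_kl` : `I(O;Y|A) ≥ E[- log q]`, `q = fsQ` = the reference mass (law of `Y` given `A`) of the values of `Y` admissible for `(O,A)`   (Gibbs).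
 * `fs_geo` (real arithmetic) : an admissible reference lies in the ball `2 B δ^z` for a grid point `z`, and if `z < c+1` it confines `θ` to an interval of radius `δ^(c+1-nx z)`.
 * `fs_time_int` : the trimmed time law gives an interval covered by `N` cells the mass `≤ N κ`.
 * `fs_avg` : `E[1_Typ q] ≤ 5 |𝒦| δ^(m - dμ - 2ε)`   (given the actual `(Y,A)`: ball bound for the reference, then, for each reference, the interval bound).
 * `fs_markov_log` : Markov + `q ≤ 1`.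
`fs_ball` : the ball hypothesis from a ONE SIDED score of the cells (neighbouring-bin likelihood bound).      `fs_fixpt` : the largest minimiser is nondecreasing, fixed point.
-/

set_option autoImplicit false

namespace Claimed.Agent.R256

open Claimed.Agent.R255 Claimed.Agent.R255.FLaw
open Finset
open scoped BigOperators
open Classical

section core

variable {Ω α β ο : Type} [Fintype Ω] (P : FLaw Ω)

/-- the reference mass, given `A`, of the values of `Y` which are admissible for `(O, A)` at the sample `ω` -/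
noncomputable def fsQ (A : Ω → α) (Y : Ω → β) (O : Ω → ο) (ω : Ω) : ℝ :=
  P.pr (fun ω' => A ω' = A ω ∧ ∃ ω'', P.p ω'' ≠ 0 ∧ Y ω'' = Y ω' ∧ O ω'' = O ω ∧ A ω'' = A ω) / P.fib A ω

/-- the mass of the `V`-ball of radius `r` about the sample, inside the fibre of `A` -/
noncomputable def fsBall (A : Ω → α) (Vn Vd : Ω → ℝ) (r : ℝ) (ω : Ω) : ℝ :=
  P.pr (fun ω' => A ω' = A ω ∧ |Vn ω' - Vn ω| ≤ r ∧ |Vd ω' - Vd ω| ≤ r)

/-- the hypotheses of the core -/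
structure FsCore (A : Ω → α) (Y : Ω → β) (O : Ω → ο) (θ Vn Vd : Ω → ℝ) (Tz : ℝ → Ω → ℤ) (δ B c d μ ε : ℝ)
    (Kg : Finset ℝ) (nx Dz : ℝ → ℝ) : Prop where
  δ0 : 0 < δ
  δ1 : δ < 1
  B0 : 0 < B
  d0 : 0 ≤ d
  μ0 : 0 ≤ μ
  ε0 : 0 < ε
  ε1 : ε ≤ 1
  g_mem : ∀ z ∈ Kg, c ≤ z ∧ z ≤ c + 1
  g_bot : c ∈ Kg
  g_top : c + 1 ∈ Kg
  g_nx : ∀ z ∈ Kg, z < c + 1 → nx z ∈ Kg ∧ z < nx z ∧ nx z ≤ z + μ
  θ_bd : ∀ ω, P.p ω ≠ 0 → |θ ω| ≤ 1
  θ_fun : ∀ ω ω', P.p ω ≠ 0 → P.p ω' ≠ 0 → O ω = O ω' → A ω = A ω' → θ ω = θ ω'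
  T_fun : ∀ ω ω', P.p ω ≠ 0 → P.p ω' ≠ 0 → O ω = O ω' → A ω = A ω' → Tz c ω = Tz c ω'
  V_fun : ∀ ω ω', P.p ω ≠ 0 → P.p ω' ≠ 0 → Y ω = Y ω' → A ω = A ω' → Vn ω = Vn ω' ∧ Vd ω = Vd ω'
  /-- (act:step-geometry), first line -/
  g1n : ∀ ω ω', P.p ω ≠ 0 → P.p ω' ≠ 0 → O ω = O ω' → A ω = A ω' → |Vn ω' - Vn ω| ≤ B * δ ^ c
  g1d : ∀ ω ω', P.p ω ≠ 0 → P.p ω' ≠ 0 → O ω = O ω' → A ω = A ω' →
    |(Vd ω' - Vd ω) + θ ω * (Vn ω' - Vn ω)| ≤ B * δ ^ (c + 1)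
  /-- an interval of radius `δ^(c+1-z)` meets at most five cells of that depth -/
  cov : ∀ z ∈ Kg, ∀ (x : ℝ) (ω0 : Ω), ∃ S : Finset ℤ, S.card ≤ 5 ∧
    ∀ ω, P.p ω ≠ 0 → A ω = A ω0 → |θ ω - x| ≤ δ ^ (c + 1 - z) → Tz z ω ∈ S
  /-- typical time scores given `(Y, A)` -/
  time : ∀ z ∈ Kg, P.pr (fun ω => P.surC (Tz z) (pair Y A) ω < (d * (c + 1 - z) - ε) * lg δ) ≤ ε
  /-- typical ball masses -/
  ball : ∀ z ∈ Kg, P.pr (fun ω => δ ^ (Dz z - ε) * P.fib A ω < fsBall P A Vn Vd (2 * B * δ ^ z) ω) ≤ ε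

/-- the typical samples -/
def FsTyp (A : Ω → α) (Y : Ω → β) (Vn Vd : Ω → ℝ) (Tz : ℝ → Ω → ℤ) (δ B c d ε : ℝ) (Kg : Finset ℝ) (Dz : ℝ → ℝ)
    (ω : Ω) : Prop :=
  ∀ z ∈ Kg, (d * (c + 1 - z) - ε) * lg δ ≤ P.surC (Tz z) (pair Y A) ω ∧
    fsBall P A Vn Vd (2 * B * δ ^ z) ω ≤ δ ^ (Dz z - ε) * P.fib A ω

theorem fs_eqns_cite : True := by
  have := @fsQ.eq_1
  have := @fsBall.eq_1
  have := @FsTyp.eq_1
  trivial

/-- LEAF L-256-FS-KL.   EST 250 lines.   **The information of a posterior supported on a reference set of mass `q` is at least `log (1/q)`.**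
PLAN.  `I(O;Y|A) = H(Y|A) - H(Y|O,A)` (`ent_miC_comm`, `ent_miC_eq`).   Gibbs (`ent_gibbs`) for the observation `(Y,(O,A))` and the weights `r(y,o,a) = p(o,a) p(y,a) 1[(y,o,a) charged] / (p(a) q(o,a))`, whose sum is `≤ 1`:
`H(Y,O,A) ≤ E[- log r] = H(O,A) + H(Y|A) + E[log q]`.   On charged `ω`: `0 < fsQ ≤ 1`. -/
theorem fs_kl (A : Ω → α) (Y : Ω → β) (O : Ω → ο) :
    P.ev (fun ω => - Real.log (fsQ P A Y O ω)) ≤ P.miC O Y A := by
  have key : P.entC Y (pair O A) ≤ P.ev (fun ω => P.surC Y A ω + Real.log (fsQ P A Y O ω)) := by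
    rw [ent_entC_eq_avg, ent_ev_tower P (pair O A) (fun ω => P.surC Y A ω + Real.log (fsQ P A Y O ω))]
    refine ent_ev_mono P fun ω₀ hω₀ => ?_
    have hpos : 0 < P.fib (pair O A) ω₀ := ent_fib_pos P _ hω₀
    obtain ⟨N₀, hN₀⟩ : ∃ N₀ : ℝ, N₀ = P.pr (fun ω' => A ω' = A ω₀ ∧ ∃ ω'', P.p ω'' ≠ 0 ∧ Y ω'' = Y ω' ∧ O ω'' = O ω₀ ∧ A ω'' = A ω₀) := ⟨_, rfl⟩
    have hN₀pos : 0 < N₀ := by
      rw [hN₀, ent_pr_pos_iff]
      exact ⟨ω₀, ⟨rfl, ω₀, hω₀, rfl, rfl, rfl⟩, hω₀⟩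
    have hg := ent_gibbs (P.cfib (pair O A) ω₀) Y
      (fun y => (if (∃ ω'', P.p ω'' ≠ 0 ∧ Y ω'' = y ∧ O ω'' = O ω₀ ∧ A ω'' = A ω₀) then P.pr (fun ω' => Y ω' = y ∧ A ω' = A ω₀) else 0) / N₀)
      (fun y => by
        apply div_nonneg _ hN₀pos.le
        split_ifs
        · exact ent_pr_nonneg P _
        · exact le_rfl)
      (fun S => by
        rw [← Finset.sum_div, div_le_one hN₀pos]
        have e1 : ∀ y ∈ S, (if (∃ ω'', P.p ω'' ≠ 0 ∧ Y ω'' = y ∧ O ω'' = O ω₀ ∧ A ω'' = A ω₀) then P.pr (fun ω' => Y ω' = y ∧ A ω' = A ω₀) else 0)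
            = P.pr (fun ω' => ((A ω' = A ω₀ ∧ ∃ ω'', P.p ω'' ≠ 0 ∧ Y ω'' = Y ω' ∧ O ω'' = O ω₀ ∧ A ω'' = A ω₀) ∧ Y ω' ∈ S) ∧ Y ω' = y) := by
          intro y hy
          split_ifs with hadm
          · refine ent_pr_congr P fun ω' _ => ?_
            constructor
            · rintro ⟨h1, h2⟩
              exact ⟨⟨⟨h2, by rw [h1]; exact hadm⟩, by rw [h1]; exact hy⟩, h1⟩
            · rintro ⟨⟨⟨h2, _⟩, _⟩, h1⟩
              exact ⟨h1, h2⟩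
          · symm
            refine ent_pr_eq_zero P fun ω' _ hE => hadm ?_
            obtain ⟨⟨⟨_, h3⟩, _⟩, h1⟩ := hE
            rw [h1] at h3
            exact h3
        rw [Finset.sum_congr rfl e1, ← ent_pr_sum_values P _ Y S (fun ω _ hE => hE.2), hN₀]
        exact ent_pr_mono P fun ω' _ hE => hE.1)
      (fun ω hω => by
        have h2 : pair O A ω = pair O A ω₀ ∧ P.p ω ≠ 0 := (ent_cnd_supp P _ hpos).1 hω
        have hO : O ω = O ω₀ := congrArg Prod.fst h2.1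
        have hA : A ω = A ω₀ := congrArg Prod.snd h2.1
        apply div_pos _ hN₀pos
        rw [if_pos ⟨ω, h2.2, rfl, hO, hA⟩, ent_pr_pos_iff]
        exact ⟨ω, ⟨rfl, hA⟩, h2.2⟩)
    refine hg.trans (le_of_eq ?_)
    refine ent_ev_congr _ fun ω hω => ?_
    have h2 : pair O A ω = pair O A ω₀ ∧ P.p ω ≠ 0 := (ent_cnd_supp P _ hpos).1 hω
    have hO : O ω = O ω₀ := congrArg Prod.fst h2.1
    have hA : A ω = A ω₀ := congrArg Prod.snd h2.1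
    have hfA : 0 < P.fib A ω := ent_fib_pos P A h2.2
    have hfYA : 0 < P.fib (pair Y A) ω := ent_fib_pos P _ h2.2
    have e2 : P.pr (fun ω' => Y ω' = Y ω ∧ A ω' = A ω₀) = P.fib (pair Y A) ω := by
      refine ent_pr_congr P fun ω' _ => ?_
      show _ ↔ (Y ω', A ω') = (Y ω, A ω)
      rw [Prod.mk.injEq, hA]
    have e3 : fsQ P A Y O ω = N₀ / P.fib A ω := by
      unfold fsQ
      rw [hN₀, hO, hA]
    show - Real.log ((if (∃ ω'', P.p ω'' ≠ 0 ∧ Y ω'' = Y ω ∧ O ω'' = O ω₀ ∧ A ω'' = A ω₀) then P.pr (fun ω' => Y ω' = Y ω ∧ A ω' = A ω₀) else 0) / N₀)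
      = P.surC Y A ω + Real.log (fsQ P A Y O ω)
    rw [if_pos ⟨ω, h2.2, rfl, hO, hA⟩, e2, e3]
    unfold FLaw.surC
    rw [Real.log_div hfYA.ne' hN₀pos.ne', Real.log_div hfYA.ne' hfA.ne', Real.log_div hN₀pos.ne' hfA.ne']
    ring
  rw [ent_ev_add, ← ent_entC_eq_ev] at key
  rw [ent_miC_comm, ent_miC_eq, ent_ev_neg]
  linarith

/-- `0 < q ≤ 1` on charged samples.   LEAF L-256-FS-KL (same leaf). -/
theorem fs_q_bd (A : Ω → α) (Y : Ω → β) (O : Ω → ο) (ω : Ω) (h : P.p ω ≠ 0) :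
    0 < fsQ P A Y O ω ∧ fsQ P A Y O ω ≤ 1 := by
  have hf := ent_fib_pos P A h
  unfold fsQ
  constructor
  · apply div_pos _ hf
    rw [ent_pr_pos_iff]
    exact ⟨ω, ⟨rfl, ω, h, rfl, rfl, rfl⟩, h⟩
  · rw [div_le_one hf]
    exact ent_pr_mono P fun ω' _ h' => h'.1

/-- LEAF L-256-FS-TI.   EST 120 lines.   **Trimmed interval bound.**   The event is contained in the union over `j ∈ S` of `{W = W ω0, Tc = j, typical}`; a nonempty one has the mass `fib (pair Tc W) ω1 ≤ κ fib W ω0`. -/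
theorem fs_time_int {γ : Type} (W : Ω → γ) (Tc : Ω → ℤ) (θ : Ω → ℝ) (κ r x : ℝ) (N : ℕ) (ω0 : Ω) (hκ : 0 ≤ κ)
    (cov : ∃ S : Finset ℤ, S.card ≤ N ∧ ∀ ω, P.p ω ≠ 0 → W ω = W ω0 → |θ ω - x| ≤ r → Tc ω ∈ S) :
    P.pr (fun ω => W ω = W ω0 ∧ P.fib (pair Tc W) ω ≤ κ * P.fib W ω ∧ |θ ω - x| ≤ r) ≤ N * κ * P.fib W ω0 := by
  obtain ⟨S, hS, hcov⟩ := cov
  have hf0 : 0 ≤ P.fib W ω0 := ent_fib_nonneg P W ω0
  rw [ent_pr_sum_values P _ Tc S (fun ω hω hE => hcov ω hω hE.1 hE.2.2)]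
  have hterm : ∀ j ∈ S, P.pr (fun ω => (W ω = W ω0 ∧ P.fib (pair Tc W) ω ≤ κ * P.fib W ω ∧ |θ ω - x| ≤ r) ∧ Tc ω = j) ≤ κ * P.fib W ω0 := by
    intro j _
    by_cases hex : ∃ ω1, P.p ω1 ≠ 0 ∧ (W ω1 = W ω0 ∧ P.fib (pair Tc W) ω1 ≤ κ * P.fib W ω1 ∧ |θ ω1 - x| ≤ r) ∧ Tc ω1 = j
    · obtain ⟨ω1, _, ⟨hW, hk, _⟩, hj⟩ := hex
      have h1 : P.pr (fun ω => (W ω = W ω0 ∧ P.fib (pair Tc W) ω ≤ κ * P.fib W ω ∧ |θ ω - x| ≤ r) ∧ Tc ω = j) ≤ P.fib (pair Tc W) ω1 := by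
        refine ent_pr_mono P fun ω _ hE => ?_
        show (Tc ω, W ω) = (Tc ω1, W ω1)
        rw [hE.2, hj, hE.1.1, hW]
      rw [ent_fib_congr P W hW] at hk
      exact h1.trans hk
    · rw [ent_pr_eq_zero P fun ω hω hE => hex ⟨ω, hω, hE⟩]
      exact mul_nonneg hκ hf0
  refine (Finset.sum_le_sum hterm).trans ?_
  rw [Finset.sum_const, nsmul_eq_mul]
  have : (S.card : ℝ) ≤ N := by exact_mod_cast hS
  calc (S.card : ℝ) * (κ * P.fib W ω0) ≤ N * (κ * P.fib W ω0) := mul_le_mul_of_nonneg_right this (mul_nonneg hκ hf0)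
    _ = N * κ * P.fib W ω0 := by ring

/-- LEAF L-256-FS-TP.   EST 120 lines.   `H(O|Y,A) ≥ H(Tz c|Y,A)` (`ent_entC_mono`-type: `Tz c` is a function of `(O,A)` on the support), `= E[score]` (`ent_entC_eq_ev`), score `≥ 0` and `≥ (d - ε) L` off an event of mass `ε`
(`time` at `z = c`, `c + 1 - c = 1`; `ent_ev_ge_of_bad`). -/
theorem fs_time_part {A : Ω → α} {Y : Ω → β} {O : Ω → ο} {θ Vn Vd : Ω → ℝ} {Tz : ℝ → Ω → ℤ} {δ B c d μ ε : ℝ}
    {Kg : Finset ℝ} {nx Dz : ℝ → ℝ} (h : FsCore P A Y O θ Vn Vd Tz δ B c d μ ε Kg nx Dz) :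
    (1 - ε) * ((d - ε) * lg δ) ≤ P.entC O (pair Y A) := by
  have h1 : P.entC (Tz c) (pair Y A) ≤ P.entC O (pair Y A) := by
    refine ent_entC_mono P O (Tz c) (pair Y A) fun ω ω' hω hω' hO hYA => ?_
    exact h.T_fun ω ω' hω hω' hO (congrArg Prod.snd hYA)
  refine le_trans ?_ h1
  have hnn : 0 ≤ P.entC (Tz c) (pair Y A) := ent_entC_nonneg P _ _
  have hε1 : 0 ≤ 1 - ε := by linarith [h.ε1]
  rcases le_or_gt 0 ((d - ε) * lg δ) with hc | hc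
  · rw [ent_entC_eq_ev]
    have hb := h.time c h.g_bot
    have e : d * (c + 1 - c) - ε = d - ε := by ring
    rw [e] at hb
    have h2 := ent_ev_ge_of_bad P (f := P.surC (Tz c) (pair Y A)) (fun ω => P.surC (Tz c) (pair Y A) ω < (d - ε) * lg δ) (c := (d - ε) * lg δ) (M := 0)
      (fun ω _ hn => not_lt.1 hn) (fun ω hω _ => ent_surC_nonneg P _ _ hω)
    refine le_trans ?_ h2
    nlinarith
  · nlinarith

end core

/-- LEAF L-256-FS-GEO.   EST 150 lines, real arithmetic.   `a = ΔVn`, `b = ΔVd`.   `z` = the largest grid point with `max |a| |b| ≤ 2 B δ^z` (`c` qualifies: `|b| ≤ B δ^(c+1) + |a|`).   If `z < c + 1` then `max |a| |b| > 2 B δ^(nx z)`,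
hence `|a| > B δ^(nx z)` (if `|b|` is the max: `|a| ≥ |θ a| ≥ |b| - B δ^(c+1)`), and `|θ + b / a| = |b + θ a| / |a| ≤ δ^(c+1-nx z)`. -/
theorem fs_geo (Kg : Finset ℝ) (nx : ℝ → ℝ) (δ B c μ θ a b : ℝ) (hδ0 : 0 < δ) (hδ1 : δ < 1) (hB : 0 < B)
    (g_mem : ∀ z ∈ Kg, c ≤ z ∧ z ≤ c + 1) (g_bot : c ∈ Kg)
    (g_nx : ∀ z ∈ Kg, z < c + 1 → nx z ∈ Kg ∧ z < nx z ∧ nx z ≤ z + μ)
    (hθ : |θ| ≤ 1) (ha : |a| ≤ B * δ ^ c) (hb : |b + θ * a| ≤ B * δ ^ (c + 1)) :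
    ∃ z ∈ Kg, |a| ≤ 2 * B * δ ^ z ∧ |b| ≤ 2 * B * δ ^ z ∧ (z = c + 1 ∨ |θ - (-(b / a))| ≤ δ ^ (c + 1 - nx z)) := by
  have hpow : ∀ s t : ℝ, s ≤ t → δ ^ t ≤ δ ^ s := fun s t h => Real.rpow_le_rpow_of_exponent_ge hδ0 hδ1.le h
  have hpos : ∀ t : ℝ, 0 < δ ^ t := fun t => Real.rpow_pos_of_pos hδ0 t
  have hθa : |θ * a| ≤ |a| := by
    rw [abs_mul]
    nlinarith [abs_nonneg a, abs_nonneg θ]
  have hbb : |b| ≤ B * δ ^ (c + 1) + |θ * a| := by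
    have e : b = (b + θ * a) + -(θ * a) := by ring
    calc |b| = |(b + θ * a) + -(θ * a)| := by rw [← e]
      _ ≤ |b + θ * a| + |-(θ * a)| := abs_add_le _ _
      _ ≤ B * δ ^ (c + 1) + |θ * a| := by rw [abs_neg]; linarith
  obtain ⟨S, hS⟩ : ∃ S : Finset ℝ, S = Kg.filter (fun z => |a| ≤ 2 * B * δ ^ z ∧ |b| ≤ 2 * B * δ ^ z) := ⟨_, rfl⟩
  have hcS : c ∈ S := by
    rw [hS, Finset.mem_filter]
    have h1 : B * δ ^ (c + 1) ≤ B * δ ^ c := mul_le_mul_of_nonneg_left (hpow c (c + 1) (by linarith)) hB.le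
    have h2 : 0 < B * δ ^ c := mul_pos hB (hpos c)
    refine ⟨g_bot, by linarith, by linarith⟩
  obtain ⟨z, hzS, hzmax⟩ := S.exists_max_image id ⟨c, hcS⟩
  have hzS' := hzS
  rw [hS, Finset.mem_filter] at hzS'
  obtain ⟨hzK, hza, hzb⟩ := hzS'
  refine ⟨z, hzK, hza, hzb, ?_⟩
  by_cases hz1 : z = c + 1
  · exact Or.inl hz1
  right
  have hzlt : z < c + 1 := lt_of_le_of_ne (g_mem z hzK).2 hz1
  obtain ⟨hnK, hnz, -⟩ := g_nx z hzK hzlt
  have hnS : nx z ∉ S := by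
    intro h
    have := hzmax (nx z) h
    simp only [id] at this
    linarith
  have hn1 : nx z ≤ c + 1 := (g_mem _ hnK).2
  have hp1 : B * δ ^ (c + 1) ≤ B * δ ^ nx z := mul_le_mul_of_nonneg_left (hpow _ _ hn1) hB.le
  have hBn : 0 < B * δ ^ nx z := mul_pos hB (hpos _)
  have hagt : B * δ ^ nx z < |a| := by
    rw [hS, Finset.mem_filter] at hnS
    by_contra hcon
    apply hnS
    have hale : |a| ≤ B * δ ^ nx z := not_lt.1 hcon
    refine ⟨hnK, by linarith, by linarith⟩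
  have ha0 : a ≠ 0 := by
    intro h0
    rw [h0, abs_zero] at hagt
    linarith
  have e : θ - (-(b / a)) = (b + θ * a) / a := by
    field_simp
    ring
  rw [e, abs_div, div_le_iff₀ (abs_pos.2 ha0)]
  have e2 : δ ^ (c + 1) = δ ^ (c + 1 - nx z) * δ ^ nx z := by
    rw [← Real.rpow_add hδ0]
    congr 1
    ring
  calc |b + θ * a| ≤ B * δ ^ (c + 1) := hb
    _ = δ ^ (c + 1 - nx z) * (B * δ ^ nx z) := by rw [e2]; ring
    _ ≤ δ ^ (c + 1 - nx z) * |a| := mul_le_mul_of_nonneg_left hagt.le (hpos _).le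

section core2

variable {Ω α β ο : Type} [Fintype Ω] (P : FLaw Ω)

theorem fs_aux_tower_le {γ : Type} (W : Ω → γ) (f : Ω → ℝ) (C : ℝ)
    (h : ∀ ω0, P.p ω0 ≠ 0 → P.ev (fun ω => if W ω = W ω0 then f ω else 0) ≤ C * P.fib W ω0) :
    P.ev f ≤ C := by
  rw [ent_ev_tower P W f]
  calc P.ev (fun ω => (P.cfib W ω).ev f) ≤ P.ev (fun _ => C) := by
        refine ent_ev_mono P fun ω0 h0 => ?_
        have hpos := ent_fib_pos P W h0
        have e : (P.cfib W ω0).ev f = P.ev (fun ω => if W ω = W ω0 then f ω else 0) / P.fib W ω0 := by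
          unfold FLaw.ev
          rw [Finset.sum_div]
          refine Finset.sum_congr rfl fun ω _ => ?_
          rw [ent_cfib_p P W hpos]
          show _ = P.p ω * (if W ω = W ω0 then f ω else 0) / P.fib W ω0
          by_cases hW : W ω = W ω0
          · rw [if_pos hW, if_pos hW]; ring
          · rw [if_neg hW, if_neg hW]; ring
        rw [e, div_le_iff₀ hpos]
        exact h ω0 h0
    _ = C := ent_ev_const P C

theorem fs_aux_fubini (G E : Ω → Prop) (H : Ω → Ω → Prop) :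
    P.ev (fun ω => if G ω then P.pr (fun ω' => E ω' ∧ H ω ω') else 0)
      = P.ev (fun ω' => if E ω' then P.pr (fun ω => G ω ∧ H ω ω') else 0) := by
  have e1 : ∀ ω, P.p ω * (if G ω then P.pr (fun ω' => E ω' ∧ H ω ω') else 0)
      = ∑ ω', (if G ω ∧ E ω' ∧ H ω ω' then P.p ω * P.p ω' else 0) := by
    intro ω
    by_cases hG : G ω
    · rw [if_pos hG]
      unfold FLaw.pr
      rw [Finset.mul_sum]
      refine Finset.sum_congr rfl fun ω' _ => ?_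
      by_cases hE : E ω' ∧ H ω ω'
      · rw [if_pos hE, if_pos ⟨hG, hE⟩]
      · rw [if_neg hE, if_neg (fun h => hE h.2), mul_zero]
    · rw [if_neg hG, mul_zero]
      symm
      refine Finset.sum_eq_zero fun ω' _ => ?_
      rw [if_neg (fun h => hG h.1)]
  have e2 : ∀ ω', P.p ω' * (if E ω' then P.pr (fun ω => G ω ∧ H ω ω') else 0)
      = ∑ ω, (if G ω ∧ E ω' ∧ H ω ω' then P.p ω * P.p ω' else 0) := by
    intro ω'
    by_cases hE : E ω'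
    · rw [if_pos hE]
      unfold FLaw.pr
      rw [Finset.mul_sum]
      refine Finset.sum_congr rfl fun ω _ => ?_
      by_cases hG : G ω ∧ H ω ω'
      · rw [if_pos hG, if_pos ⟨hG.1, hE, hG.2⟩, mul_comm]
      · rw [if_neg hG, if_neg (fun h => hG ⟨h.1, h.2.2⟩), mul_zero]
    · rw [if_neg hE, mul_zero]
      symm
      refine Finset.sum_eq_zero fun ω _ => ?_
      rw [if_neg (fun h => hE h.2.1)]
  unfold FLaw.ev
  rw [Finset.sum_congr rfl fun ω _ => e1 ω, Finset.sum_congr rfl fun ω' _ => e2 ω', Finset.sum_comm]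

theorem fs_aux_ev_ite_const (E : Ω → Prop) (K : ℝ) : P.ev (fun ω => if E ω then K else 0) = K * P.pr E := by
  unfold FLaw.ev FLaw.pr
  rw [Finset.mul_sum]
  refine Finset.sum_congr rfl fun ω _ => ?_
  show P.p ω * (if E ω then K else 0) = K * (if E ω then P.p ω else 0)
  by_cases hE : E ω
  · rw [if_pos hE, if_pos hE, mul_comm]
  · rw [if_neg hE, if_neg hE, mul_zero, mul_zero]

theorem fs_aux_dbl {γ : Type} (W : Ω → γ) (A : Ω → α) (Tc : Ω → ℤ) (θ : Ω → ℝ) (Typ : Ω → Prop) (Bl : Ω → Ω → Prop)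
    (x : Ω → Ω → ℝ) (κ b r : ℝ) (N : ℕ) (hκ : 0 ≤ κ) (hb : 0 ≤ b)
    (hWA : ∀ ω ω', W ω = W ω' → A ω = A ω')
    (hBl : ∀ ω ω0 ω', P.p ω ≠ 0 → P.p ω0 ≠ 0 → W ω = W ω0 → (Bl ω ω' ↔ Bl ω0 ω') ∧ x ω ω' = x ω0 ω')
    (hT : ∀ ω, P.p ω ≠ 0 → Typ ω → P.fib (pair Tc W) ω ≤ κ * P.fib W ω)
    (hB : ∀ ω, P.p ω ≠ 0 → Typ ω → P.pr (fun ω' => A ω' = A ω ∧ Bl ω ω') ≤ b * P.fib A ω)
    (cov : ∀ (y : ℝ) (ω0 : Ω), ∃ S : Finset ℤ, S.card ≤ N ∧ ∀ ω, P.p ω ≠ 0 → W ω = W ω0 → |θ ω - y| ≤ r → Tc ω ∈ S) :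
    P.ev (fun ω => if Typ ω then P.pr (fun ω' => (A ω' = A ω ∧ Bl ω ω') ∧ |θ ω - x ω ω'| ≤ r) / P.fib A ω else 0)
      ≤ N * κ * b := by
  refine fs_aux_tower_le P W _ _ fun ω0 h0 => ?_
  have hW0 : 0 ≤ P.fib W ω0 := ent_fib_nonneg P W ω0
  by_cases hex : ∃ ω1, P.p ω1 ≠ 0 ∧ W ω1 = W ω0 ∧ Typ ω1
  · obtain ⟨ω1, h1, hW1, hT1⟩ := hex
    have hA1 : 0 < P.fib A ω1 := ent_fib_pos P A h1
    obtain ⟨G, hG⟩ : ∃ G : Ω → Prop, ∀ ω, G ω ↔ (W ω = W ω0 ∧ Typ ω) := ⟨_, fun _ => Iff.rfl⟩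
    obtain ⟨E, hE⟩ : ∃ E : Ω → Prop, ∀ ω', E ω' ↔ (A ω' = A ω1 ∧ Bl ω1 ω') := ⟨_, fun _ => Iff.rfl⟩
    have e1 : P.ev (fun ω => if W ω = W ω0 then (if Typ ω then P.pr (fun ω' => (A ω' = A ω ∧ Bl ω ω') ∧ |θ ω - x ω ω'| ≤ r) / P.fib A ω else 0) else 0)
        = P.ev (fun ω => (P.fib A ω1)⁻¹ * (if G ω then P.pr (fun ω' => E ω' ∧ |θ ω - x ω1 ω'| ≤ r) else 0)) := by
      refine ent_ev_congr P fun ω hω => ?_
      by_cases hW : W ω = W ω0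
      · by_cases hTy : Typ ω
        · rw [if_pos hW, if_pos hTy, if_pos ((hG ω).2 ⟨hW, hTy⟩)]
          have hWW : W ω = W ω1 := hW.trans hW1.symm
          have hAA : A ω = A ω1 := hWA _ _ hWW
          rw [ent_fib_congr P A hAA, div_eq_inv_mul]
          congr 1
          refine ent_pr_congr P fun ω' _ => ?_
          obtain ⟨hb1, hx1⟩ := hBl ω ω1 ω' hω h1 hWW
          rw [hAA, hb1, hx1, hE]
        · rw [if_pos hW, if_neg hTy, if_neg (fun h => hTy ((hG ω).1 h).2), mul_zero]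
      · rw [if_neg hW, if_neg (fun h => hW ((hG ω).1 h).1), mul_zero]
    rw [e1, ent_ev_mul_left, fs_aux_fubini P G E (fun ω ω' => |θ ω - x ω1 ω'| ≤ r)]
    have e2 : P.ev (fun ω' => if E ω' then P.pr (fun ω => G ω ∧ |θ ω - x ω1 ω'| ≤ r) else 0)
        ≤ P.ev (fun ω' => if E ω' then (N * κ * P.fib W ω0) else 0) := by
      refine ent_ev_mono P fun ω' _ => ?_
      by_cases hE' : E ω'
      · rw [if_pos hE', if_pos hE']
        refine le_trans ?_ (fs_time_int P W Tc θ κ r (x ω1 ω') N ω0 hκ (cov _ _))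
        refine ent_pr_mono P fun ω hω hh => ⟨((hG ω).1 hh.1).1, hT ω hω ((hG ω).1 hh.1).2, hh.2⟩
      · rw [if_neg hE', if_neg hE']
    rw [fs_aux_ev_ite_const] at e2
    have e3 : P.pr E ≤ b * P.fib A ω1 := by
      refine le_trans (le_of_eq ?_) (hB ω1 h1 hT1)
      exact ent_pr_congr P fun ω' _ => hE ω'
    have hK : 0 ≤ (N : ℝ) * κ * P.fib W ω0 := mul_nonneg (mul_nonneg (Nat.cast_nonneg N) hκ) hW0
    calc (P.fib A ω1)⁻¹ * P.ev (fun ω' => if E ω' then P.pr (fun ω => G ω ∧ |θ ω - x ω1 ω'| ≤ r) else 0)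
        ≤ (P.fib A ω1)⁻¹ * ((N * κ * P.fib W ω0) * (b * P.fib A ω1)) :=
          mul_le_mul_of_nonneg_left (e2.trans (mul_le_mul_of_nonneg_left e3 hK)) (inv_nonneg.2 hA1.le)
      _ = N * κ * b * P.fib W ω0 := by
          field_simp
  · have e0 : P.ev (fun ω => if W ω = W ω0 then (if Typ ω then P.pr (fun ω' => (A ω' = A ω ∧ Bl ω ω') ∧ |θ ω - x ω ω'| ≤ r) / P.fib A ω else 0) else 0)
        = P.ev (fun _ => 0) := by
      refine ent_ev_congr P fun ω hω => ?_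
      by_cases hW : W ω = W ω0
      · rw [if_pos hW, if_neg (fun hTy => hex ⟨ω, hω, hW, hTy⟩)]
      · rw [if_neg hW]
    rw [e0, ent_ev_const]
    exact mul_nonneg (mul_nonneg (mul_nonneg (Nat.cast_nonneg N) hκ) hb) hW0

/-- step (1): the cover of the admissible references -/
theorem fs_avg_cover {A : Ω → α} {Y : Ω → β} {O : Ω → ο} {θ Vn Vd : Ω → ℝ} {Tz : ℝ → Ω → ℤ} {δ B c d μ ε : ℝ}
    {Kg : Finset ℝ} {nx Dz : ℝ → ℝ} (h : FsCore P A Y O θ Vn Vd Tz δ B c d μ ε Kg nx Dz) (ω : Ω) (hω : P.p ω ≠ 0) :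
    fsQ P A Y O ω ≤ ∑ z ∈ Kg, P.pr (fun ω' => (A ω' = A ω ∧ (|Vn ω' - Vn ω| ≤ 2 * B * δ ^ z ∧ |Vd ω' - Vd ω| ≤ 2 * B * δ ^ z)) ∧
      (z = c + 1 ∨ |θ ω - (-((Vd ω' - Vd ω) / (Vn ω' - Vn ω)))| ≤ δ ^ (c + 1 - nx z))) / P.fib A ω := by
  have hf := ent_fib_pos P A hω
  unfold fsQ
  rw [← Finset.sum_div]
  refine div_le_div_of_nonneg_right ?_ hf.le
  refine le_trans ?_ (ent_pr_exists_le P Kg _)
  refine ent_pr_mono P fun ω' hω' hE => ?_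
  obtain ⟨hA, ω'', h'', hY, hO, hA''⟩ := hE
  obtain ⟨hVn, hVd⟩ := h.V_fun ω'' ω' h'' hω' hY (hA''.trans hA.symm)
  have g1 := h.g1n ω ω'' hω h'' hO.symm hA''.symm
  have g2 := h.g1d ω ω'' hω h'' hO.symm hA''.symm
  rw [hVn] at g1 g2
  rw [hVd] at g2
  obtain ⟨z, hz, ha, hb, hor⟩ := fs_geo Kg nx δ B c μ (θ ω) (Vn ω' - Vn ω) (Vd ω' - Vd ω) h.δ0 h.δ1 h.B0 h.g_mem h.g_bot h.g_nx
    (h.θ_bd ω hω) g1 g2
  exact ⟨z, hz, ⟨hA, ha, hb⟩, hor⟩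

/-- `δ^e` against the score -/
theorem fs_avg_score {γ : Type} (W : Ω → γ) (Tc : Ω → ℤ) (δ e : ℝ) (hδ : 0 < δ) (ω : Ω) (hω : P.p ω ≠ 0)
    (hs : e * lg δ ≤ P.surC Tc W ω) : P.fib (pair Tc W) ω ≤ δ ^ e * P.fib W ω := by
  have hf := ent_fib_pos P W hω
  rw [← div_le_iff₀ hf, ← ent_exp_neg_surC P Tc W hω, Real.rpow_def_of_pos hδ]
  apply Real.exp_le_exp.2
  have : lg δ = - Real.log δ := by
    unfold lg
    rw [one_div, Real.log_inv]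
  rw [this] at hs
  linarith

/-- step (2), the top grid point -/
theorem fs_avg_top {A : Ω → α} {Y : Ω → β} {O : Ω → ο} {θ Vn Vd : Ω → ℝ} {Tz : ℝ → Ω → ℤ} {δ B c d μ ε : ℝ}
    {Kg : Finset ℝ} {nx Dz : ℝ → ℝ} (h : FsCore P A Y O θ Vn Vd Tz δ B c d μ ε Kg nx Dz) (z : ℝ) (hz : z ∈ Kg) (H : Ω → Ω → Prop) :
    P.ev (fun ω => if FsTyp P A Y Vn Vd Tz δ B c d ε Kg Dz ω then
      P.pr (fun ω' => (A ω' = A ω ∧ (|Vn ω' - Vn ω| ≤ 2 * B * δ ^ z ∧ |Vd ω' - Vd ω| ≤ 2 * B * δ ^ z)) ∧ H ω ω') / P.fib A ω else 0)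
      ≤ δ ^ (Dz z - ε) := by
  have hp : 0 ≤ δ ^ (Dz z - ε) := (Real.rpow_pos_of_pos h.δ0 _).le
  refine le_trans (ent_ev_mono P (g := fun _ => δ ^ (Dz z - ε)) fun ω hω => ?_) (le_of_eq (ent_ev_const P _))
  by_cases hT : FsTyp P A Y Vn Vd Tz δ B c d ε Kg Dz ω
  · rw [if_pos hT, div_le_iff₀ (ent_fib_pos P A hω)]
    refine le_trans ?_ (hT z hz).2
    exact ent_pr_mono P fun ω' _ hE => hE.1
  · rw [if_neg hT]
    exact hp

/-- step (2), the other grid points -/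
theorem fs_avg_mid {A : Ω → α} {Y : Ω → β} {O : Ω → ο} {θ Vn Vd : Ω → ℝ} {Tz : ℝ → Ω → ℤ} {δ B c d μ ε : ℝ}
    {Kg : Finset ℝ} {nx Dz : ℝ → ℝ} (h : FsCore P A Y O θ Vn Vd Tz δ B c d μ ε Kg nx Dz) (z : ℝ) (hz : z ∈ Kg) (hz1 : z < c + 1) :
    P.ev (fun ω => if FsTyp P A Y Vn Vd Tz δ B c d ε Kg Dz ω then
      P.pr (fun ω' => (A ω' = A ω ∧ (|Vn ω' - Vn ω| ≤ 2 * B * δ ^ z ∧ |Vd ω' - Vd ω| ≤ 2 * B * δ ^ z)) ∧
        |θ ω - (-((Vd ω' - Vd ω) / (Vn ω' - Vn ω)))| ≤ δ ^ (c + 1 - nx z)) / P.fib A ω else 0)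
      ≤ (5 : ℕ) * δ ^ (d * (c + 1 - nx z) - ε) * δ ^ (Dz z - ε) := by
  obtain ⟨hn, -, -⟩ := h.g_nx z hz hz1
  refine fs_aux_dbl P (pair Y A) A (Tz (nx z)) θ (FsTyp P A Y Vn Vd Tz δ B c d ε Kg Dz)
    (fun ω ω' => |Vn ω' - Vn ω| ≤ 2 * B * δ ^ z ∧ |Vd ω' - Vd ω| ≤ 2 * B * δ ^ z)
    (fun ω ω' => -((Vd ω' - Vd ω) / (Vn ω' - Vn ω))) _ _ _ 5 (Real.rpow_pos_of_pos h.δ0 _).le (Real.rpow_pos_of_pos h.δ0 _).le
    (fun ω ω' hW => congrArg Prod.snd hW) ?_ ?_ ?_ ?_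
  · intro ω ω0 ω' hω h0 hW
    obtain ⟨h1, h2⟩ := h.V_fun ω ω0 hω h0 (congrArg Prod.fst hW) (congrArg Prod.snd hW)
    show ((|Vn ω' - Vn ω| ≤ 2 * B * δ ^ z ∧ |Vd ω' - Vd ω| ≤ 2 * B * δ ^ z) ↔ (|Vn ω' - Vn ω0| ≤ 2 * B * δ ^ z ∧ |Vd ω' - Vd ω0| ≤ 2 * B * δ ^ z)) ∧
      -((Vd ω' - Vd ω) / (Vn ω' - Vn ω)) = -((Vd ω' - Vd ω0) / (Vn ω' - Vn ω0))
    rw [h1, h2]
    exact ⟨Iff.rfl, rfl⟩
  · intro ω hω hT
    exact fs_avg_score P _ _ δ _ h.δ0 ω hω (hT _ hn).1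
  · intro ω hω hT
    exact (hT z hz).2
  · intro y ω0
    obtain ⟨S, hS, hc⟩ := h.cov _ hn y ω0
    exact ⟨S, hS, fun ω hω hW => hc ω hω (congrArg Prod.snd hW)⟩

/-- LEAF L-256-FS-AVG.   EST 500 lines.   **Average reference admissibility over typical actual samples.**
PLAN.  (1) If `ω` is charged and `ω'` (charged, `A ω' = A ω`) is admissible through `ω''`, then `V ω' = V ω''` (`V_fun`), and `g1n`, `g1d`, `θ_bd`, `fs_geo` with `a = Vn ω' - Vn ω`, `b = Vd ω' - Vd ω` give `z ∈ Kg` with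
`ω'` in the ball `2 B δ^z` of `ω` and (`z = c+1` or `|θ ω - x| ≤ δ^(c+1-nx z)`, `x = -(b/a)`).   So `1_Typ q ≤ ∑_z g_z`, `g_z ω = 1_Typ(ω) (fib A ω)⁻¹ ∑_ω' p ω' 1[A ω' = A ω] 1[ball_z] 1[time_z]`.
(2) Tower over `W = (Y,A)` (`ent_ev_tower`, or group the sum by the values of `W`): on a fibre of `W` the numbers `V ω`, `fib A ω`, `x` are constant; exchange the sums; for each `ω'` use `fs_time_int` with `Tc = Tz (nx z)`, `N = 5` (`cov`),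
`κ = δ^(d (c+1-nx z) - ε)` (typical: `fib (pair Tc W) ≤ κ fib W` is `surC ≥ (..) lg δ`, `ent_exp_neg_surC`); then the ball bound of the typical fibre.   `E g_z ≤ 5 δ^(Dz z - ε) δ^(d (c+1-nx z) - ε)`;  for `z = c + 1`: `E g_z ≤ δ^(Dz z - ε)`.
(3) exponents: `Dz z + d (c+1-nx z) - 2ε ≥ m - dμ - 2ε`; `δ < 1`. -/
theorem fs_avg {A : Ω → α} {Y : Ω → β} {O : Ω → ο} {θ Vn Vd : Ω → ℝ} {Tz : ℝ → Ω → ℤ} {δ B c d μ ε : ℝ}
    {Kg : Finset ℝ} {nx Dz : ℝ → ℝ} (h : FsCore P A Y O θ Vn Vd Tz δ B c d μ ε Kg nx Dz) (m : ℝ)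
    (hm : ∀ z ∈ Kg, m ≤ Dz z + d * (c + 1 - z)) :
    P.ev (fun ω => if FsTyp P A Y Vn Vd Tz δ B c d ε Kg Dz ω then fsQ P A Y O ω else 0)
      ≤ 5 * Kg.card * δ ^ (m - d * μ - 2 * ε) := by
  have hpow : ∀ s t : ℝ, s ≤ t → δ ^ t ≤ δ ^ s := fun s t hst => Real.rpow_le_rpow_of_exponent_ge h.δ0 h.δ1.le hst
  have hM : 0 < δ ^ (m - d * μ - 2 * ε) := Real.rpow_pos_of_pos h.δ0 _
  have hdμ : 0 ≤ d * μ := mul_nonneg h.d0 h.μ0
  have s1 : P.ev (fun ω => if FsTyp P A Y Vn Vd Tz δ B c d ε Kg Dz ω then fsQ P A Y O ω else 0)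
      ≤ P.ev (fun ω => ∑ z ∈ Kg, (if FsTyp P A Y Vn Vd Tz δ B c d ε Kg Dz ω then
        P.pr (fun ω' => (A ω' = A ω ∧ (|Vn ω' - Vn ω| ≤ 2 * B * δ ^ z ∧ |Vd ω' - Vd ω| ≤ 2 * B * δ ^ z)) ∧
        (z = c + 1 ∨ |θ ω - (-((Vd ω' - Vd ω) / (Vn ω' - Vn ω)))| ≤ δ ^ (c + 1 - nx z))) / P.fib A ω else 0)) := by
    refine ent_ev_mono P fun ω hω => ?_
    by_cases hT : FsTyp P A Y Vn Vd Tz δ B c d ε Kg Dz ω
    · simp only [if_pos hT]
      exact fs_avg_cover P h ω hω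
    · simp only [if_neg hT, Finset.sum_const_zero, le_refl]
  refine s1.trans ?_
  rw [ent_ev_sum]
  have s2 : ∀ z ∈ Kg, P.ev (fun ω => if FsTyp P A Y Vn Vd Tz δ B c d ε Kg Dz ω then
        P.pr (fun ω' => (A ω' = A ω ∧ (|Vn ω' - Vn ω| ≤ 2 * B * δ ^ z ∧ |Vd ω' - Vd ω| ≤ 2 * B * δ ^ z)) ∧
        (z = c + 1 ∨ |θ ω - (-((Vd ω' - Vd ω) / (Vn ω' - Vn ω)))| ≤ δ ^ (c + 1 - nx z))) / P.fib A ω else 0)
      ≤ 5 * δ ^ (m - d * μ - 2 * ε) := by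
    intro z hz
    by_cases hz1 : z = c + 1
    · refine (fs_avg_top P h z hz _).trans ?_
      have h1 := hm z hz
      have h2 : d * (c + 1 - z) = 0 := by rw [hz1]; ring
      have h3 : δ ^ (Dz z - ε) ≤ δ ^ (m - d * μ - 2 * ε) := hpow _ _ (by linarith [h.ε0])
      linarith
    · have hzlt : z < c + 1 := lt_of_le_of_ne (h.g_mem z hz).2 hz1
      obtain ⟨-, -, hnμ⟩ := h.g_nx z hz hzlt
      have e : (fun ω => if FsTyp P A Y Vn Vd Tz δ B c d ε Kg Dz ω then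
          P.pr (fun ω' => (A ω' = A ω ∧ (|Vn ω' - Vn ω| ≤ 2 * B * δ ^ z ∧ |Vd ω' - Vd ω| ≤ 2 * B * δ ^ z)) ∧
          (z = c + 1 ∨ |θ ω - (-((Vd ω' - Vd ω) / (Vn ω' - Vn ω)))| ≤ δ ^ (c + 1 - nx z))) / P.fib A ω else 0)
          = (fun ω => if FsTyp P A Y Vn Vd Tz δ B c d ε Kg Dz ω then
          P.pr (fun ω' => (A ω' = A ω ∧ (|Vn ω' - Vn ω| ≤ 2 * B * δ ^ z ∧ |Vd ω' - Vd ω| ≤ 2 * B * δ ^ z)) ∧
          |θ ω - (-((Vd ω' - Vd ω) / (Vn ω' - Vn ω)))| ≤ δ ^ (c + 1 - nx z)) / P.fib A ω else 0) := by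
        simp only [hz1, false_or]
      rw [e]
      refine (fs_avg_mid P h z hz hzlt).trans ?_
      have h1 := hm z hz
      have h2 : d * (c + 1 - z - μ) ≤ d * (c + 1 - nx z) := mul_le_mul_of_nonneg_left (by linarith) h.d0
      have h3 : δ ^ (d * (c + 1 - nx z) - ε) * δ ^ (Dz z - ε) ≤ δ ^ (m - d * μ - 2 * ε) := by
        rw [← Real.rpow_add h.δ0]
        refine hpow _ _ ?_
        nlinarith
      push_cast
      nlinarith
  refine (Finset.sum_le_sum s2).trans (le_of_eq ?_)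
  rw [Finset.sum_const, nsmul_eq_mul]
  ring

/-- LEAF L-256-FS-ML.   EST 150 lines.   **Markov + logarithm.**   `Bad = ¬Typ ∨ (Typ ∧ q > M / η)`: mass `≤ lam + η` (`ent_markov`); off `Bad`: `- log q ≥ - log (M / η)`; on `Bad`: `- log q ≥ 0`. -/
theorem fs_markov_log (q : Ω → ℝ) (Typ : Ω → Prop) (M η lam : ℝ) (hM : 0 < M) (hη : 0 < η)
    (hq : ∀ ω, P.p ω ≠ 0 → 0 < q ω ∧ q ω ≤ 1) (hT : P.pr (fun ω => ¬ Typ ω) ≤ lam)
    (hav : P.ev (fun ω => if Typ ω then q ω else 0) ≤ M) (hl : lam + η ≤ 1) :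
    (1 - (lam + η)) * (- Real.log (M / η)) ≤ P.ev (fun ω => - Real.log (q ω)) := by
  have hMη : 0 < M / η := div_pos hM hη
  have hnn : 0 ≤ P.ev (fun ω => - Real.log (q ω)) := by
    refine ent_ev_nonneg P fun ω hω => ?_
    have := Real.log_nonpos (hq ω hω).1.le (hq ω hω).2
    linarith
  rcases le_or_gt 0 (- Real.log (M / η)) with hc | hc
  · have hmk : P.pr (fun ω => M / η ≤ (if Typ ω then q ω else 0)) ≤ η := by
      have h1 := ent_markov P (f := fun ω => if Typ ω then q ω else 0) (fun ω hω => by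
        show 0 ≤ (if Typ ω then q ω else 0)
        split_ifs
        · exact (hq ω hω).1.le
        · exact le_rfl) hMη
      refine h1.trans ?_
      rw [div_le_iff₀ hMη]
      have : η * (M / η) = M := by field_simp
      rw [this]
      exact hav
    have hbad : P.pr (fun ω => ¬ Typ ω ∨ M / η ≤ (if Typ ω then q ω else 0)) ≤ lam + η :=
      (ent_pr_or_le P _ _).trans (add_le_add hT hmk)
    have h2 := ent_ev_ge_of_bad P (f := fun ω => - Real.log (q ω)) (fun ω => ¬ Typ ω ∨ M / η ≤ (if Typ ω then q ω else 0))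
      (c := - Real.log (M / η)) (M := 0)
      (fun ω hω hn => by
        push Not at hn
        obtain ⟨hT', hlt⟩ := hn
        rw [if_pos hT'] at hlt
        have := Real.log_le_log (hq ω hω).1 hlt.le
        show - Real.log (M / η) ≤ - Real.log (q ω)
        linarith)
      (fun ω hω _ => by
        have := Real.log_nonpos (hq ω hω).1.le (hq ω hω).2
        show 0 ≤ - Real.log (q ω)
        linarith)
    refine le_trans ?_ h2
    nlinarith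
  · have : 0 ≤ 1 - (lam + η) := by linarith
    nlinarith

/-- **(sh) on one finite law.**   LEAF L-256-FS-ASM.   EST 150 lines: `H(O|A) = H(O|Y,A) + I(O;Y|A)` (`ent_miC_eq`), `fs_time_part`, `fs_kl`, `fs_q_bd`, `fs_avg`, `fs_markov_log` with `M = 5 |𝒦| δ^(m-dμ-2ε)`, `η = 5 |𝒦| δ^ε`,
`lam = 2 |𝒦| ε` (union bound `ent_pr_exists_le` over `time`, `ball`);  `- log (M / η) = (m - dμ - 3ε) lg δ`. -/
theorem fs_core {A : Ω → α} {Y : Ω → β} {O : Ω → ο} {θ Vn Vd : Ω → ℝ} {Tz : ℝ → Ω → ℤ} {δ B c d μ ε : ℝ}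
    {Kg : Finset ℝ} {nx Dz : ℝ → ℝ} (h : FsCore P A Y O θ Vn Vd Tz δ B c d μ ε Kg nx Dz) (m : ℝ)
    (hm : ∀ z ∈ Kg, m ≤ Dz z + d * (c + 1 - z)) (hl : 2 * Kg.card * ε + 5 * Kg.card * δ ^ ε ≤ 1) :
    (1 - ε) * ((d - ε) * lg δ) + (1 - (2 * Kg.card * ε + 5 * Kg.card * δ ^ ε)) * ((m - d * μ - 3 * ε) * lg δ)
      ≤ P.entC O A := by
  have hδ0 := h.δ0
  have hcard : (1 : ℝ) ≤ Kg.card := by
    have : 0 < Kg.card := Finset.card_pos.2 ⟨c, h.g_bot⟩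
    exact_mod_cast this
  have hM : 0 < 5 * (Kg.card : ℝ) * δ ^ (m - d * μ - 2 * ε) := by
    have := Real.rpow_pos_of_pos hδ0 (m - d * μ - 2 * ε)
    positivity
  have hη : 0 < 5 * (Kg.card : ℝ) * δ ^ ε := by
    have := Real.rpow_pos_of_pos hδ0 ε
    positivity
  have hT : P.pr (fun ω => ¬ FsTyp P A Y Vn Vd Tz δ B c d ε Kg Dz ω) ≤ 2 * Kg.card * ε := by
    have h1 : P.pr (fun ω => ¬ FsTyp P A Y Vn Vd Tz δ B c d ε Kg Dz ω)
        ≤ P.pr (fun ω => ∃ z ∈ Kg, P.surC (Tz z) (pair Y A) ω < (d * (c + 1 - z) - ε) * lg δ ∨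
            δ ^ (Dz z - ε) * P.fib A ω < fsBall P A Vn Vd (2 * B * δ ^ z) ω) := by
      refine ent_pr_mono P fun ω _ hn => ?_
      unfold FsTyp at hn
      push Not at hn
      obtain ⟨z, hz, hh⟩ := hn
      refine ⟨z, hz, ?_⟩
      by_cases h1 : P.surC (Tz z) (pair Y A) ω < (d * (c + 1 - z) - ε) * lg δ
      · exact Or.inl h1
      · exact Or.inr (hh (not_lt.1 h1))
    refine h1.trans ((ent_pr_exists_le P Kg _).trans ?_)
    have h2 : ∀ z ∈ Kg, P.pr (fun ω => P.surC (Tz z) (pair Y A) ω < (d * (c + 1 - z) - ε) * lg δ ∨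
            δ ^ (Dz z - ε) * P.fib A ω < fsBall P A Vn Vd (2 * B * δ ^ z) ω) ≤ 2 * ε := by
      intro z hz
      refine (ent_pr_or_le P _ _).trans ?_
      have := h.time z hz
      have := h.ball z hz
      linarith
    refine (Finset.sum_le_sum h2).trans ?_
    rw [Finset.sum_const, nsmul_eq_mul]
    exact le_of_eq (by ring)
  have hml := fs_markov_log P (fsQ P A Y O) (FsTyp P A Y Vn Vd Tz δ B c d ε Kg Dz) _ _ _ hM hη (fun ω hω => fs_q_bd P A Y O ω hω) hT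
    (fs_avg P h m hm) hl
  have hlog : - Real.log (5 * (Kg.card : ℝ) * δ ^ (m - d * μ - 2 * ε) / (5 * (Kg.card : ℝ) * δ ^ ε)) = (m - d * μ - 3 * ε) * lg δ := by
    have e1 : 5 * (Kg.card : ℝ) * δ ^ (m - d * μ - 2 * ε) / (5 * (Kg.card : ℝ) * δ ^ ε) = δ ^ (m - d * μ - 3 * ε) := by
      have e2 : δ ^ (m - d * μ - 2 * ε) = δ ^ (m - d * μ - 3 * ε) * δ ^ ε := by
        rw [← Real.rpow_add hδ0]; congr 1; ring
      rw [e2]
      have := (Real.rpow_pos_of_pos hδ0 ε).ne'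
      field_simp
    rw [e1, Real.log_rpow hδ0]
    unfold lg
    rw [one_div, Real.log_inv]
    ring
  rw [hlog] at hml
  have hkl := fs_kl P A Y O
  have htp := fs_time_part P h
  have hdec := ent_miC_eq P O Y A
  linarith

/-- masses of the values in a finite set add up to the mass of the set -/
theorem fs_aux_sum_vals {γ : Type} (X : Ω → γ) (U : Finset γ) :
    ∑ y ∈ U, P.pr (fun ω => X ω = y) = P.pr (fun ω => X ω ∈ U) := by
  rw [ent_pr_sum_values P (fun ω => X ω ∈ U) X U (fun ω _ h => h)]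
  refine Finset.sum_congr rfl fun y hy => ?_
  refine ent_pr_congr P fun ω _ => ?_
  constructor
  · intro h
    exact ⟨h ▸ hy, h⟩
  · intro h
    exact h.2

/-- transport of mass along an injective map of the values -/
theorem fs_aux_shift {γ : Type} (X : Ω → γ) (T : γ → γ) (hT : Function.Injective T) (G H : γ → Prop)
    (h1 : ∀ x, G x → P.pr (fun ω => X ω = x) ≤ P.pr (fun ω => X ω = T x))
    (h2 : ∀ x, G x → H (T x)) :
    P.pr (fun ω => G (X ω)) ≤ P.pr (fun ω => H (X ω)) := by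
  set S : Finset γ := (Finset.univ.image X).filter G with hS
  have e1 : P.pr (fun ω => G (X ω)) ≤ P.pr (fun ω => X ω ∈ S) := by
    refine ent_pr_mono P fun ω _ h => ?_
    exact Finset.mem_filter.2 ⟨Finset.mem_image_of_mem X (Finset.mem_univ ω), h⟩
  have e2 : P.pr (fun ω => X ω ∈ S.image T) ≤ P.pr (fun ω => H (X ω)) := by
    refine ent_pr_mono P fun ω _ h => ?_
    obtain ⟨x, hx, hxe⟩ := Finset.mem_image.1 h
    rw [← hxe]
    exact h2 x (Finset.mem_filter.1 hx).2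
  refine le_trans e1 (le_trans ?_ e2)
  rw [← fs_aux_sum_vals, ← fs_aux_sum_vals, Finset.sum_image (fun x _ y _ h => hT h)]
  exact Finset.sum_le_sum fun x hx => h1 x (Finset.mem_filter.1 hx).2

/-- LEAF L-256-FS-BALL.   EST 300 lines.   **Neighbouring-bin likelihood bound.**   `Vc` = the cell of `V`; `heavy` cells (given `A`) have conditional mass `> κ`; by hypothesis the samples in heavy cells have mass `≤ ε`.
In a fibre of `A`: `#heavy ≤ mass(heavy) / (κ fib A)`, a light cell has mass `≤ κ fib A`, so the light cells within the offset `R` of a heavy cell have total mass `≤ (2R+1)² mass(heavy)`.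
Off these two events all `(2R+1)²` cells within the offset `R` of the sample are light. -/
theorem fs_ball (A : Ω → α) (Vc : Ω → ℤ × ℤ) (κ ε : ℝ) (R : ℕ) (hκ : 0 < κ)
    (h : P.pr (fun ω => κ * P.fib A ω < P.fib (pair Vc A) ω) ≤ ε) :
    P.pr (fun ω => (2 * R + 1) ^ 2 * κ * P.fib A ω <
        P.pr (fun ω' => A ω' = A ω ∧ |(Vc ω').1 - (Vc ω).1| ≤ R ∧ |(Vc ω').2 - (Vc ω).2| ≤ R))
      ≤ (1 + (2 * R + 1) ^ 2) * ε := by
  set X : Ω → (ℤ × ℤ) × α := pair Vc A with hX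
  set H : (ℤ × ℤ) × α → Prop := fun x => κ * P.pr (fun ω => A ω = x.2) < P.pr (fun ω => X ω = x) with hH
  set T : ℤ × ℤ → (ℤ × ℤ) × α → (ℤ × ℤ) × α := fun o x => (x.1 + o, x.2) with hTd
  set G : ℤ × ℤ → (ℤ × ℤ) × α → Prop := fun o x => ¬ H x ∧ H (T o x) with hG
  set Box : Finset (ℤ × ℤ) := (Finset.Icc (-(R : ℤ)) R) ×ˢ (Finset.Icc (-(R : ℤ)) R) with hBox
  have hcard : (Box.card : ℝ) = (2 * R + 1) ^ 2 := by
    rw [hBox, Finset.card_product, Int.card_Icc]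
    have : ((R : ℤ) + 1 - -(R : ℤ)).toNat = 2 * R + 1 := by omega
    rw [this]
    push_cast
    ring
  have hheavy : P.pr (fun ω => H (X ω)) ≤ ε := h
  have hshift : ∀ o, P.pr (fun ω => G o (X ω)) ≤ ε := by
    intro o
    refine le_trans (fs_aux_shift P X (T o) ?_ (G o) H ?_ ?_) hheavy
    · intro x y hxy
      have hxy' : ((x.1 + o, x.2) : (ℤ × ℤ) × α) = (y.1 + o, y.2) := hxy
      have h1 : x.1 + o = y.1 + o := (Prod.mk.inj hxy').1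
      have h2 : x.2 = y.2 := (Prod.mk.inj hxy').2
      exact Prod.ext (add_right_cancel h1) h2
    · intro x hx
      have h1 : P.pr (fun ω => X ω = x) ≤ κ * P.pr (fun ω => A ω = x.2) := not_lt.1 hx.1
      have h2 : κ * P.pr (fun ω => A ω = x.2) < P.pr (fun ω => X ω = T o x) := hx.2
      linarith
    · intro x hx
      exact hx.2
  have hcover : P.pr (fun ω => (2 * R + 1) ^ 2 * κ * P.fib A ω <
        P.pr (fun ω' => A ω' = A ω ∧ |(Vc ω').1 - (Vc ω).1| ≤ R ∧ |(Vc ω').2 - (Vc ω).2| ≤ R))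
      ≤ P.pr (fun ω => H (X ω) ∨ ∃ o ∈ Box, G o (X ω)) := by
    refine ent_pr_mono P fun ω _ hbad => ?_
    by_contra hcon
    push Not at hcon
    obtain ⟨hl, hall⟩ := hcon
    have hlight : ∀ o ∈ Box, P.pr (fun ω' => X ω' = T o (X ω)) ≤ κ * P.fib A ω := by
      intro o ho
      have h1 : ¬ H (T o (X ω)) := fun hh => hall o ho ⟨hl, hh⟩
      exact not_lt.1 h1
    have hle : P.pr (fun ω' => A ω' = A ω ∧ |(Vc ω').1 - (Vc ω).1| ≤ R ∧ |(Vc ω').2 - (Vc ω).2| ≤ R)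
        ≤ ∑ o ∈ Box, P.pr (fun ω' => X ω' = T o (X ω)) := by
      refine le_trans (ent_pr_mono P fun ω' _ hb => ?_) (ent_pr_exists_le P Box _)
      obtain ⟨hA, hb1, hb2⟩ := hb
      rw [abs_le] at hb1 hb2
      refine ⟨((Vc ω').1 - (Vc ω).1, (Vc ω').2 - (Vc ω).2), ?_, ?_⟩
      · rw [hBox, Finset.mem_product, Finset.mem_Icc, Finset.mem_Icc]
        exact ⟨hb1, hb2⟩
      · refine Prod.ext (Prod.ext ?_ ?_) hA
        · show (Vc ω').1 = (Vc ω).1 + ((Vc ω').1 - (Vc ω).1)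
          ring
        · show (Vc ω').2 = (Vc ω).2 + ((Vc ω').2 - (Vc ω).2)
          ring
    have hsum : ∑ o ∈ Box, P.pr (fun ω' => X ω' = T o (X ω)) ≤ (2 * R + 1) ^ 2 * κ * P.fib A ω := by
      refine le_trans (Finset.sum_le_sum hlight) ?_
      rw [Finset.sum_const, nsmul_eq_mul, hcard]
      exact le_of_eq (by ring)
    linarith
  refine le_trans hcover (le_trans (ent_pr_or_le P _ _) ?_)
  have hun : P.pr (fun ω => ∃ o ∈ Box, G o (X ω)) ≤ (2 * R + 1) ^ 2 * ε := by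
    refine le_trans (ent_pr_exists_le P Box (fun o ω => G o (X ω))) ?_
    refine le_trans (Finset.sum_le_sum fun o _ => hshift o) ?_
    rw [Finset.sum_const, nsmul_eq_mul, hcard]
  linarith

end core2

/-- LEAF L-256-FS-FIX.   EST 150 lines, Mathlib only.   `F z k = D(z|k) + d (c+1-z)`.   The increments in `z` are nonincreasing in `k`, so the LARGEST minimiser `z(k)` of `F · k` is nondecreasing
(for `z1 < z(k)`, `k ≤ k'`: `F (z k) k' - F z1 k' ≤ F (z k) k - F z1 k ≤ 0`);   `k* = max {k ∈ Kg : k ≤ z(k)}` is a fixed point. -/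
theorem fs_fixpt (Kg : Finset ℝ) (hne : Kg.Nonempty) (F : ℝ → ℝ → ℝ)
    (hmono : ∀ k ∈ Kg, ∀ k' ∈ Kg, ∀ z1 ∈ Kg, ∀ z2 ∈ Kg, k ≤ k' → z1 ≤ z2 → F z2 k' - F z1 k' ≤ F z2 k - F z1 k) :
    ∃ k ∈ Kg, ∀ z ∈ Kg, F k k ≤ F z k := by
  have hex : ∀ k : ℝ, ∃ z ∈ Kg, (∀ w ∈ Kg, F z k ≤ F w k) ∧
      (∀ w ∈ Kg, (∀ v ∈ Kg, F w k ≤ F v k) → w ≤ z) := by
    intro k
    obtain ⟨z0, hz0, hmin⟩ := Finset.exists_min_image Kg (fun z => F z k) hne
    have hne2 : (Kg.filter (fun z => ∀ w ∈ Kg, F z k ≤ F w k)).Nonempty :=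
      ⟨z0, Finset.mem_filter.2 ⟨hz0, hmin⟩⟩
    obtain ⟨z, hz, hmax⟩ := Finset.exists_max_image _ (fun z : ℝ => z) hne2
    rw [Finset.mem_filter] at hz
    exact ⟨z, hz.1, hz.2, fun w hw hwm => hmax w (Finset.mem_filter.2 ⟨hw, hwm⟩)⟩
  choose Z hZ hZmin hZmax using hex
  have hZmono : ∀ k ∈ Kg, ∀ k' ∈ Kg, k ≤ k' → Z k ≤ Z k' := by
    intro k hk k' hk' hkk
    by_contra hlt
    push Not at hlt
    have h1 := hmono k hk k' hk' (Z k') (hZ k') (Z k) (hZ k) hkk hlt.le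
    have h2 := hZmin k (Z k') (hZ k')
    have h3 : ∀ v ∈ Kg, F (Z k) k' ≤ F v k' := fun v hv => by
      have := hZmin k' v hv
      linarith
    have := hZmax k' (Z k) (hZ k) h3
    linarith
  obtain ⟨k0, hk0, hk0min⟩ := Finset.exists_min_image Kg (fun z : ℝ => z) hne
  have hne3 : (Kg.filter (fun k => k ≤ Z k)).Nonempty :=
    ⟨k0, Finset.mem_filter.2 ⟨hk0, hk0min _ (hZ k0)⟩⟩
  obtain ⟨k, hk, hkmax⟩ := Finset.exists_max_image _ (fun z : ℝ => z) hne3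
  rw [Finset.mem_filter] at hk
  have h4 : Z k ≤ Z (Z k) := hZmono k hk.1 (Z k) (hZ k) hk.2
  have h5 : Z k ≤ k := hkmax (Z k) (Finset.mem_filter.2 ⟨hZ k, h4⟩)
  have h6 : Z k = k := le_antisymm h5 hk.2
  refine ⟨k, hk.1, fun z hz => ?_⟩
  have := hZmin k z hz
  rw [h6] at this
  exact this

end Claimed.Agent.R256
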