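import Claimed.Agent.R256.Act.Fs
import Claimed.Agent.R256.Nm.Base

/-!
# Row 256, section Act, unit FS (Lemma act:finite-step, 06 l.681-846), file 2: THE OBSERVABLES OF ONE STEP + THE INTERFACE FS ⟵ GEO      (architect helper277)      DEFINITIONS ONLY

`p : FsPt` = one finite step: template `p.q` (`g = 0`), branch (`quad`), rate `c`, enlargement `g`, EARLIER root `(a, v)`, gap `h`, `K_* = Ks`.      `p.kR k = k/2` (quadratic), `k` (linear).
ALL observables are ATOMS of Nm (`NmAt`, Nm/Base.lean), so that `S.Flat` gives their deterministic scores: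
  `C = 𝒞^g(a,v)` `p.aC`,   `O = 𝒞^g(a+h,v)` `p.aO`,   `C^k = 𝒞^g(a,v+k_R h)` `p.aCk k`,   `X^(v+K_* h)` `p.aX`,
  `S_k = (p.aX, p.aS k)`, `p.aS k = 𝒞^(g+kh)(a, v+k_R h)`  : the name of the moved width whose NORMAL bins are those of `C` (`w(a,v+k_R h) - (g+kh) = w(a,v) - g` on the branch); it carries (ii), (iii) of 06 l.713-719 up to bounded lists;
  `(C, V_z) = p.aV z = 𝒞^(g-zh)(a,v)` : the SAME name with the normal bins refined by `δ^z` (all other entries do not depend on `g`).      `p.LA k = [C, X, S_k]` = the condition `A`.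
On a raw datum: `x.fsTh` = `θ' = (t_{a+h} - t_a) / s^a`,  `x.fsVn`, `x.fsVd` = the residual normal velocity / position, centred in their `C`-bins, divided by `s^(w-g)`, `s^(a+w-g)`.
**`FsGeo D π p B N0 Kg`** = (act:step-geometry) on ONE documented configuration = what GEO (BP-256-ACT-GEO, helper209) supplies for `uf`-most configurations, `N0 = s^(-acc)`, `B` independent of the configuration.
**`FsTime D π p ε Kg`** = the typical time scores given `(y_0, C, S_k)` (06 l.766-780).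
-/

set_option autoImplicit false

namespace Claimed.Agent.R256

open Claimed.Agent.R255
open Claimed.Agent.R255.FLaw (pair)
open Classical

noncomputable section

/-- one finite step -/
structure FsPt where
  q : NmQ
  quad : Bool
  c : ℝ
  g : ℝ
  a : ℝ
  v : ℝ
  h : ℝ
  Ks : ℝ

namespace FsPt

variable (p : FsPt)

/-- the speed of the width -/
def kR (k : ℝ) : ℝ := if p.quad then k / 2 else k

/-- the template with the enlargement `x` -/
def qg (x : ℝ) : NmQ := { p.q with g := x }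

def aC : NmAt := NmAt.nm (p.qg p.g) p.a p.v
def aO : NmAt := NmAt.nm (p.qg p.g) (p.a + p.h) p.v
def aCk (k : ℝ) : NmAt := NmAt.nm (p.qg p.g) p.a (p.v + p.kR k * p.h)
def aX : NmAt := NmAt.Xc (p.v + p.Ks * p.h)
def aS (k : ℝ) : NmAt := NmAt.nm (p.qg (p.g + k * p.h)) p.a (p.v + p.kR k * p.h)
def aV (z : ℝ) : NmAt := NmAt.nm (p.qg (p.g - z * p.h)) p.a p.v

/-- the condition `A = (C, S_k)` -/
def LA (k : ℝ) : List NmAt := [p.aC, p.aX, p.aS k]

end FsPt

namespace NmRaw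

variable (x : NmRaw) (s : ℝ) (π : SfPar) (p : FsPt)

/-- `θ' = (t_{a+h} - t_a) / s^a` -/
def fsTh : ℝ := (x.ta s (p.a + p.h) - x.ta s p.a) / s ^ p.a

/-- the normalised residual normal velocity -/
def fsVn : ℝ :=
  (x.Nres s π p.q p.a p.v - nmRep s (p.q.w π p.a p.v - p.g) (x.Nres s π p.q p.a p.v)) / s ^ (p.q.w π p.a p.v - p.g)

/-- the normalised residual normal position at `t_a` -/
def fsVd : ℝ :=
  (x.Dres s π p.q p.a p.v - nmRep s (p.a + p.q.w π p.a p.v - p.g) (x.Dres s π p.q p.a p.v)) / s ^ (p.a + p.q.w π p.a p.v - p.g)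

end NmRaw

namespace SfDoc

variable (D : SfDoc) (π : SfPar) (p : FsPt)

def fsTh : D.Row 1 → ℝ := fun ω => (D.raw π p.q.ds ω).fsTh D.s p
def fsVn : D.Row 1 → ℝ := fun ω => (D.raw π p.q.ds ω).fsVn D.s π p
def fsVd : D.Row 1 → ℝ := fun ω => (D.raw π p.q.ds ω).fsVd D.s π p

end SfDoc

/-- **(act:step-geometry) on one documented configuration.**   `δ = s^h`.   `B` = the constant of the single centres, `N0` = the size of the zero-cost lists. -/
structure FsGeo (D : SfDoc) (π : SfPar) (p : FsPt) (B N0 : ℝ) (Kg : Finset ℝ) : Prop where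
  /-- the normal pair is a function of `(y_0, C)` (classical: the ray is a function of the exact particle; `t_a, R_a, k_a, L` are entries of `C`) -/
  V_fun : ∀ ω ω', (D.P 1).p ω ≠ 0 → (D.P 1).p ω' ≠ 0 → D.y0 ω = D.y0 ω' → D.atq π p.aC ω = D.atq π p.aC ω' →
    D.fsVn π p ω = D.fsVn π p ω' ∧ D.fsVd π p ω = D.fsVd π p ω'
  /-- G1: `(O, C)` predict `(V_n)_c` ... -/
  g1n : ∀ ω ω', (D.P 1).p ω ≠ 0 → (D.P 1).p ω' ≠ 0 → D.atq π p.aO ω = D.atq π p.aO ω' → D.atq π p.aC ω = D.atq π p.aC ω' →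
    |D.fsVn π p ω' - D.fsVn π p ω| ≤ B * (D.s ^ p.h) ^ p.c
  /-- ... and `(V_d + θ' V_n)_{c+1}`, single centres -/
  g1d : ∀ ω ω', (D.P 1).p ω ≠ 0 → (D.P 1).p ω' ≠ 0 → D.atq π p.aO ω = D.atq π p.aO ω' → D.atq π p.aC ω = D.atq π p.aC ω' →
    |(D.fsVd π p ω' - D.fsVd π p ω) + D.fsTh π p ω * (D.fsVn π p ω' - D.fsVn π p ω)| ≤ B * (D.s ^ p.h) ^ (p.c + 1)
  /-- G2: `(C, S_k, V_k)` predict `C^k` -/
  g2 : ∀ k ∈ Kg, (D.P 1).NVal (fun _ => True) (D.atq π (p.aCk k)) (D.ats π (p.aV k :: p.LA k)) N0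
  /-- G3: given `X^(v+K_* h)`, `(O, C)` list `S_k` at the cost `(k_R - 1) h + (2 k_R - 1) h` -/
  g3 : ∀ k ∈ Kg, (D.P 1).NVal (fun _ => True) (D.atq π (p.aS k)) (D.ats π [p.aX, p.aO, p.aC])
    (N0 * D.s ^ (-((3 * p.kR k - 2) * p.h)))
  /-- `O` refines `C` -/
  ref_O : (D.P 1).NVal (fun _ => True) (D.atq π p.aC) (D.atq π p.aO) N0
  /-- the data `S_k` refine with `k` -/
  ref_S : ∀ k ∈ Kg, ∀ k' ∈ Kg, k ≤ k' → (D.P 1).NVal (fun _ => True) (D.atq π (p.aS k)) (D.ats π (p.LA k')) N0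

/-- **the typical time scores** given `(y_0, C, S_k)`: time bins at the `δ`-depth `y = c + 1 - z ∈ [0,1]` have the score `≥ d y` -/
def FsTime (D : SfDoc) (π : SfPar) (p : FsPt) (ε : ℝ) (Kg : Finset ℝ) : Prop :=
  ∀ k ∈ Kg, ∀ z ∈ Kg, (D.P 1).pr (fun ω => (D.P 1).surC (D.tc (p.a + (p.c + 1 - z) * p.h)) (pair D.y0 (D.ats π (p.LA k))) ω
    < (π.d * (p.c + 1 - z) - ε) * lg (D.s ^ p.h)) ≤ ε

theorem fs_defs_eqns_cite : True := by
  have := @FsPt.kR.eq_1; have := @FsPt.qg.eq_1; have := @FsPt.aC.eq_1; have := @FsPt.aO.eq_1; have := @FsPt.aCk.eq_1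
  have := @FsPt.aX.eq_1; have := @FsPt.aS.eq_1; have := @FsPt.aV.eq_1; have := @FsPt.LA.eq_1
  have := @NmRaw.fsTh.eq_1; have := @NmRaw.fsVn.eq_1; have := @NmRaw.fsVd.eq_1
  have := @SfDoc.fsTh.eq_1; have := @SfDoc.fsVn.eq_1; have := @SfDoc.fsVd.eq_1; have := @FsTime.eq_1
  trivial

end

end Claimed.Agent.R256
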