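import Claimed.Agent.R256.Act.FsDefs
import Claimed.Agent.R256.Nm.Pro.Alph

/-!
# Row 256, section Act, unit FS (Lemma act:finite-step, 06 l.681-846), file 3: FROM ONE LAW TO THE PROFILES; **`fs_step`** = (step)      (architect helper277)

`FsHyp S Ds p Kg nx μ B` = everything `fs_step` consumes: a flat sequence, admissible atoms, the grid, `FsGeo` (GEO, helper209) and `FsTime` for `uf`-most configurations.
`S.HA L L'` = `lim H_s (L | L')` for lists of atoms.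
CHAIN (all leaves are paper free: R255/Ent, R255/Base/Ulim, cells `nmCell` of Nm/Defs, Nm/Geo/Cell):
 `fs_ubdd` (polynomially many values) ; `fs_HA_H`, `fs_HA_X` (links to `S.H`, `S.HC`) ;
 `fs_cells` (θ', time cells) + `fs_ball_nm` (`fs_ball` + cells of `V`) + `FsGeo` + `FsTime` ⟹ `fs_core_nm` : `FsCore` on `S.D n` ⟹ (`fs_core`) `fs_sh_lim` = (sh) ;
 `fs_chain_lim` : `H(O) - H(C^k) ≥ H(O|A) - H(V_k|A) - M_X - (3 k_R - 2) h` ;   `fs_mono_lim` : the increments of `D(z|k)` in `z` decrease with `k` ;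
 `fs_step` (PROVED from these + `fs_fixpt`) : some `k ∈ 𝒦` has `E^g(a+h,v) - E^g(a,v+k_R h) ≥ Γ h - M_X`.
-/

set_option autoImplicit false

namespace Claimed.Agent.R256

open Claimed.Agent.R255
open Claimed.Agent.R255.FLaw (pair)
open Filter Topology
open Classical

noncomputable section

/-- `lim H_s (L | L')` for lists of atomic queries -/
def NmSeq.HA {π : SfPar} {C0 : ℝ} {κ : ℝ → ℝ} (S : NmSeq π C0 κ) (L L' : List NmAt) : ℝ := S.HC (S.ats L) (S.ats L')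

/-- the hypotheses of `fs_step` -/
structure FsHyp {π : SfPar} {C0 : ℝ} {κ : ℝ → ℝ} (S : NmSeq π C0 κ) (Ds : Set ℝ) (p : FsPt) (Kg : Finset ℝ) (nx : ℝ → ℝ) (μ B : ℝ) : Prop where
  val : π.Valid
  flat : S.Flat Ds
  h0 : 0 < p.h
  B0 : 0 < B
  μ0 : 0 ≤ μ
  g_mem : ∀ z ∈ Kg, p.c ≤ z ∧ z ≤ p.c + 1
  g_bot : p.c ∈ Kg
  g_top : p.c + 1 ∈ Kg
  g_nx : ∀ z ∈ Kg, z < p.c + 1 → nx z ∈ Kg ∧ z < nx z ∧ nx z ≤ z + μ
  okC : p.aC.Ok π Ds
  okO : p.aO.Ok π Ds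
  okK : ∀ k ∈ Kg, (p.aCk k).Ok π Ds ∧ (p.aS k).Ok π Ds ∧ (p.aV k).Ok π Ds
  geo : ∀ acc : ℝ, 0 < acc → ∀ᶠ n in uf, FsGeo (S.D n) π p B ((S.D n).s ^ (-acc)) Kg
  time : ∀ ε : ℝ, 0 < ε → ∀ᶠ n in uf, FsTime (S.D n) π p ε Kg

theorem fs_lim_eqns_cite : True := by
  have := @NmSeq.HA.eq_1
  trivial

section lim

variable {π : SfPar} {C0 : ℝ} {κ : ℝ → ℝ} (S : NmSeq π C0 κ)

/-- LEAF L-256-FSL-UB.   EST 400 lines.   Lists of atoms without the particle take polynomially many values on the charged rows: every entry is a cell `nmCell s b x` with `|x| ≤ s^(-C)` (`(S.fine n 1 _).ok.core.bdd`, `own`; polynomial expressions of the raw data), so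
`ent ≤ log card ≤ C' lgs` (`ent_le_log_card`).   `C'` depends on the list only.   (`lgs > 0`, `→ ∞` : `s ≤ t n → 0`.) -/
theorem fs_ubdd (hπ : π.Valid) (L : List NmAt) (hL : ∀ x ∈ L, x ≠ NmAt.y0) :
    UBdd (fun n => ((S.D n).P 1).ent ((S.D n).ats π L) / (S.D n).lgs) := by
  obtain ⟨A, hA⟩ := nm_pro_alph S L hL
  exact nm_pro_ubdd_ent hA

/-- LEAF L-256-FSL-LK.   EST 120 lines.   `ent_entC_congr`-type: the list `[x]` and the observation have the same kernel; the empty list is constant. -/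
theorem fs_HA_H (q : NmQ) (a v : ℝ) : S.HA [NmAt.nm q a v] [] = S.H q a v := by
  unfold NmSeq.HA NmSeq.H NmSeq.HC NmSeq.Hn
  congr 1
  funext n
  congr 1
  have e1 : S.ats [] n = fun _ => ([] : List (NmVl (S.D n).Idx)) := rfl
  rw [e1, ent_entC_const]
  refine ent_congr_ker _ _ _ fun ω ω' _ _ => ?_
  show [(Sum.inl ((S.D n).nm π q a v ω) : NmVl (S.D n).Idx)] = [Sum.inl ((S.D n).nm π q a v ω')] ↔ (S.D n).nm π q a v ω = (S.D n).nm π q a v ω'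
  simp

/-- LEAF L-256-FSL-LK (same leaf). -/
theorem fs_HA_X (q : NmQ) (a v x : ℝ) : S.HA [NmAt.Xc x] [NmAt.nm q a v] = S.HC (S.Xc x) (S.nm q a v) := by
  unfold NmSeq.HA NmSeq.HC
  congr 1
  funext n
  congr 1
  refine ent_entC_congr _ _ _ _ _ (fun ω ω' _ _ => ?_) (fun ω ω' _ _ _ => ?_)
  · show [(Sum.inl ((S.D n).nm π q a v ω) : NmVl (S.D n).Idx)] = [Sum.inl ((S.D n).nm π q a v ω')] ↔ (S.D n).nm π q a v ω = (S.D n).nm π q a v ω'
    simp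
  · show [(Sum.inr (Sum.inl ((S.D n).Xc x ω)) : NmVl (S.D n).Idx)] = [Sum.inr (Sum.inl ((S.D n).Xc x ω'))] ↔ (S.D n).Xc x ω = (S.D n).Xc x ω'
    simp

end lim

/-- the cell of the left end point of a cell is the cell -/
theorem fs_cell_rep (s b x : ℝ) : nmCell s b (nmRep s b x) = nmCell s b x := by
  have hp : (0 : ℝ) < (2 : ℝ) ^ nmLev s b := by positivity
  have h : nmRep s b x * (2 : ℝ) ^ nmLev s b = ((nmCell s b x : ℤ) : ℝ) := by
    unfold nmRep; field_simp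
  show ⌊nmRep s b x * (2 : ℝ) ^ nmLev s b⌋ = nmCell s b x
  rw [h, Int.floor_intCast]

/-- nested cells: the coarse cell of the fine left end point -/
theorem fs_cell_rep_nest {s : ℝ} (h0 : 0 < s) (h1 : s < 1) {b b' : ℝ} (h : b ≤ b') (x : ℝ) :
    nmCell s b (nmRep s b' x) = nmCell s b x :=
  nm_cell_nest h0 h1 h (fs_cell_rep s b' x)

/-- the left end points increase with the depth -/
theorem fs_rep_mono {s : ℝ} (h0 : 0 < s) (h1 : s < 1) {b b' : ℝ} (h : b ≤ b') (x : ℝ) :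
    nmRep s b x ≤ nmRep s b' x := by
  have h2 : nmRep s b x = nmRep s b (nmRep s b' x) := by
    show (nmCell s b x : ℝ) / (2 : ℝ) ^ nmLev s b = (nmCell s b (nmRep s b' x) : ℝ) / (2 : ℝ) ^ nmLev s b
    rw [fs_cell_rep_nest h0 h1 h x]
  rw [h2]; exact nm_rep_le s b _

/-- the values of a floor on an interval of length `< 4` -/
theorem fs_floor_five (u : ℝ) : ∃ T : Finset ℤ, T.card ≤ 5 ∧ ∀ z : ℝ, u ≤ z → z < u + 4 → ⌊z⌋ ∈ T := by
  refine ⟨Finset.Icc ⌊u⌋ (⌊u⌋ + 4), by simp; omega, fun z h1 h2 => ?_⟩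
  rw [Finset.mem_Icc]
  refine ⟨Int.floor_mono h1, ?_⟩
  have h3 : z < ((⌊u⌋ + 4 : ℤ) : ℝ) + 1 := by
    push_cast
    linarith [Int.floor_le u, Int.lt_floor_add_one u]
  have := Int.floor_lt.2 (show z < ((⌊u⌋ + 4 + 1 : ℤ) : ℝ) by push_cast; push_cast at h3; linarith)
  omega

/-- LEAF L-256-FSL-CELL.   EST 350 lines, cells only (`nmLev`, `nmCell`, `nmRep`; Nm/Geo/Cell.lean).   `θ' ∈ [0,1]`; `θ'` and the cell `t_{a+h}` are read on the entries `t` of `O` and `C`;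
the cell of `T` at a depth `a + y h ≤ a + h` is the cell of `t_{a+h}` (nested dyadic cells), its mesh in `θ'`-units lies in `(δ^y / 2, δ^y]`: an interval of radius `δ^y` meets at most `5` cells. -/
theorem fs_cells (D : SfDoc) (π : SfPar) (p : FsPt) (hs : 0 < D.s ∧ D.s < 1) (hh : 0 < p.h) :
    (∀ ω, |D.fsTh π p ω| ≤ 1) ∧
    (∀ ω ω', D.atq π p.aO ω = D.atq π p.aO ω' → D.atq π p.aC ω = D.atq π p.aC ω' →
      D.fsTh π p ω = D.fsTh π p ω' ∧ D.tc (p.a + (p.c + 1 - p.c) * p.h) ω = D.tc (p.a + (p.c + 1 - p.c) * p.h) ω') ∧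
    (∀ y : ℝ, 0 ≤ y → y ≤ 1 → ∀ (x : ℝ) (ω0 : D.Row 1), ∃ T : Finset ℤ, T.card ≤ 5 ∧
      ∀ ω, D.atq π p.aC ω = D.atq π p.aC ω0 → |D.fsTh π p ω - x| ≤ (D.s ^ p.h) ^ y → D.tc (p.a + y * p.h) ω ∈ T) := by
  obtain ⟨h0, h1⟩ := hs
  have hsa : 0 < D.s ^ p.a := Real.rpow_pos_of_pos h0 _
  have hth : ∀ ω, D.fsTh π p ω = (nmRep D.s (p.a + p.h) (D.T 1 ω) - nmRep D.s p.a (D.T 1 ω)) / D.s ^ p.a := fun ω => rfl
  have hC : ∀ ω ω', D.atq π p.aC ω = D.atq π p.aC ω' → nmCell D.s p.a (D.T 1 ω) = nmCell D.s p.a (D.T 1 ω') := by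
    intro ω ω' h
    have h2 : D.nm π (p.qg p.g) p.a p.v ω = D.nm π (p.qg p.g) p.a p.v ω' := Sum.inl.inj h
    exact congrArg NmNm.t h2
  have hO : ∀ ω ω', D.atq π p.aO ω = D.atq π p.aO ω' →
      nmCell D.s (p.a + p.h) (D.T 1 ω) = nmCell D.s (p.a + p.h) (D.T 1 ω') := by
    intro ω ω' h
    have h2 : D.nm π (p.qg p.g) (p.a + p.h) p.v ω = D.nm π (p.qg p.g) (p.a + p.h) p.v ω' := Sum.inl.inj h
    exact congrArg NmNm.t h2
  refine ⟨fun ω => ?_, fun ω ω' hOo hCc => ⟨?_, ?_⟩, fun y hy0 hy1 x ω0 => ?_⟩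
  · rw [hth, abs_le]
    have e1 := fs_rep_mono h0 h1 (show p.a ≤ p.a + p.h by linarith) (D.T 1 ω)
    have e2 := nm_rep_le D.s (p.a + p.h) (D.T 1 ω)
    have e3 := nm_rep_lt D.s p.a (D.T 1 ω)
    have e4 := nm_wd_le h0 h1 p.a
    constructor
    · have : 0 ≤ (nmRep D.s (p.a + p.h) (D.T 1 ω) - nmRep D.s p.a (D.T 1 ω)) / D.s ^ p.a :=
        div_nonneg (by linarith) hsa.le
      linarith
    · rw [div_le_one hsa]; linarith
  · rw [hth, hth]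
    unfold nmRep
    rw [hO ω ω' hOo, hC ω ω' hCc]
  · have e : p.a + (p.c + 1 - p.c) * p.h = p.a + p.h := by ring
    rw [e]
    exact hO ω ω' hOo
  · set b : ℝ := p.a + y * p.h with hb
    have hba : b ≤ p.a + p.h := by rw [hb]; nlinarith
    set M : ℝ := (2 : ℝ) ^ nmLev D.s b with hM
    have hMpos : 0 < M := by positivity
    have hsb : 0 < D.s ^ b := Real.rpow_pos_of_pos h0 _
    have hM2 : M * D.s ^ b < 2 := by
      have := nm_wd_gt h0 h1 b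
      unfold nmWd at this
      rw [← hM] at this
      calc M * D.s ^ b < M * (2 * M⁻¹) := mul_lt_mul_of_pos_left this hMpos
        _ = 2 := by field_simp
    have hpw : D.s ^ p.a * (D.s ^ p.h) ^ y = D.s ^ b := by
      rw [← Real.rpow_mul h0.le, ← Real.rpow_add h0, hb]; congr 1; ring
    set t0 : ℝ := nmRep D.s p.a (D.T 1 ω0) with ht0
    obtain ⟨T, hT5, hT⟩ := fs_floor_five ((t0 + D.s ^ p.a * x - D.s ^ b) * M)
    refine ⟨T, hT5, fun ω hCc hx => ?_⟩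
    have hta : nmRep D.s p.a (D.T 1 ω) = t0 := by
      rw [ht0]; unfold nmRep; rw [hC ω ω0 hCc]
    have hcell : D.tc b ω = ⌊nmRep D.s (p.a + p.h) (D.T 1 ω) * M⌋ :=
      (fs_cell_rep_nest h0 h1 hba (D.T 1 ω)).symm
    rw [hcell]
    have hrep : nmRep D.s (p.a + p.h) (D.T 1 ω) = t0 + D.s ^ p.a * D.fsTh π p ω := by
      rw [hth, hta]; field_simp; ring
    rw [abs_le] at hx
    have k1 : D.s ^ p.a * (D.fsTh π p ω - x) ≤ D.s ^ b := by
      rw [← hpw]; exact mul_le_mul_of_nonneg_left hx.2 hsa.le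
    have k2 : - D.s ^ b ≤ D.s ^ p.a * (D.fsTh π p ω - x) := by
      rw [← hpw, ← mul_neg]; exact mul_le_mul_of_nonneg_left hx.1 hsa.le
    apply hT
    · apply mul_le_mul_of_nonneg_right _ hMpos.le
      rw [hrep]; nlinarith
    · rw [hrep]
      have : (t0 + D.s ^ p.a * D.fsTh π p ω) * M ≤ (t0 + D.s ^ p.a * x - D.s ^ b) * M + 2 * (M * D.s ^ b) := by
        have : (t0 + D.s ^ p.a * D.fsTh π p ω) ≤ (t0 + D.s ^ p.a * x - D.s ^ b) + 2 * D.s ^ b := by nlinarith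
        nlinarith
      linarith

theorem fs_aux_nm_ext (m m' : NmNm) (h1 : m.kb = m'.kb) (h2 : m.t = m'.t) (h3 : m.R = m'.R) (h4 : m.k = m'.k) (h5 : m.L = m'.L)
    (h6 : m.X = m'.X) (h7 : m.B = m'.B) (h8 : m.Y = m'.Y) (h9 : m.N = m'.N) (h10 : m.D = m'.D) : m = m' := by
  cases m
  cases m'
  simp_all

/-- given `C`, the refined name and the pair of its entries `(N, D)` determine each other -/
theorem fs_aux_ker (D : SfDoc) (π : SfPar) (p : FsPt) (z : ℝ) (ω ω' : D.Row 1) (hC : D.atq π p.aC ω' = D.atq π p.aC ω) :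
    D.ats π [p.aV z] ω' = D.ats π [p.aV z] ω ↔
      (D.nm π (p.qg (p.g - z * p.h)) p.a p.v ω').N = (D.nm π (p.qg (p.g - z * p.h)) p.a p.v ω).N ∧
      (D.nm π (p.qg (p.g - z * p.h)) p.a p.v ω').D = (D.nm π (p.qg (p.g - z * p.h)) p.a p.v ω).D := by
  have hn : D.nm π (p.qg p.g) p.a p.v ω' = D.nm π (p.qg p.g) p.a p.v ω := Sum.inl.inj hC
  constructor
  · intro h
    have hm : D.nm π (p.qg (p.g - z * p.h)) p.a p.v ω' = D.nm π (p.qg (p.g - z * p.h)) p.a p.v ω :=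
      Sum.inl.inj (List.cons.inj h).1
    exact ⟨congrArg NmNm.N hm, congrArg NmNm.D hm⟩
  · rintro ⟨a1, a2⟩
    have k1 := congrArg NmNm.kb hn
    have k2 := congrArg NmNm.t hn
    have k3 := congrArg NmNm.R hn
    have k4 := congrArg NmNm.k hn
    have k5 := congrArg NmNm.L hn
    have k6 := congrArg NmNm.X hn
    have k7 := congrArg NmNm.B hn
    have k8 := congrArg NmNm.Y hn
    have hm : D.nm π (p.qg (p.g - z * p.h)) p.a p.v ω' = D.nm π (p.qg (p.g - z * p.h)) p.a p.v ω :=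
      fs_aux_nm_ext _ _ k1 k2 k3 k4 k5 k6 k7 k8 a1 a2
    show [(Sum.inl (D.nm π (p.qg (p.g - z * p.h)) p.a p.v ω') : NmVl D.Idx)] = [Sum.inl (D.nm π (p.qg (p.g - z * p.h)) p.a p.v ω)]
    rw [hm]

/-- real kit: two numbers in the same cell of depth `b0`, whose centred normalised values differ by `≤ 2 B δ^z`, lie in cells of depth `b0 + z h` at the offset `≤ ⌈4B⌉ + 1` -/
theorem fs_aux_cell {s : ℝ} (h0 : 0 < s) (h1 : s < 1) (b0 b h z B x x' : ℝ) (hb : b = b0 + z * h)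
    (hc : nmCell s b0 x' = nmCell s b0 x)
    (hd : |(x' - nmRep s b0 x') / s ^ b0 - (x - nmRep s b0 x) / s ^ b0| ≤ 2 * B * (s ^ h) ^ z) :
    |nmCell s b x' - nmCell s b x| ≤ ((⌈4 * B⌉₊ + 1 : ℕ) : ℤ) := by
  have hp : 0 < s ^ b0 := Real.rpow_pos_of_pos h0 _
  have hr : nmRep s b0 x' = nmRep s b0 x := by
    unfold nmRep
    rw [hc]
  have e1 : (x' - nmRep s b0 x') / s ^ b0 - (x - nmRep s b0 x) / s ^ b0 = (x' - x) / s ^ b0 := by
    rw [hr]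
    ring
  rw [e1, abs_div, abs_of_pos hp, div_le_iff₀ hp] at hd
  have e2 : 2 * B * (s ^ h) ^ z * s ^ b0 = 2 * B * s ^ b := by
    rw [← Real.rpow_mul h0.le, mul_assoc, ← Real.rpow_add h0, hb]
    congr 2
    ring
  rw [e2] at hd
  have h2 := nm_cell_close h0 h1 b b hd
  rw [sub_self, neg_zero, Real.rpow_zero, mul_one] at h2
  have h3 : (4 * B : ℝ) ≤ ⌈4 * B⌉₊ := Nat.le_ceil _
  have h4 : ((|nmCell s b x' - nmCell s b x| : ℤ) : ℝ) ≤ (((⌈4 * B⌉₊ + 1 : ℕ) : ℤ) : ℝ) := by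
    push_cast at h2 ⊢
    linarith
  exact_mod_cast h4

/-- LEAF L-256-FSL-BALL.   EST 400 lines.   The ball hypothesis of `FsCore` from a one sided score of the refined name.   Given `A ∋ C`, the name `aV z` and the pair `Vc` of its entries `(N, D)` determine each other (the other entries are those of `C`);
same `C` and `|ΔVn| ≤ 2 B δ^z` give `|ΔN| ≤ R`, `R = ⌈4 B⌉₊ + 1` (mesh of the cells `> s^(w-g+zh) / 2`), likewise `D`;   `fs_ball` with `κ = δ^(Dz - ε')`;   `(2R+1)² δ^(Dz-ε') ≤ δ^(Dz-ε)` is the hypothesis `hR`. -/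
theorem fs_ball_nm (D : SfDoc) (π : SfPar) (p : FsPt) (hs : 0 < D.s ∧ D.s < 1) (hh : 0 < p.h) (B Dz z k ε ε' : ℝ) (hB : 0 < B)
    (hR : (2 * ((⌈4 * B⌉₊ : ℝ) + 1) + 1) ^ 2 * (D.s ^ p.h) ^ (Dz - ε') ≤ (D.s ^ p.h) ^ (Dz - ε))
    (hsc : (D.P 1).pr (fun ω => (D.P 1).surC (D.ats π [p.aV z]) (D.ats π (p.LA k)) ω < (Dz - ε') * lg (D.s ^ p.h)) ≤ ε') :
    (D.P 1).pr (fun ω => (D.s ^ p.h) ^ (Dz - ε) * (D.P 1).fib (D.ats π (p.LA k)) ω
        < fsBall (D.P 1) (D.ats π (p.LA k)) (D.fsVn π p) (D.fsVd π p) (2 * B * (D.s ^ p.h) ^ z) ω)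
      ≤ (1 + (2 * ((⌈4 * B⌉₊ : ℝ) + 1) + 1) ^ 2) * ε' := by
  obtain ⟨hs0, hs1⟩ := hs
  have hδ0 : 0 < D.s ^ p.h := Real.rpow_pos_of_pos hs0 _
  have hκ : 0 < (D.s ^ p.h) ^ (Dz - ε') := Real.rpow_pos_of_pos hδ0 _
  have hAC : ∀ ω ω', D.ats π (p.LA k) ω' = D.ats π (p.LA k) ω → D.atq π p.aC ω' = D.atq π p.aC ω := fun ω ω' h =>
    (List.cons.inj h).1
  obtain ⟨Vc, hVc⟩ : ∃ Vc : D.Row 1 → ℤ × ℤ, Vc = fun ω =>
      ((D.nm π (p.qg (p.g - z * p.h)) p.a p.v ω).N, (D.nm π (p.qg (p.g - z * p.h)) p.a p.v ω).D) := ⟨_, rfl⟩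
  have h1 : (D.P 1).pr (fun ω => (D.s ^ p.h) ^ (Dz - ε') * (D.P 1).fib (D.ats π (p.LA k)) ω <
      (D.P 1).fib (pair Vc (D.ats π (p.LA k))) ω) ≤ ε' := by
    refine le_trans (ent_pr_mono (D.P 1) fun ω hω hlt => ?_) hsc
    have hfA : 0 < (D.P 1).fib (D.ats π (p.LA k)) ω := ent_fib_pos (D.P 1) _ hω
    have e : (D.P 1).fib (pair (D.ats π [p.aV z]) (D.ats π (p.LA k))) ω = (D.P 1).fib (pair Vc (D.ats π (p.LA k))) ω := by
      refine ent_pr_congr (D.P 1) fun ω' _ => ?_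
      show (D.ats π [p.aV z] ω', D.ats π (p.LA k) ω') = (D.ats π [p.aV z] ω, D.ats π (p.LA k) ω) ↔
        (Vc ω', D.ats π (p.LA k) ω') = (Vc ω, D.ats π (p.LA k) ω)
      rw [Prod.mk.injEq, Prod.mk.injEq, hVc]
      constructor
      · rintro ⟨a1, a2⟩
        have := (fs_aux_ker D π p z ω ω' (hAC ω ω' a2)).1 a1
        exact ⟨Prod.ext this.1 this.2, a2⟩
      · rintro ⟨a1, a2⟩
        exact ⟨(fs_aux_ker D π p z ω ω' (hAC ω ω' a2)).2 ⟨congrArg Prod.fst a1, congrArg Prod.snd a1⟩, a2⟩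
    unfold FLaw.surC
    rw [e]
    have h2 : (D.s ^ p.h) ^ (Dz - ε') < (D.P 1).fib (pair Vc (D.ats π (p.LA k))) ω / (D.P 1).fib (D.ats π (p.LA k)) ω := by
      rwa [lt_div_iff₀ hfA]
    have h3 := Real.log_lt_log hκ h2
    have h4 : Real.log ((D.s ^ p.h) ^ (Dz - ε')) = -((Dz - ε') * lg (D.s ^ p.h)) := by
      rw [Real.log_rpow hδ0]
      unfold lg
      rw [one_div, Real.log_inv]
      ring
    linarith
  have h2 := fs_ball (D.P 1) (D.ats π (p.LA k)) Vc ((D.s ^ p.h) ^ (Dz - ε')) ε' (⌈4 * B⌉₊ + 1) hκ h1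
  have eR : ((⌈4 * B⌉₊ + 1 : ℕ) : ℝ) = (⌈4 * B⌉₊ : ℝ) + 1 := by push_cast; ring
  rw [eR] at h2
  refine le_trans (ent_pr_mono (D.P 1) fun ω hω hlt => ?_) h2
  have hfA : 0 ≤ (D.P 1).fib (D.ats π (p.LA k)) ω := (ent_fib_pos (D.P 1) _ hω).le
  calc (2 * ((⌈4 * B⌉₊ : ℝ) + 1) + 1) ^ 2 * (D.s ^ p.h) ^ (Dz - ε') * (D.P 1).fib (D.ats π (p.LA k)) ω
      ≤ (D.s ^ p.h) ^ (Dz - ε) * (D.P 1).fib (D.ats π (p.LA k)) ω := mul_le_mul_of_nonneg_right hR hfA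
    _ < fsBall (D.P 1) (D.ats π (p.LA k)) (D.fsVn π p) (D.fsVd π p) (2 * B * (D.s ^ p.h) ^ z) ω := hlt
    _ ≤ _ := by
      unfold fsBall
      refine ent_pr_mono (D.P 1) fun ω' _ hω' => ?_
      obtain ⟨a1, a2, a3⟩ := hω'
      have hn : D.nm π (p.qg p.g) p.a p.v ω' = D.nm π (p.qg p.g) p.a p.v ω := Sum.inl.inj (hAC ω ω' a1)
      rw [hVc]
      refine ⟨a1, ?_, ?_⟩
      · exact fs_aux_cell hs0 hs1 (p.q.w π p.a p.v - p.g) (p.q.w π p.a p.v - (p.g - z * p.h)) p.h z B _ _ (by ring)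
          (congrArg NmNm.N hn) a2
      · exact fs_aux_cell hs0 hs1 (p.a + p.q.w π p.a p.v - p.g) (p.a + p.q.w π p.a p.v - (p.g - z * p.h)) p.h z B _ _ (by ring)
          (congrArg NmNm.D hn) a3

/-- LEAF L-256-FSL-CORE.   EST 250 lines.   `FsCore` on one configuration: fields from `FsGeo` (equal lists `ats (LA k)` give equal `atq aC`), `FsTime`, `fs_cells` (`y = c + 1 - z ∈ [0,1]`), the ball hypothesis. -/
theorem fs_core_nm (D : SfDoc) (π : SfPar) (p : FsPt) (hs : 0 < D.s ∧ D.s < 1) (hh : 0 < p.h) (hd : 0 ≤ π.d) (B N0 μ ε k : ℝ) (Kg : Finset ℝ)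
    (nx Dz : ℝ → ℝ) (hB : 0 < B) (hμ : 0 ≤ μ) (hε : 0 < ε ∧ ε ≤ 1) (hk : k ∈ Kg)
    (g_mem : ∀ z ∈ Kg, p.c ≤ z ∧ z ≤ p.c + 1) (g_bot : p.c ∈ Kg) (g_top : p.c + 1 ∈ Kg)
    (g_nx : ∀ z ∈ Kg, z < p.c + 1 → nx z ∈ Kg ∧ z < nx z ∧ nx z ≤ z + μ)
    (hG : FsGeo D π p B N0 Kg) (hT : FsTime D π p ε Kg)
    (hb : ∀ z ∈ Kg, (D.P 1).pr (fun ω => (D.s ^ p.h) ^ (Dz z - ε) * (D.P 1).fib (D.ats π (p.LA k)) ω
        < fsBall (D.P 1) (D.ats π (p.LA k)) (D.fsVn π p) (D.fsVd π p) (2 * B * (D.s ^ p.h) ^ z) ω) ≤ ε) :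
    FsCore (D.P 1) (D.ats π (p.LA k)) D.y0 (D.ats π [p.aO]) (D.fsTh π p) (D.fsVn π p) (D.fsVd π p)
      (fun z => D.tc (p.a + (p.c + 1 - z) * p.h)) (D.s ^ p.h) B p.c π.d μ ε Kg nx Dz := by
  obtain ⟨c1, c2, c3⟩ := fs_cells D π p hs hh
  have hO : ∀ ω ω', D.ats π [p.aO] ω = D.ats π [p.aO] ω' → D.atq π p.aO ω = D.atq π p.aO ω' := fun ω ω' h =>
    (List.cons.inj h).1
  have hA : ∀ ω ω', D.ats π (p.LA k) ω = D.ats π (p.LA k) ω' → D.atq π p.aC ω = D.atq π p.aC ω' := fun ω ω' h =>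
    (List.cons.inj h).1
  exact
    { δ0 := Real.rpow_pos_of_pos hs.1 _
      δ1 := Real.rpow_lt_one hs.1.le hs.2 hh
      B0 := hB
      d0 := hd
      μ0 := hμ
      ε0 := hε.1
      ε1 := hε.2
      g_mem := g_mem
      g_bot := g_bot
      g_top := g_top
      g_nx := g_nx
      θ_bd := fun ω _ => c1 ω
      θ_fun := fun ω ω' _ _ h1 h2 => (c2 ω ω' (hO ω ω' h1) (hA ω ω' h2)).1
      T_fun := fun ω ω' _ _ h1 h2 => (c2 ω ω' (hO ω ω' h1) (hA ω ω' h2)).2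
      V_fun := fun ω ω' h h' h1 h2 => hG.V_fun ω ω' h h' h1 (hA ω ω' h2)
      g1n := fun ω ω' h h' h1 h2 => hG.g1n ω ω' h h' (hO ω ω' h1) (hA ω ω' h2)
      g1d := fun ω ω' h h' h1 h2 => hG.g1d ω ω' h h' (hO ω ω' h1) (hA ω ω' h2)
      cov := fun z hz x ω0 => by
        obtain ⟨T, hT1, hT2⟩ := c3 (p.c + 1 - z) (by linarith [(g_mem z hz).2]) (by linarith [(g_mem z hz).1]) x ω0
        exact ⟨T, hT1, fun ω _ h1 h2 => hT2 ω (hA ω ω0 h1) h2⟩
      time := fun z hz => hT k hk z hz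
      ball := hb }

/-! ### auxiliary lemmas of the leaves L-256-FSL-CH, L-256-FSL-MO (helper116) -/

/-- the chain rule of (step) on one law -/
theorem fs_ch_one {Ω : Type} [Fintype Ω] {α1 α2 α3 α4 α5 α6 : Type} (P : FLaw Ω) (O : Ω → α1) (C : Ω → α2) (X : Ω → α3)
    (Sk : Ω → α4) (V : Ω → α5) (Ck : Ω → α6) {N0 N1 : ℝ}
    (hO : P.NVal (fun _ => True) C O N0)
    (h3 : P.NVal (fun _ => True) Sk (pair X (pair O C)) N1)
    (h2 : P.NVal (fun _ => True) Ck (pair V (pair C (pair X Sk))) N0) :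
    P.entC O (pair C (pair X Sk)) - P.entC V (pair C (pair X Sk)) - P.entC X C - Real.log N1 - 2 * Real.log N0
      ≤ P.ent O - P.ent Ck := by
  have a1 : P.ent (pair C O) - P.ent O ≤ Real.log N0 := ent_entC_le_log_nval P C O hO
  have a2 : P.ent (pair Sk (pair X (pair O C))) - P.ent (pair X (pair O C)) ≤ Real.log N1 :=
    ent_entC_le_log_nval P Sk _ h3
  have a3 : P.ent (pair Ck (pair V (pair C (pair X Sk)))) - P.ent (pair V (pair C (pair X Sk))) ≤ Real.log N0 :=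
    ent_entC_le_log_nval P Ck _ h2
  have b1 : P.ent Ck ≤ P.ent (pair Ck (pair V (pair C (pair X Sk)))) := ent_le_pair_left P _ _
  have b2 : P.ent (pair O (pair C (pair X Sk))) = P.ent (pair Sk (pair X (pair O C))) := by
    refine ent_congr_ker P _ _ fun ω ω' _ _ => ?_
    simp only [FLaw.pair, Prod.mk.injEq]
    tauto
  have b3 : P.ent (pair X (pair O C)) - P.ent (pair O C) ≤ P.ent (pair X C) - P.ent C :=
    ent_entC_anti P X (pair O C) C fun ω ω' _ _ h => congrArg Prod.snd h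
  have b4 : P.ent (pair O C) = P.ent (pair C O) := ent_pair_comm P O C
  show (P.ent (pair O (pair C (pair X Sk))) - P.ent (pair C (pair X Sk)))
      - (P.ent (pair V (pair C (pair X Sk))) - P.ent (pair C (pair X Sk))) - (P.ent (pair X C) - P.ent C)
      - Real.log N1 - 2 * Real.log N0 ≤ P.ent O - P.ent Ck
  linarith

/-- the increments decrease under refinement of the condition, on one law -/
theorem fs_mo_one {Ω : Type} [Fintype Ω] {α1 α2 α3 α4 : Type} (P : FLaw Ω) (V1 : Ω → α1) (V2 : Ω → α2) (A : Ω → α3)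
    (A' : Ω → α4) {N0 : ℝ} (hV : ∀ ω ω', V2 ω = V2 ω' → V1 ω = V1 ω') (hA : P.NVal (fun _ => True) A A' N0) :
    P.entC V2 A' - P.entC V1 A' ≤ P.entC V2 A - P.entC V1 A + Real.log N0 := by
  have key : ∀ {β : Type} (Z : Ω → β), P.entC V2 Z - P.entC V1 Z = P.entC V2 (pair V1 Z) := by
    intro β Z
    have e : P.ent (pair V2 (pair V1 Z)) = P.ent (pair V2 Z) := by
      refine ent_congr_ker P _ _ fun ω ω' _ _ => ?_
      simp only [FLaw.pair, Prod.mk.injEq]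
      exact ⟨fun h => ⟨h.1, h.2.2⟩, fun h => ⟨h.1, hV ω ω' h.1, h.2⟩⟩
    show (P.ent (pair V2 Z) - P.ent Z) - (P.ent (pair V1 Z) - P.ent Z) = P.ent (pair V2 (pair V1 Z)) - P.ent (pair V1 Z)
    rw [e]
    ring
  rw [key A', key A]
  have c1 : P.entC V2 (pair V1 A') ≤ P.entC (pair A V2) (pair V1 A') :=
    ent_entC_mono P (pair A V2) V2 _ fun ω ω' _ _ h _ => congrArg Prod.snd h
  have c2 := ent_entC_chain P A V2 (pair V1 A')
  have c3 : P.entC A (pair V1 A') ≤ P.entC A A' :=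
    ent_entC_anti P A (pair V1 A') A' fun ω ω' _ _ h => congrArg Prod.snd h
  have c4 : P.entC V2 (pair A (pair V1 A')) ≤ P.entC V2 (pair V1 A) := by
    refine ent_entC_anti P V2 _ _ fun ω ω' _ _ h => ?_
    simp only [FLaw.pair, Prod.mk.injEq] at h ⊢
    exact ⟨h.2.1, h.1⟩
  have c5 := ent_entC_le_log_nval P A A' hA
  linarith

/-- `NVal` depends on the condition only through its kernel -/
theorem fs_ch_nval {Ω : Type} [Fintype Ω] {α α' β : Type} (P : FLaw Ω) (B : Ω → β) (A : Ω → α) (A' : Ω → α') {N : ℝ}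
    (h : ∀ ω ω', A' ω = A' ω' → A ω = A ω') (hN : P.NVal (fun _ => True) B A N) : P.NVal (fun _ => True) B A' N := by
  intro ω₀
  obtain ⟨S, hS, hm⟩ := hN ω₀
  exact ⟨S, hS, fun ω hω hE hA => hm ω hω hE (h ω ω₀ hA)⟩

/-- passage to the ultralimit with a vanishing error -/
theorem fs_ch_lim (x y : ℕ → ℝ) (c : ℝ) (hx : UBdd x) (hy : UBdd y)
    (h : ∀ acc : ℝ, 0 < acc → ∀ᶠ n in uf, x n ≤ y n + c * acc) : ulim x ≤ ulim y := by
  by_cases hc : 0 < c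
  · refine le_of_forall_pos_le_add fun e he => ?_
    have h1 := h (e / c) (div_pos he hc)
    have h2 : ulim x ≤ ulim (fun n => y n + e) := by
      refine ulim_le x _ hx (hy.add ⟨|e|, Eventually.of_forall fun _ => le_rfl⟩) ?_
      filter_upwards [h1] with n hn
      rwa [mul_div_cancel₀ _ hc.ne'] at hn
    rw [ulim_add y (fun _ => e) hy ⟨|e|, Eventually.of_forall fun _ => le_rfl⟩, ulim_const] at h2
    exact h2
  · refine ulim_le x y hx hy ?_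
    filter_upwards [h 1 one_pos] with n hn
    have : c * 1 ≤ 0 := by linarith
    linarith

section lim2a

variable {π : SfPar} {C0 : ℝ} {κ : ℝ → ℝ}

theorem fs_ch_s (S : NmSeq π C0 κ) (n : ℕ) : 0 < (S.D n).s ∧ (S.D n).s < 1 := (S.fine n 1 one_pos).ok.core.hs

theorem fs_ch_lgs_pos (S : NmSeq π C0 κ) (n : ℕ) : 0 < (S.D n).lgs := by
  obtain ⟨h0, h1⟩ := fs_ch_s S n
  show 0 < Real.log (1 / (S.D n).s)
  exact Real.log_pos (by rw [lt_div_iff₀ h0]; linarith)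

theorem fs_ch_log (D : SfDoc) (h0 : 0 < D.s) (e : ℝ) : Real.log (D.s ^ (-e)) = e * D.lgs := by
  show _ = e * Real.log (1 / D.s)
  rw [Real.log_rpow h0, one_div, Real.log_inv]
  ring

theorem fs_ch_ubdd (S : NmSeq π C0 κ) (hπ : π.Valid) (L L' : List NmAt) (hL : ∀ x ∈ L, x ≠ NmAt.y0) :
    UBdd (fun n => ((S.D n).P 1).entC ((S.D n).ats π L) ((S.D n).ats π L') / (S.D n).lgs) := by
  obtain ⟨C, hC⟩ := fs_ubdd S hπ L hL
  refine UBdd.of_le 0 C ?_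
  filter_upwards [hC] with n hn
  have hl := fs_ch_lgs_pos S n
  refine ⟨div_nonneg (ent_entC_nonneg _ _ _) hl.le, le_trans ?_ ((le_abs_self _).trans hn)⟩
  exact div_le_div_of_nonneg_right (ent_entC_le _ _ _) hl.le

theorem fs_ch_e1 (D : SfDoc) (π : SfPar) (a : NmAt) {β : Type} (Z : D.Row 1 → β) :
    (D.P 1).entC (D.ats π [a]) Z = (D.P 1).entC (D.atq π a) Z :=
  ent_entC_congr _ _ _ _ _ (fun _ _ _ _ => Iff.rfl) (fun ω ω' _ _ _ => by
    show [D.atq π a ω] = [D.atq π a ω'] ↔ _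
    simp only [List.cons.injEq, and_true])

theorem fs_ch_e1' (D : SfDoc) (π : SfPar) (a : NmAt) {β : Type} (Y : D.Row 1 → β) :
    (D.P 1).entC Y (D.ats π [a]) = (D.P 1).entC Y (D.atq π a) :=
  ent_entC_congr _ _ _ _ _ (fun ω ω' _ _ => by
    show [D.atq π a ω] = [D.atq π a ω'] ↔ _
    simp only [List.cons.injEq, and_true]) (fun _ _ _ _ _ => Iff.rfl)

theorem fs_ch_e3 (D : SfDoc) (π : SfPar) (a b c : NmAt) {β : Type} (Y : D.Row 1 → β) :
    (D.P 1).entC Y (D.ats π [a, b, c]) = (D.P 1).entC Y (pair (D.atq π a) (pair (D.atq π b) (D.atq π c))) :=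
  ent_entC_congr _ _ _ _ _ (fun ω ω' _ _ => by
    show [D.atq π a ω, D.atq π b ω, D.atq π c ω] = [D.atq π a ω', D.atq π b ω', D.atq π c ω'] ↔
      (D.atq π a ω, D.atq π b ω, D.atq π c ω) = (D.atq π a ω', D.atq π b ω', D.atq π c ω')
    simp only [List.cons.injEq, and_true, Prod.mk.injEq]) (fun _ _ _ _ _ => Iff.rfl)

theorem fs_ch_e0 (D : SfDoc) (π : SfPar) {β : Type} (Y : D.Row 1 → β) : (D.P 1).entC Y (D.ats π []) = (D.P 1).ent Y :=
  ent_entC_const _ Y []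

end lim2a

theorem fs_mo_ext (a b : NmNm) (h1 : a.kb = b.kb) (h2 : a.t = b.t) (h3 : a.R = b.R) (h4 : a.k = b.k) (h5 : a.L = b.L)
    (h6 : a.X = b.X) (h7 : a.B = b.B) (h8 : a.Y = b.Y) (h9 : a.N = b.N) (h10 : a.D = b.D) : a = b := by
  cases a
  cases b
  simp only at h1 h2 h3 h4 h5 h6 h7 h8 h9 h10
  subst h1 h2 h3 h4 h5 h6 h7 h8 h9 h10
  rfl

/-- the refined names are nested -/
theorem fs_mo_nest (D : SfDoc) (π : SfPar) (p : FsPt) (hs : 0 < D.s ∧ D.s < 1) (hh : 0 < p.h) {z1 z2 : ℝ} (hz : z1 ≤ z2)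
    (ω ω' : D.Row 1) (h : D.ats π [p.aV z2] ω = D.ats π [p.aV z2] ω') : D.ats π [p.aV z1] ω = D.ats π [p.aV z1] ω' := by
  have h1 : D.nm π (p.qg (p.g - z2 * p.h)) p.a p.v ω = D.nm π (p.qg (p.g - z2 * p.h)) p.a p.v ω' :=
    Sum.inl.inj (List.head_eq_of_cons_eq h)
  have h2 : D.nm π (p.qg (p.g - z1 * p.h)) p.a p.v ω = D.nm π (p.qg (p.g - z1 * p.h)) p.a p.v ω' := by
    have hzh : z1 * p.h ≤ z2 * p.h := mul_le_mul_of_nonneg_right hz hh.le
    have e1 := congrArg NmNm.kb h1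
    have e2 := congrArg NmNm.t h1
    have e3 := congrArg NmNm.R h1
    have e4 := congrArg NmNm.k h1
    have e5 := congrArg NmNm.L h1
    have e6 := congrArg NmNm.X h1
    have e7 := congrArg NmNm.B h1
    have e8 := congrArg NmNm.Y h1
    refine fs_mo_ext _ _ e1 e2 e3 e4 e5 e6 e7 e8 ?_ ?_
    · exact nm_cell_nest hs.1 hs.2 (b := p.q.w π p.a p.v - (p.g - z1 * p.h)) (b' := p.q.w π p.a p.v - (p.g - z2 * p.h))
        (by linarith) (congrArg NmNm.N h1)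
    · exact nm_cell_nest hs.1 hs.2 (b := p.a + p.q.w π p.a p.v - (p.g - z1 * p.h))
        (b' := p.a + p.q.w π p.a p.v - (p.g - z2 * p.h)) (by linarith) (congrArg NmNm.D h1)
  show [Sum.inl (D.nm π (p.qg (p.g - z1 * p.h)) p.a p.v ω)] = [Sum.inl (D.nm π (p.qg (p.g - z1 * p.h)) p.a p.v ω')]
  rw [h2]

/-- the conditions refine with `k` -/
theorem fs_mo_ref (D : SfDoc) (π : SfPar) (p : FsPt) (k k' N0 : ℝ)
    (h : (D.P 1).NVal (fun _ => True) (D.atq π (p.aS k)) (D.ats π (p.LA k')) N0) :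
    (D.P 1).NVal (fun _ => True) (D.ats π (p.LA k)) (D.ats π (p.LA k')) N0 := by
  intro ω₀
  obtain ⟨T, hT, hm⟩ := h ω₀
  refine ⟨T.image fun x => [D.atq π p.aC ω₀, D.atq π p.aX ω₀, x], le_trans ?_ hT, fun ω hω hE hA => ?_⟩
  · exact_mod_cast Finset.card_image_le
  · have hA' : [D.atq π p.aC ω, D.atq π p.aX ω, D.atq π (p.aS k') ω]
        = [D.atq π p.aC ω₀, D.atq π p.aX ω₀, D.atq π (p.aS k') ω₀] := hA
    simp only [List.cons.injEq, and_true] at hA'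
    refine Finset.mem_image.2 ⟨D.atq π (p.aS k) ω, hm ω hω hE hA, ?_⟩
    show _ = [D.atq π p.aC ω, D.atq π p.aX ω, D.atq π (p.aS k) ω]
    rw [hA'.1, hA'.2.1]

section lim2

variable {π : SfPar} {C0 : ℝ} {κ : ℝ → ℝ} {S : NmSeq π C0 κ} {Ds : Set ℝ} {p : FsPt} {Kg : Finset ℝ} {nx : ℝ → ℝ} {μ B : ℝ}

/-- `lg (s^h) = h lg s` -/
theorem fs_sh_lg {s : ℝ} (hs : 0 < s) (h : ℝ) : lg (s ^ h) = h * lg s := by
  unfold lg
  rw [one_div, one_div, Real.log_inv, Real.log_inv, Real.log_rpow hs]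
  ring

/-- powers of the scales tend to zero -/
theorem fs_sh_pow_lim (S : NmSeq π C0 κ) (x : ℝ) (hx : 0 < x) : Tendsto (fun n => (S.D n).s ^ x) uf (𝓝 0) := by
  have h := S.nm_pro_s_lim.rpow_const (p := x) (Or.inr hx.le)
  rwa [Real.zero_rpow hx.ne'] at h

/-- (sh) with a fixed accuracy -/
theorem fs_sh_eps (H : FsHyp S Ds p Kg nx μ B) (k : ℝ) (hk : k ∈ Kg) (m : ℝ)
    (hm : ∀ z ∈ Kg, m ≤ S.HA [p.aV z] (p.LA k) / p.h + π.d * (p.c + 1 - z)) (ε : ℝ) (hε : 0 < ε) (hε1 : ε ≤ 1)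
    (hεN : (2 * Kg.card + 1) * ε ≤ 1) :
    p.h * ((1 - ε) * (π.d - ε) + ((m - π.d * μ - 3 * ε) - (2 * Kg.card + 1) * ε * |m - π.d * μ - 3 * ε|)) ≤ S.HA [p.aO] (p.LA k) := by
  have hh := H.h0
  obtain ⟨R2, hR2⟩ : ∃ R2 : ℝ, R2 = (2 * ((⌈4 * B⌉₊ : ℝ) + 1) + 1) ^ 2 := ⟨_, rfl⟩
  have hR2pos : 0 < R2 := by rw [hR2]; positivity
  obtain ⟨ε', hε'⟩ : ∃ ε' : ℝ, ε' = ε / (1 + R2) := ⟨_, rfl⟩
  have hε'0 : 0 < ε' := by rw [hε']; positivity
  have hε'e : (1 + R2) * ε' = ε := by rw [hε']; field_simp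
  have hε'lt : ε' < ε := by nlinarith
  have hN : (1 : ℝ) ≤ Kg.card := by
    have : 0 < Kg.card := Finset.card_pos.2 ⟨_, H.g_bot⟩
    exact_mod_cast this
  -- the condition is admissible
  have hLA : ∀ x ∈ p.LA k, x.Ok π Ds := by
    intro x hx
    simp only [FsPt.LA, List.mem_cons, List.not_mem_nil, or_false] at hx
    rcases hx with rfl | rfl | rfl
    · exact H.okC
    · exact trivial
    · exact (H.okK k hk).2.1
  -- scores
  have hsc : ∀ᶠ n in uf, ∀ z ∈ Kg, ((S.D n).P 1).pr (fun ω => ((S.D n).P 1).surC ((S.D n).ats π [p.aV z]) ((S.D n).ats π (p.LA k)) ω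
      < (S.HA [p.aV z] (p.LA k) / p.h - ε') * lg ((S.D n).s ^ p.h)) ≤ ε' := by
    refine (eventually_all_finset Kg).2 fun z hz => ?_
    have hom : S.Hom (S.ats [p.aV z]) (S.ats (p.LA k)) := by
      refine H.flat _ _ ?_ hLA
      intro x hx
      rw [List.mem_singleton] at hx
      subst hx
      exact ⟨by simp [FsPt.aV], (H.okK z hz).2.2⟩
    have h1 := (hom (ε' * p.h) (mul_pos hε'0 hh)).eventually (ge_mem_nhds hε'0)
    filter_upwards [h1] with n hn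
    refine le_trans (ent_pr_mono _ fun ω _ hω => ?_) hn
    have hl := nm_pro_lgs_pos S n
    rw [fs_sh_lg (nm_pro_hs S n).1] at hω
    have h2 : ((S.D n).P 1).surC ((S.D n).ats π [p.aV z]) ((S.D n).ats π (p.LA k)) ω / (S.D n).lgs
        < (S.HA [p.aV z] (p.LA k) / p.h - ε') * p.h := by
      rw [div_lt_iff₀ hl]
      calc _ < _ := hω
        _ = _ := by unfold SfDoc.lgs; ring
    have h3 : (S.HA [p.aV z] (p.LA k) / p.h - ε') * p.h = S.HA [p.aV z] (p.LA k) - ε' * p.h := by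
      field_simp
    rw [h3] at h2
    show ε' * p.h < |((S.D n).P 1).surC ((S.D n).ats π [p.aV z]) ((S.D n).ats π (p.LA k)) ω / (S.D n).lgs - S.HA [p.aV z] (p.LA k)|
    rw [lt_abs]
    right
    linarith
  -- small powers
  have hp1 : ∀ᶠ n in uf, R2 * ((S.D n).s ^ p.h) ^ (ε - ε') ≤ 1 := by
    have h1 := fs_sh_pow_lim S (p.h * (ε - ε')) (mul_pos hh (by linarith))
    have h2 := h1.eventually (ge_mem_nhds (show (0 : ℝ) < 1 / R2 by positivity))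
    filter_upwards [h2] with n hn
    rw [← Real.rpow_mul (nm_pro_hs S n).1.le]
    calc R2 * (S.D n).s ^ (p.h * (ε - ε')) ≤ R2 * (1 / R2) := mul_le_mul_of_nonneg_left hn hR2pos.le
      _ = 1 := by field_simp
  have hp2 : ∀ᶠ n in uf, 5 * (Kg.card : ℝ) * ((S.D n).s ^ p.h) ^ ε ≤ ε := by
    have h1 := fs_sh_pow_lim S (p.h * ε) (mul_pos hh hε)
    have h2 := h1.eventually (ge_mem_nhds (show (0 : ℝ) < ε / (5 * Kg.card) by positivity))
    filter_upwards [h2] with n hn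
    rw [← Real.rpow_mul (nm_pro_hs S n).1.le]
    calc 5 * (Kg.card : ℝ) * (S.D n).s ^ (p.h * ε) ≤ 5 * (Kg.card : ℝ) * (ε / (5 * Kg.card)) :=
          mul_le_mul_of_nonneg_left hn (by positivity)
      _ = ε := by field_simp
  -- boundedness
  have hub : UBdd (fun n => ((S.D n).P 1).entC ((S.D n).ats π [p.aO]) ((S.D n).ats π (p.LA k)) / (S.D n).lgs) := by
    obtain ⟨A, hA⟩ := nm_pro_alph S [p.aO] (by
      intro x hx
      rw [List.mem_singleton] at hx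
      subst hx
      simp [FsPt.aO])
    exact nm_pro_ubdd (S.ats (p.LA k)) hA
  refine const_le_ulim _ _ hub ?_
  filter_upwards [hsc, hp1, hp2, H.geo 1 one_pos, H.time ε hε] with n hsc hp1 hp2 hgeo htime
  have hs := nm_pro_hs S n
  have hl := nm_pro_lgs_pos S n
  obtain ⟨δ, hδ⟩ : ∃ δ : ℝ, δ = (S.D n).s ^ p.h := ⟨_, rfl⟩
  have hδ0 : 0 < δ := by rw [hδ]; exact Real.rpow_pos_of_pos hs.1 _
  have hball : ∀ z ∈ Kg, ((S.D n).P 1).pr (fun ω => ((S.D n).s ^ p.h) ^ (S.HA [p.aV z] (p.LA k) / p.h - ε) * ((S.D n).P 1).fib ((S.D n).ats π (p.LA k)) ω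
        < fsBall ((S.D n).P 1) ((S.D n).ats π (p.LA k)) ((S.D n).fsVn π p) ((S.D n).fsVd π p) (2 * B * ((S.D n).s ^ p.h) ^ z) ω) ≤ ε := by
    intro z hz
    have h1 := fs_ball_nm (S.D n) π p hs hh B (S.HA [p.aV z] (p.LA k) / p.h) z k ε ε' H.B0 (by
      rw [← hR2, ← hδ]
      rw [← hδ] at hp1
      have e : δ ^ (S.HA [p.aV z] (p.LA k) / p.h - ε') = δ ^ (S.HA [p.aV z] (p.LA k) / p.h - ε) * δ ^ (ε - ε') := by
        rw [← Real.rpow_add hδ0]; congr 1; ring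
      rw [e]
      have hpos := Real.rpow_pos_of_pos hδ0 (S.HA [p.aV z] (p.LA k) / p.h - ε)
      calc R2 * (δ ^ (S.HA [p.aV z] (p.LA k) / p.h - ε) * δ ^ (ε - ε'))
          = δ ^ (S.HA [p.aV z] (p.LA k) / p.h - ε) * (R2 * δ ^ (ε - ε')) := by ring
        _ ≤ δ ^ (S.HA [p.aV z] (p.LA k) / p.h - ε) * 1 := mul_le_mul_of_nonneg_left hp1 hpos.le
        _ = _ := mul_one _) (hsc z hz)
    rw [← hR2, hε'e] at h1
    exact h1
  have hcore := fs_core_nm (S.D n) π p hs hh H.val.d1.1.le B _ μ ε k Kg nx (fun z => S.HA [p.aV z] (p.LA k) / p.h) H.B0 H.μ0 ⟨hε, hε1⟩ hk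
    H.g_mem H.g_bot H.g_top H.g_nx hgeo htime hball
  have hfin := fs_core _ hcore m hm (by
    have : 2 * (Kg.card : ℝ) * ε + ε ≤ 1 := by linarith
    linarith)
  rw [fs_sh_lg hs.1] at hfin
  rw [le_div_iff₀ hl]
  refine le_trans ?_ hfin
  rw [← hδ] at hp2 ⊢
  have hδε : 0 ≤ 5 * (Kg.card : ℝ) * δ ^ ε := by
    have := Real.rpow_pos_of_pos hδ0 ε
    positivity
  obtain ⟨lam, hlam⟩ : ∃ lam : ℝ, lam = 2 * (Kg.card : ℝ) * ε + 5 * (Kg.card : ℝ) * δ ^ ε := ⟨_, rfl⟩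
  rw [← hlam]
  have hlam0 : 0 ≤ lam := by rw [hlam]; positivity
  have hlam1 : lam ≤ (2 * Kg.card + 1) * ε := by rw [hlam]; linarith
  obtain ⟨x, hx⟩ : ∃ x : ℝ, x = m - π.d * μ - 3 * ε := ⟨_, rfl⟩
  rw [← hx]
  have h5 : x - (2 * Kg.card + 1) * ε * |x| ≤ (1 - lam) * x := by
    have h6 : lam * x ≤ lam * |x| := mul_le_mul_of_nonneg_left (le_abs_self x) hlam0
    have h7 : lam * |x| ≤ (2 * Kg.card + 1) * ε * |x| := mul_le_mul_of_nonneg_right hlam1 (abs_nonneg x)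
    linarith
  have h8 : 0 < p.h * (S.D n).lgs := mul_pos hh hl
  show p.h * ((1 - ε) * (π.d - ε) + (x - (2 * Kg.card + 1) * ε * |x|)) * (S.D n).lgs
    ≤ (1 - ε) * ((π.d - ε) * (p.h * lg (S.D n).s)) + (1 - lam) * (x * (p.h * lg (S.D n).s))
  have e9 : lg (S.D n).s = (S.D n).lgs := rfl
  rw [e9]
  nlinarith [mul_le_mul_of_nonneg_left h5 h8.le]

/-- LEAF L-256-FSL-SH.   EST 450 lines.   **(sh) for the profiles.**   Fix `ε`.   `Dz z := S.HA [aV z] (LA k) / h`.   `flat` gives `S.Hom (ats [aV z]) (ats (LA k))`: for `uf`-most `n` the score is `≥ (Dz z - ε') h lgs` off an event of mass `ε'`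
(`lg (s^h) = h lgs`); `fs_ball_nm` (`hR` holds for `uf`-most `n`: `δ → 0`), `fs_core_nm`, `fs_core`; divide by `lgs`, `const_le_ulim` (`fs_ubdd`: `entC ≤ ent`), `δ^ε → 0`, then `ε → 0`. -/
theorem fs_sh_lim (H : FsHyp S Ds p Kg nx μ B) (k : ℝ) (hk : k ∈ Kg) (m : ℝ)
    (hm : ∀ z ∈ Kg, m ≤ S.HA [p.aV z] (p.LA k) / p.h + π.d * (p.c + 1 - z)) :
    p.h * (π.d + m - π.d * μ) ≤ S.HA [p.aO] (p.LA k) := by
  have hc : Continuous (fun ε : ℝ => p.h * ((1 - ε) * (π.d - ε) + ((m - π.d * μ - 3 * ε) - (2 * Kg.card + 1) * ε * |m - π.d * μ - 3 * ε|))) := by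
    fun_prop
  have ht : Tendsto (fun ε : ℝ => p.h * ((1 - ε) * (π.d - ε) + ((m - π.d * μ - 3 * ε) - (2 * Kg.card + 1) * ε * |m - π.d * μ - 3 * ε|)))
      (𝓝[>] 0) (𝓝 (p.h * (π.d + m - π.d * μ))) := by
    have h1 := (hc.tendsto 0).mono_left (nhdsWithin_le_nhds (s := Set.Ioi 0))
    convert h1 using 2
    ring
  refine le_of_tendsto ht ?_
  have hpos : (0 : ℝ) < 1 / (2 * Kg.card + 1) := by positivity
  have h2 : ∀ᶠ ε : ℝ in 𝓝[>] 0, ε < min (1 : ℝ) (1 / (2 * (Kg.card : ℝ) + 1)) :=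
    (nhdsWithin_le_nhds (s := Set.Ioi 0)) (gt_mem_nhds (lt_min one_pos hpos))
  filter_upwards [h2, self_mem_nhdsWithin] with ε h3 h4
  refine fs_sh_eps H k hk m hm ε h4 (h3.le.trans (min_le_left _ _)) ?_
  have h5 : ε ≤ 1 / (2 * Kg.card + 1) := h3.le.trans (min_le_right _ _)
  rw [le_div_iff₀ (by positivity)] at h5
  linarith

/-- LEAF L-256-FSL-CH.   EST 450 lines.   On one law, `A = (C, X, S)`:  `H(O) ≥ H(O,C) - log N0` (`ref_O`),  `H(O,C) = H(C) + H(X,S|C) + H(O|A) - H(X,S|O,C)`,  `H(X,S|O,C) ≤ H(X|C) + log (N0 s^(-(3k_R-2)h))` (`g3`, `ent_entC_le_log_nval`),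
`H(C^k) ≤ H(A) + H(V_k|A) + log N0` (`g2`).   Divide by `lgs`, `N0 = s^(-acc)`, ultralimits (`fs_ubdd`, `ulim_add`, `ulim_le`), `acc → 0`. -/
theorem fs_chain_lim (H : FsHyp S Ds p Kg nx μ B) (k : ℝ) (hk : k ∈ Kg) :
    S.HA [p.aO] (p.LA k) - S.HA [p.aV k] (p.LA k) - (S.HA [p.aX] [p.aC] + (3 * p.kR k - 2) * p.h)
      ≤ S.HA [p.aO] [] - S.HA [p.aCk k] [] := by
  have hπ := H.val
  have nO : ∀ x ∈ [p.aO], x ≠ NmAt.y0 := fun x hx => by rw [List.mem_singleton.1 hx]; exact fun h => NmAt.noConfusion h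
  have nV : ∀ x ∈ [p.aV k], x ≠ NmAt.y0 := fun x hx => by rw [List.mem_singleton.1 hx]; exact fun h => NmAt.noConfusion h
  have nX : ∀ x ∈ [p.aX], x ≠ NmAt.y0 := fun x hx => by rw [List.mem_singleton.1 hx]; exact fun h => NmAt.noConfusion h
  have nC : ∀ x ∈ [p.aCk k], x ≠ NmAt.y0 := fun x hx => by rw [List.mem_singleton.1 hx]; exact fun h => NmAt.noConfusion h
  have u1 := fs_ch_ubdd S hπ [p.aO] (p.LA k) nO
  have u2 := fs_ch_ubdd S hπ [p.aV k] (p.LA k) nV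
  have u3 := fs_ch_ubdd S hπ [p.aX] [p.aC] nX
  have v1 := fs_ch_ubdd S hπ [p.aO] [] nO
  have v2 := fs_ch_ubdd S hπ [p.aCk k] [] nC
  have uc : UBdd (fun _ : ℕ => (3 * p.kR k - 2) * p.h) := ⟨|(3 * p.kR k - 2) * p.h|, Eventually.of_forall fun _ => le_rfl⟩
  have main := fs_ch_lim _ _ 3 (((u1.sub u2).sub u3).add v2) (v1.add uc) (fun acc hacc => by
    filter_upwards [H.geo acc hacc] with n hG
    obtain ⟨hs0, hs1⟩ := fs_ch_s S n
    have hl := fs_ch_lgs_pos S n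
    have h3 : ((S.D n).P 1).NVal (fun _ => True) ((S.D n).atq π (p.aS k))
        (pair ((S.D n).atq π p.aX) (pair ((S.D n).atq π p.aO) ((S.D n).atq π p.aC)))
        ((S.D n).s ^ (-acc) * (S.D n).s ^ (-((3 * p.kR k - 2) * p.h))) :=
      fs_ch_nval _ _ _ _ (fun ω ω' h => by
        simp only [FLaw.pair, Prod.mk.injEq] at h
        show [(S.D n).atq π p.aX ω, (S.D n).atq π p.aO ω, (S.D n).atq π p.aC ω]
          = [(S.D n).atq π p.aX ω', (S.D n).atq π p.aO ω', (S.D n).atq π p.aC ω']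
        rw [h.1, h.2.1, h.2.2]) (hG.g3 k hk)
    have h2 : ((S.D n).P 1).NVal (fun _ => True) ((S.D n).atq π (p.aCk k))
        (pair ((S.D n).atq π (p.aV k)) (pair ((S.D n).atq π p.aC) (pair ((S.D n).atq π p.aX) ((S.D n).atq π (p.aS k)))))
        ((S.D n).s ^ (-acc)) :=
      fs_ch_nval _ _ _ _ (fun ω ω' h => by
        simp only [FLaw.pair, Prod.mk.injEq] at h
        show [(S.D n).atq π (p.aV k) ω, (S.D n).atq π p.aC ω, (S.D n).atq π p.aX ω, (S.D n).atq π (p.aS k) ω]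
          = [(S.D n).atq π (p.aV k) ω', (S.D n).atq π p.aC ω', (S.D n).atq π p.aX ω', (S.D n).atq π (p.aS k) ω']
        rw [h.1, h.2.1, h.2.2.1, h.2.2.2]) (hG.g2 k hk)
    have key := fs_ch_one ((S.D n).P 1) _ _ _ _ _ _ hG.ref_O h3 h2
    rw [Real.log_mul (Real.rpow_pos_of_pos hs0 _).ne' (Real.rpow_pos_of_pos hs0 _).ne', fs_ch_log _ hs0, fs_ch_log _ hs0] at key
    have f1 : ((S.D n).P 1).entC ((S.D n).ats π [p.aO]) ((S.D n).ats π (p.LA k))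
        = ((S.D n).P 1).entC ((S.D n).atq π p.aO) (pair ((S.D n).atq π p.aC) (pair ((S.D n).atq π p.aX) ((S.D n).atq π (p.aS k)))) := by
      rw [fs_ch_e1]; exact fs_ch_e3 _ _ _ _ _ _
    have f2 : ((S.D n).P 1).entC ((S.D n).ats π [p.aV k]) ((S.D n).ats π (p.LA k))
        = ((S.D n).P 1).entC ((S.D n).atq π (p.aV k)) (pair ((S.D n).atq π p.aC) (pair ((S.D n).atq π p.aX) ((S.D n).atq π (p.aS k)))) := by
      rw [fs_ch_e1]; exact fs_ch_e3 _ _ _ _ _ _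
    have f3 : ((S.D n).P 1).entC ((S.D n).ats π [p.aX]) ((S.D n).ats π [p.aC])
        = ((S.D n).P 1).entC ((S.D n).atq π p.aX) ((S.D n).atq π p.aC) := by
      rw [fs_ch_e1, fs_ch_e1']
    have f4 : ((S.D n).P 1).entC ((S.D n).ats π [p.aO]) ((S.D n).ats π []) = ((S.D n).P 1).ent ((S.D n).atq π p.aO) := by
      rw [fs_ch_e1, fs_ch_e0]
    have f5 : ((S.D n).P 1).entC ((S.D n).ats π [p.aCk k]) ((S.D n).ats π []) = ((S.D n).P 1).ent ((S.D n).atq π (p.aCk k)) := by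
      rw [fs_ch_e1, fs_ch_e0]
    rw [f1, f2, f3, f4, f5]
    generalize ((S.D n).P 1).entC ((S.D n).atq π p.aO) (pair ((S.D n).atq π p.aC) (pair ((S.D n).atq π p.aX) ((S.D n).atq π (p.aS k)))) = a1 at key ⊢
    generalize ((S.D n).P 1).entC ((S.D n).atq π (p.aV k)) (pair ((S.D n).atq π p.aC) (pair ((S.D n).atq π p.aX) ((S.D n).atq π (p.aS k)))) = a2 at key ⊢
    generalize ((S.D n).P 1).entC ((S.D n).atq π p.aX) ((S.D n).atq π p.aC) = a3 at key ⊢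
    generalize ((S.D n).P 1).ent ((S.D n).atq π p.aO) = b1 at key ⊢
    generalize ((S.D n).P 1).ent ((S.D n).atq π (p.aCk k)) = b2 at key ⊢
    generalize (S.D n).lgs = l at key hl ⊢
    have g1 : a1 / l - a2 / l - a3 / l + b2 / l = (a1 - a2 - a3 + b2) / l := by ring
    have g2 : b1 / l + (3 * p.kR k - 2) * p.h + 3 * acc = (b1 + (3 * p.kR k - 2) * p.h * l + 3 * acc * l) / l := by
      field_simp
    rw [g1, g2]
    exact div_le_div_of_nonneg_right (by linarith) hl.le)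
  rw [ulim_add _ _ ((u1.sub u2).sub u3) v2, ulim_sub _ _ (u1.sub u2) u3, ulim_sub _ _ u1 u2, ulim_add _ _ v1 uc, ulim_const] at main
  have hHA : ∀ L L' : List NmAt, S.HA L L'
      = ulim fun n => ((S.D n).P 1).entC ((S.D n).ats π L) ((S.D n).ats π L') / (S.D n).lgs := fun _ _ => rfl
  simp only [hHA]
  linarith

/-- LEAF L-256-FSL-MO.   EST 400 lines.   On one law: `aV z1` is a FUNCTION of `aV z2` (`z1 ≤ z2`: nested cells, the other entries coincide), so `H(V2|A) - H(V1|A) = H(V2|V1,A)`;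
`H(V2|V1,A_k') ≤ H(A_k|A_k') + H(V2|V1,A_k)`, `H(A_k|A_k') ≤ log N0` (`ref_S`).   Ultralimits, `acc → 0`. -/
theorem fs_mono_lim (H : FsHyp S Ds p Kg nx μ B) (k k' z1 z2 : ℝ) (hk : k ∈ Kg) (hk' : k' ∈ Kg) (h1 : z1 ∈ Kg) (h2 : z2 ∈ Kg)
    (hkk : k ≤ k') (hz : z1 ≤ z2) :
    S.HA [p.aV z2] (p.LA k') - S.HA [p.aV z1] (p.LA k') ≤ S.HA [p.aV z2] (p.LA k) - S.HA [p.aV z1] (p.LA k) := by
  have _ := h1
  have _ := h2
  have hπ := H.val
  have nV : ∀ z : ℝ, ∀ x ∈ [p.aV z], x ≠ NmAt.y0 := fun z x hx => by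
    rw [List.mem_singleton.1 hx]; exact fun h => NmAt.noConfusion h
  have u1 := fs_ch_ubdd S hπ [p.aV z2] (p.LA k') (nV z2)
  have u2 := fs_ch_ubdd S hπ [p.aV z1] (p.LA k') (nV z1)
  have v1 := fs_ch_ubdd S hπ [p.aV z2] (p.LA k) (nV z2)
  have v2 := fs_ch_ubdd S hπ [p.aV z1] (p.LA k) (nV z1)
  have main := fs_ch_lim _ _ 1 (u1.sub u2) (v1.sub v2) (fun acc hacc => by
    filter_upwards [H.geo acc hacc] with n hG
    obtain ⟨hs0, hs1⟩ := fs_ch_s S n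
    have hl := fs_ch_lgs_pos S n
    have key := fs_mo_one ((S.D n).P 1) ((S.D n).ats π [p.aV z1]) ((S.D n).ats π [p.aV z2]) ((S.D n).ats π (p.LA k))
      ((S.D n).ats π (p.LA k')) (fs_mo_nest (S.D n) π p ⟨hs0, hs1⟩ H.h0 hz)
      (fs_mo_ref (S.D n) π p k k' _ (hG.ref_S k hk k' hk' hkk))
    rw [fs_ch_log _ hs0] at key
    generalize ((S.D n).P 1).entC ((S.D n).ats π [p.aV z2]) ((S.D n).ats π (p.LA k')) = a1 at key ⊢
    generalize ((S.D n).P 1).entC ((S.D n).ats π [p.aV z1]) ((S.D n).ats π (p.LA k')) = a2 at key ⊢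
    generalize ((S.D n).P 1).entC ((S.D n).ats π [p.aV z2]) ((S.D n).ats π (p.LA k)) = b1 at key ⊢
    generalize ((S.D n).P 1).entC ((S.D n).ats π [p.aV z1]) ((S.D n).ats π (p.LA k)) = b2 at key ⊢
    generalize (S.D n).lgs = l at key hl ⊢
    have g1 : a1 / l - a2 / l = (a1 - a2) / l := by ring
    have g2 : b1 / l - b2 / l + 1 * acc = (b1 - b2 + acc * l) / l := by
      field_simp
    rw [g1, g2]
    exact div_le_div_of_nonneg_right (by linarith) hl.le)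
  rw [ulim_sub _ _ u1 u2, ulim_sub _ _ v1 v2] at main
  have hHA : ∀ L L' : List NmAt, S.HA L L'
      = ulim fun n => ((S.D n).P 1).entC ((S.D n).ats π L) ((S.D n).ats π L') / (S.D n).lgs := fun _ _ => rfl
  simp only [hHA]
  exact main

/-- **Lemma act:finite-step.**   `hw` : the three names stay on the branch;  `hkR` : `k_R + c - k ≥ 0`;  `hμ` : the mesh retains `Γ`. -/
theorem fs_step (H : FsHyp S Ds p Kg nx μ B) (hμ : π.d * μ ≤ π.Γ)
    (hw : ∀ k ∈ Kg, p.q.w π (p.a + p.h) p.v - p.q.w π p.a (p.v + p.kR k * p.h) = (p.c - k) * p.h)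
    (hkR : ∀ k ∈ Kg, 0 ≤ p.kR k + p.c - k) :
    ∃ k ∈ Kg, π.Γ * p.h - S.HC (S.Xc (p.v + p.Ks * p.h)) (S.nm (p.qg p.g) p.a p.v)
      ≤ S.E (p.qg p.g) (p.a + p.h) p.v - S.E (p.qg p.g) p.a (p.v + p.kR k * p.h) := by
  have hh := H.h0
  obtain ⟨k, hk, hmin⟩ := fs_fixpt Kg ⟨_, H.g_bot⟩ (fun z k => S.HA [p.aV z] (p.LA k) / p.h + π.d * (p.c + 1 - z)) (by
    intro k hk k' hk' z1 h1 z2 h2 hkk hz
    have := fs_mono_lim H k k' z1 z2 hk hk' h1 h2 hkk hz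
    have e : ∀ x y u w : ℝ, (x / p.h + u) - (y / p.h + w) = (x - y) / p.h + (u - w) := by intro x y u w; ring
    simp only [e]
    have := div_le_div_of_nonneg_right this hh.le
    linarith)
  refine ⟨k, hk, ?_⟩
  have h1 := fs_sh_lim H k hk _ hmin
  have h2 := fs_chain_lim H k hk
  have e1 : p.h * (S.HA [p.aV k] (p.LA k) / p.h) = S.HA [p.aV k] (p.LA k) := by field_simp
  have hO : S.HA [p.aO] [] = S.H (p.qg p.g) (p.a + p.h) p.v := fs_HA_H S _ _ _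
  have hC : S.HA [p.aCk k] [] = S.H (p.qg p.g) p.a (p.v + p.kR k * p.h) := fs_HA_H S _ _ _
  have hX : S.HA [p.aX] [p.aC] = S.HC (S.Xc (p.v + p.Ks * p.h)) (S.nm (p.qg p.g) p.a p.v) := fs_HA_X S _ _ _ _
  rw [hO, hC, hX] at h2
  have hp : π.p = 1 + 2 * π.d - 2 * π.Γ := by linarith [H.val.pd]
  have hwk := hw k hk
  have hkk := hkR k hk
  obtain ⟨hk1, hk2⟩ := H.g_mem k hk
  have hd := H.val.d1
  have hη := H.val.eta
  have hwq : ∀ a v : ℝ, (p.qg p.g).w π a v = p.q.w π a v := fun a v => rfl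
  simp only [NmSeq.E, NmQ.Z, NmQ.W, hwq]
  have hgg : (p.qg p.g).g = p.g := rfl
  rw [hgg, hp]
  set MX := S.HC (S.Xc (p.v + p.Ks * p.h)) (S.nm (p.qg p.g) p.a p.v)
  set HO := S.H (p.qg p.g) (p.a + p.h) p.v
  set HK := S.H (p.qg p.g) p.a (p.v + p.kR k * p.h)
  set w1 := p.q.w π (p.a + p.h) p.v
  set w2 := p.q.w π p.a (p.v + p.kR k * p.h)
  have h3 : p.h * (π.d + π.d * (p.c + 1 - k) - π.d * μ) - MX - (3 * p.kR k - 2) * p.h ≤ HO - HK := by
    have : p.h * (π.d + (S.HA [p.aV k] (p.LA k) / p.h + π.d * (p.c + 1 - k)) - π.d * μ)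
        = p.h * (π.d + π.d * (p.c + 1 - k) - π.d * μ) + p.h * (S.HA [p.aV k] (p.LA k) / p.h) := by ring
    rw [e1] at this
    linarith
  have h4 : 0 ≤ p.h * ((1 - π.d) * (1 + k - p.c)) := mul_nonneg hh.le (mul_nonneg (by linarith) (by linarith))
  have h5 : 0 ≤ p.h * (π.η * (p.kR k + p.c - k)) := mul_nonneg hh.le (mul_nonneg hη.1.le hkk)
  have h6 : p.h * (π.d * μ) ≤ p.h * π.Γ := mul_le_mul_of_nonneg_left hμ hh.le
  have h7 : w1 - w2 = (p.c - k) * p.h := hwk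
  have h8 : w1 = w2 + (p.c - k) * p.h := by linarith
  rw [h8]
  nlinarith

end lim2

end

end Claimed.Agent.R256
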