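import Claimed.Agent.R256.Nm.Base

/-!
# Row 256, section Act, unit GEO ((enl), (shift), (act:step-geometry); 06 l.672-684, 716-760, 860-885), file 1: DEFINITIONS      (architect helper209; prefix `ag_`, types `Ag*`)

KEY REMARK.   `Nres`, `Dres` and the entries `kb, t, k, R, X, B, L, Y` of a name do NOT depend on the enlargement `g`; only the DEPTHS of the bins `N`, `D` do.   So every observation of Lemma act:finite-step is (up to bounded lists)
a NAME WITH A SHIFTED ENLARGEMENT or an angular cell, i.e. an ATOMIC QUERY `NmAt` of `Nm/Base.lean`: `S.Flat {1}` applies to all of them, no new flattening is needed.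
Root `σ : AgSt` = `(q, a, v, h, c, Ks)`, `g = q.g`, `δ = s^h`, `c` = forward rate of `w`;  a speed = `(k, kR)`  (`kR = k/2` quadratic, `kR = k` linear).
* `C   = 𝒞^g(a, v)`            `x.agC`      query `σ.q`
* `O   = 𝒞^g(a+h, v)`          `x.agO`
* `C^k = 𝒞^g(a, v + kR h)`     `x.agK kR`
* `S_k = (X^(v + Ks h), B^k)`,  `B^k = 𝒞^(g + k h)(a, v + kR h)`  `x.agB k kR`, query `σ.qB k` : the base and derivative bins of `C^k`, normal bins at the depths of the ROOT (no information given `C`, `L^k`, base).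
* `V_z = 𝒞^(g - z h)(a, v)`     `x.agV z`, query `σ.qV z` : the root name with the normal bins refined by `δ^z`  (`= (C, [V]_z)`).
* `V = (Vn, Vd)`, `θ'` as real numbers: `x.agVn`, `x.agVd`, `x.agTh`;   `x.agT z` = the absolute time cell of depth `a + (c+1-z) h`  (`Tz` of `FsCore`, `Act/Fs.lean`).
`σ.Ok π`, `σ.OkK π k kR` = the linear conditions on the exponents ("the names stay on the specified branch", `(c+1) h ≤ g`, `c + 1 ≤ Ks`);  instances `ag_ok_quad`, `ag_ok_plin`, `ag_ok_clip` (file `Geo.lean`).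
-/

set_option autoImplicit false

namespace Claimed.Agent.R256

open Claimed.Agent.R255
open Claimed.Agent.R255.FLaw (pair)
open Classical

noncomputable section

/-- the query `q` with the normal enlargement `g` -/
def NmQ.en (q : NmQ) (g : ℝ) : NmQ := ⟨q.ds, q.tp, g⟩

/-- the root of a finite step: query (with its enlargement `g = q.g`), root `(a, v)`, gap `h`, forward rate `c` of the normal exponent, angular depth `Ks = K_*` -/
structure AgSt where
  q : NmQ
  a : ℝ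
  v : ℝ
  h : ℝ
  c : ℝ
  Ks : ℝ

namespace AgSt

variable (σ : AgSt)

/-- the query of the base name `B^k` -/
def qB (k : ℝ) : NmQ := σ.q.en (σ.q.g + k * σ.h)

/-- the query of the refined root name `V_z` -/
def qV (z : ℝ) : NmQ := σ.q.en (σ.q.g - z * σ.h)

/-- admissible roots -/
structure Ok (π : SfPar) : Prop where
  q : σ.q.Ok π
  h0 : 0 < σ.h
  c0 : 0 ≤ σ.c
  /-- the child stays on the branch: rate `c` -/
  wO : σ.q.w π (σ.a + σ.h) σ.v = σ.q.w π σ.a σ.v + σ.c * σ.h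
  /-- `(c+1) h ≤ g` -/
  g : (σ.c + 1) * σ.h ≤ σ.q.g
  /-- `K_* ≥ c + 1` -/
  Ks : σ.c + 1 ≤ σ.Ks

/-- admissible speeds -/
structure OkK (π : SfPar) (k kR : ℝ) : Prop where
  kR1 : 1 ≤ kR
  kRk : kR ≤ k
  kc : k ≤ σ.c + 1
  /-- the moved name stays on the branch: `w(a, v + kR h) = w + k h` -/
  wK : σ.q.w π σ.a (σ.v + kR * σ.h) = σ.q.w π σ.a σ.v + k * σ.h
  /-- the output displays the derivative refinement -/
  lO : σ.q.l π σ.a (σ.v + kR * σ.h) ≤ σ.q.l π (σ.a + σ.h) σ.v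

end AgSt

namespace NmRaw

variable (x : NmRaw) (s : ℝ) (π : SfPar) (σ : AgSt)

/-- the root name `C` -/
def agC : NmNm := x.name s π σ.q σ.a σ.v
/-- the output name `O` -/
def agO : NmNm := x.name s π σ.q (σ.a + σ.h) σ.v
/-- the moved name `C^k` -/
def agK (kR : ℝ) : NmNm := x.name s π σ.q σ.a (σ.v + kR * σ.h)
/-- the base name `B^k` -/
def agB (k kR : ℝ) : NmNm := x.name s π (σ.qB k) σ.a (σ.v + kR * σ.h)
/-- the refined root name `V_z` -/
def agV (z : ℝ) : NmNm := x.name s π (σ.qV z) σ.a σ.v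
/-- the angular cell `X^(v + K_* h)` -/
def agX : ℤ := nmCell s (σ.v + σ.Ks * σ.h) x.z.X
/-- `V_n` : the residual normal velocity, centred in its `C`-bin, in the unit `s^(w-g)` -/
def agVn : ℝ :=
  (x.Nres s π σ.q σ.a σ.v - nmRep s (σ.q.w π σ.a σ.v - σ.q.g) (x.Nres s π σ.q σ.a σ.v)) / s ^ (σ.q.w π σ.a σ.v - σ.q.g)
/-- `V_d` : the residual normal position at `t_a`, centred in its `C`-bin, in the unit `s^(a+w-g)` -/
def agVd : ℝ :=
  (x.Dres s π σ.q σ.a σ.v - nmRep s (σ.a + σ.q.w π σ.a σ.v - σ.q.g) (x.Dres s π σ.q σ.a σ.v)) / s ^ (σ.a + σ.q.w π σ.a σ.v - σ.q.g)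
/-- `θ' = (t_{a+h} - t_a) / s^a` -/
def agTh : ℝ := (x.ta s (σ.a + σ.h) - x.ta s σ.a) / s ^ σ.a
/-- the absolute time cell of depth `a + (c+1-z) h` -/
def agT (z : ℝ) : ℤ := nmCell s (σ.a + (σ.c + 1 - z) * σ.h) x.T

end NmRaw

namespace SfDoc

variable (D : SfDoc) (π : SfPar) (σ : AgSt)

/-- `V_n` on the final rows -/
def agVn : D.Row 1 → ℝ := fun ω => (D.raw π σ.q.ds ω).agVn D.s π σ
/-- `V_d` on the final rows -/
def agVd : D.Row 1 → ℝ := fun ω => (D.raw π σ.q.ds ω).agVd D.s π σ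
/-- `θ'` on the final rows -/
def agTh : D.Row 1 → ℝ := fun ω => (D.raw π σ.q.ds ω).agTh D.s σ
/-- `S_k = (X^(v + K_* h), B^k)` on the final rows -/
def agS (k kR : ℝ) : D.Row 1 → ℤ × NmNm := pair (D.Xc (σ.v + σ.Ks * σ.h)) (D.nm π (σ.qB k) σ.a (σ.v + kR * σ.h))
/-- the condition `A = (C, S_k)` of `FsCore` -/
def agA (k kR : ℝ) : D.Row 1 → NmNm × ℤ × NmNm := pair (D.nm π σ.q σ.a σ.v) (D.agS π σ k kR)

end SfDoc

theorem ag_defs_eqns_cite : True := by
  have := @NmQ.en.eq_1; have := @AgSt.qB.eq_1; have := @AgSt.qV.eq_1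
  have := @NmRaw.agC.eq_1; have := @NmRaw.agO.eq_1; have := @NmRaw.agK.eq_1; have := @NmRaw.agB.eq_1; have := @NmRaw.agV.eq_1
  have := @NmRaw.agX.eq_1; have := @NmRaw.agVn.eq_1; have := @NmRaw.agVd.eq_1; have := @NmRaw.agTh.eq_1; have := @NmRaw.agT.eq_1
  have := @SfDoc.agVn.eq_1; have := @SfDoc.agVd.eq_1; have := @SfDoc.agTh.eq_1; have := @SfDoc.agS.eq_1; have := @SfDoc.agA.eq_1
  trivial

end

end Claimed.Agent.R256
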