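import Claimed.Agent.R256.Act.FsDefs
import Claimed.Agent.R256.Act.GeoDefs

/-!
# Row 256, section Act, unit FS, file 4: LINK between the vocabulary of FS (`FsPt`, Act/FsDefs.lean, helper277) and of GEO (`AgSt`, Act/GeoDefs.lean, helper209)      all by `rfl`
-/

set_option autoImplicit false

namespace Claimed.Agent.R256

open Claimed.Agent.R255
open Claimed.Agent.R255.FLaw (pair)

/-- the root of GEO of a step of FS -/
def FsPt.st (p : FsPt) : AgSt := ⟨p.qg p.g, p.a, p.v, p.h, p.c, p.Ks⟩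

theorem fs_link_eqns_cite : True := by
  have := @FsPt.st.eq_1
  trivial

theorem fs_link_qB (p : FsPt) (k : ℝ) : p.st.qB k = p.qg (p.g + k * p.h) := rfl
theorem fs_link_qV (p : FsPt) (z : ℝ) : p.st.qV z = p.qg (p.g - z * p.h) := rfl
theorem fs_link_Vn (D : SfDoc) (π : SfPar) (p : FsPt) : D.fsVn π p = D.agVn π p.st := rfl
theorem fs_link_Vd (D : SfDoc) (π : SfPar) (p : FsPt) : D.fsVd π p = D.agVd π p.st := rfl
theorem fs_link_Th (D : SfDoc) (π : SfPar) (p : FsPt) : D.fsTh π p = D.agTh π p.st := rfl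
theorem fs_link_C (D : SfDoc) (π : SfPar) (p : FsPt) (ω : D.Row 1) :
    D.atq π p.aC ω = Sum.inl ((D.raw π p.q.ds ω).agC D.s π p.st) := rfl
theorem fs_link_O (D : SfDoc) (π : SfPar) (p : FsPt) (ω : D.Row 1) :
    D.atq π p.aO ω = Sum.inl ((D.raw π p.q.ds ω).agO D.s π p.st) := rfl
theorem fs_link_K (D : SfDoc) (π : SfPar) (p : FsPt) (k : ℝ) (ω : D.Row 1) :
    D.atq π (p.aCk k) ω = Sum.inl ((D.raw π p.q.ds ω).agK D.s π p.st (p.kR k)) := rfl
theorem fs_link_S (D : SfDoc) (π : SfPar) (p : FsPt) (k : ℝ) (ω : D.Row 1) :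
    D.atq π (p.aS k) ω = Sum.inl ((D.raw π p.q.ds ω).agB D.s π p.st k (p.kR k)) := rfl
theorem fs_link_V (D : SfDoc) (π : SfPar) (p : FsPt) (z : ℝ) (ω : D.Row 1) :
    D.atq π (p.aV z) ω = Sum.inl ((D.raw π p.q.ds ω).agV D.s π p.st z) := rfl
theorem fs_link_X (D : SfDoc) (π : SfPar) (p : FsPt) (ω : D.Row 1) :
    D.atq π p.aX ω = Sum.inr (Sum.inl ((D.raw π p.q.ds ω).agX D.s p.st)) := rfl

end Claimed.Agent.R256
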