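import Claimed.Agent.R256.Act.OgsGlue
import Claimed.Agent.R256.Act.FsLim

/-!
# Row 256, section Act, unit OGS, file 4: (step) FROM `fs_step`      (architect helper137; prefix `ao_`)

`aoPt q quad c Ks g t v h : FsPt` = the finite step from `(t, v)` to the backward time `t + h` (EARLIER root `(1 - t - h, v)`).
`AoGeo`, `AoTime` = the supply of `FsHyp.geo` ((act:step-geometry), GEO helper209) and of `FsHyp.time` (typical time scores, 06 l.766-780) on the strip, in the quantifier pattern of the field `step`: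
for EVERY finite grid `Kg ⊆ [c, c+1]`, every `g ≤ g0`, every distance `δ` to the seam there is `ρ > 0` such that every admissible step with `h ≤ ρ` is good.
`ao_step_of_sup` (PROVED, no `sorry` in this file) : `AoGeo → AoTime → AoStep`   (uniform grid `ao_grid` of mesh `Γ / d`, admissibility of the atoms, `ρ ≤ g / (c+1)`, `fs_step`).
-/

set_option autoImplicit false

namespace Claimed.Agent.R256

open Claimed.Agent.R255
open MeasureTheory Filter Topology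

/-- the uniform grid of mesh `≤ μ` in `[c, c+1]` -/
theorem ao_grid (c μ : ℝ) (hμ : 0 < μ) : ∃ (Kg : Finset ℝ) (nx : ℝ → ℝ), (∀ z ∈ Kg, c ≤ z ∧ z ≤ c + 1) ∧ c ∈ Kg ∧ c + 1 ∈ Kg ∧
    ∀ z ∈ Kg, z < c + 1 → nx z ∈ Kg ∧ z < nx z ∧ nx z ≤ z + μ := by
  obtain ⟨N, hN⟩ := exists_nat_gt (1 / μ)
  have hN0 : (0 : ℝ) < N := lt_trans (by positivity) hN
  have hmem : ∀ z, z ∈ (Finset.range (N + 1)).image (fun i : ℕ => c + (i : ℝ) / N) ↔ ∃ i : ℕ, i ≤ N ∧ c + (i : ℝ) / N = z := by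
    intro z
    simp only [Finset.mem_image, Finset.mem_range, Nat.lt_succ_iff]
  refine ⟨(Finset.range (N + 1)).image (fun i : ℕ => c + (i : ℝ) / N), fun z => z + 1 / N, ?_, ?_, ?_, ?_⟩
  · intro z hz
    obtain ⟨i, hi, rfl⟩ := (hmem z).1 hz
    have h1 : (0 : ℝ) ≤ (i : ℝ) / N := by positivity
    have h2 : (i : ℝ) / N ≤ 1 := by
      rw [div_le_one hN0]; exact_mod_cast hi
    exact ⟨by linarith, by linarith⟩
  · exact (hmem c).2 ⟨0, Nat.zero_le _, by simp⟩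
  · exact (hmem (c + 1)).2 ⟨N, le_rfl, by rw [div_self hN0.ne']⟩
  · intro z hz hz1
    obtain ⟨i, hi, rfl⟩ := (hmem z).1 hz
    have h2 : (i : ℝ) / N < 1 := by linarith
    rw [div_lt_one hN0] at h2
    have h3 : i < N := by exact_mod_cast h2
    have hpos : (0 : ℝ) < 1 / N := by positivity
    refine ⟨(hmem _).2 ⟨i + 1, h3, by push_cast; ring⟩, by linarith, ?_⟩
    have : 1 / (N : ℝ) ≤ μ := by
      rw [div_le_iff₀ hN0]
      rw [div_lt_iff₀ hμ] at hN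
      linarith
    linarith

/-- the finite step from `(t, v)` to the backward time `t + h` -/
def aoPt (q : NmQ) (quad : Bool) (c Ks g t v h : ℝ) : FsPt := ⟨q, quad, c, g, 1 - t - h, v, h, Ks⟩

section

variable {π : SfPar} {C0 : ℝ} {κ : ℝ → ℝ} (S : NmSeq π C0 κ)

/-- **supply of (act:step-geometry)** on the strip -/
def AoGeo (q : NmQ) (quad : Bool) (c kmax Ks g0 t0 t1 wd : ℝ) : Prop :=
  ∀ Kg : Finset ℝ, (∀ z ∈ Kg, c ≤ z ∧ z ≤ c + 1) → ∀ g, 0 < g → g ≤ g0 → ∀ δ, 0 < δ → ∃ ρ, 0 < ρ ∧ ∀ h t v, 0 < h → h ≤ ρ → t0 < t →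
    t + h < t1 → π.J * t + δ ≤ v → v + kmax * h ≤ π.J * (t + h) + wd →
    ∃ B : ℝ, 0 < B ∧ ∀ acc : ℝ, 0 < acc → ∀ᶠ n in uf, FsGeo (S.D n) π (aoPt q quad c Ks g t v h) B ((S.D n).s ^ (-acc)) Kg

/-- **supply of the typical time scores** on the strip -/
def AoTime (q : NmQ) (quad : Bool) (c kmax Ks g0 t0 t1 wd : ℝ) : Prop :=
  ∀ Kg : Finset ℝ, (∀ z ∈ Kg, c ≤ z ∧ z ≤ c + 1) → ∀ g, 0 < g → g ≤ g0 → ∀ δ, 0 < δ → ∃ ρ, 0 < ρ ∧ ∀ h t v, 0 < h → h ≤ ρ → t0 < t →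
    t + h < t1 → π.J * t + δ ≤ v → v + kmax * h ≤ π.J * (t + h) + wd →
    ∀ ε : ℝ, 0 < ε → ∀ᶠ n in uf, FsTime (S.D n) π (aoPt q quad c Ks g t v h) ε Kg

theorem ao_step_eqns_cite : True := by
  have := @aoPt.eq_1
  have := @AoGeo.eq_1
  have := @AoTime.eq_1
  trivial

variable {S}

theorem AoGeo.mono {q : NmQ} {quad : Bool} {c kmax Ks g0 t0 t1 wd g0' wd' : ℝ} (h : AoGeo S q quad c kmax Ks g0 t0 t1 wd)
    (hg : g0' ≤ g0) (hw : wd' ≤ wd) : AoGeo S q quad c kmax Ks g0' t0 t1 wd' := by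
  intro Kg hK g h1 h2 δ hδ
  obtain ⟨ρ, hρ, H⟩ := h Kg hK g h1 (h2.trans hg) δ hδ
  exact ⟨ρ, hρ, fun h t v a1 a2 a3 a4 a5 a6 => H h t v a1 a2 a3 a4 a5 (by linarith)⟩

theorem AoTime.mono {q : NmQ} {quad : Bool} {c kmax Ks g0 t0 t1 wd g0' wd' : ℝ} (h : AoTime S q quad c kmax Ks g0 t0 t1 wd)
    (hg : g0' ≤ g0) (hw : wd' ≤ wd) : AoTime S q quad c kmax Ks g0' t0 t1 wd' := by
  intro Kg hK g h1 h2 δ hδ
  obtain ⟨ρ, hρ, H⟩ := h Kg hK g h1 (h2.trans hg) δ hδ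
  exact ⟨ρ, hρ, fun h t v a1 a2 a3 a4 a5 a6 => H h t v a1 a2 a3 a4 a5 (by linarith)⟩

/-- **(step) from `fs_step`**.   `hk` : the speeds `k_R`, `k ∈ [c, c+1]`;   `hw` : the three names stay on the branch. -/
theorem ao_step_of_sup (hπ : π.Valid) (hF : S.Flat {1}) (q : NmQ) (hq : q.Fam π) (hDe : q.ds.De = 1) (quad : Bool)
    (c kmin kmax Ks g0 t0 t1 wd : ℝ) (ht0 : 0 ≤ t0) (ht1 : t1 ≤ 1) (hc : 0 ≤ c)
    (hk : ∀ k, c ≤ k → k ≤ c + 1 → kmin ≤ (if quad then k / 2 else k) ∧ (if quad then k / 2 else k) ≤ kmax ∧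
      0 ≤ (if quad then k / 2 else k) + c - k)
    (hw : ∀ δ, 0 < δ → ∃ ρ, 0 < ρ ∧ ∀ h t v, 0 < h → h ≤ ρ → π.J * t + δ ≤ v → ∀ k, c ≤ k →
      q.w π (1 - t - h + h) v - q.w π (1 - t - h) (v + (if quad then k / 2 else k) * h) = (c - k) * h)
    (hG : AoGeo S q quad c kmax Ks g0 t0 t1 wd) (hT : AoTime S q quad c kmax Ks g0 t0 t1 wd) :
    AoStep S q kmin kmax Ks g0 t0 t1 wd := by
  intro g hg1 hg2 δ hδ
  have hΓ : 0 < π.Γ := by linarith [hπ.gam, hπ.eta.1]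
  have hd := hπ.d1.1
  have hJ := hπ.J0
  obtain ⟨Kg, nx, g_mem, g_bot, g_top, g_nx⟩ := ao_grid c (π.Γ / π.d) (div_pos hΓ hd)
  obtain ⟨ρ1, hρ1, H1⟩ := hG Kg g_mem g hg1 hg2 δ hδ
  obtain ⟨ρ2, hρ2, H2⟩ := hT Kg g_mem g hg1 hg2 δ hδ
  obtain ⟨ρ3, hρ3, H3⟩ := hw δ hδ
  have hc1 : 0 < c + 1 := by linarith
  refine ⟨min ρ1 (min ρ2 (min ρ3 (g / (c + 1)))), lt_min hρ1 (lt_min hρ2 (lt_min hρ3 (div_pos hg1 hc1))), ?_⟩
  intro h t v hh hhρ a3 a4 a5 a6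
  have r1 : h ≤ ρ1 := hhρ.trans (min_le_left _ _)
  have r2 : h ≤ ρ2 := hhρ.trans ((min_le_right _ _).trans (min_le_left _ _))
  have r3 : h ≤ ρ3 := hhρ.trans ((min_le_right _ _).trans ((min_le_right _ _).trans (min_le_left _ _)))
  have r4 : h ≤ g / (c + 1) := hhρ.trans ((min_le_right _ _).trans ((min_le_right _ _).trans (min_le_right _ _)))
  have r4' : (c + 1) * h ≤ g := by
    rw [le_div_iff₀ hc1] at r4; linarith
  obtain ⟨B, hB, hgeo⟩ := H1 h t v hh r1 a3 a4 a5 a6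
  have htime := H2 h t v hh r2 a3 a4 a5 a6
  have hv : 0 ≤ v := by
    have : 0 ≤ π.J * t := mul_nonneg hJ (by linarith)
    linarith
  set p : FsPt := aoPt q quad c Ks g t v h with hp
  have hfam : ∀ x : ℝ, 0 ≤ x → (p.qg x).Fam π := fun x hx => ⟨hx, hq.2.1, hq.2.2⟩
  have hkR : ∀ k, p.kR k = if quad then k / 2 else k := fun k => rfl
  have hkR0 : ∀ k, c ≤ k → 0 ≤ p.kR k := by
    intro k hk'
    rw [hkR]
    split_ifs <;> linarith
  have hDe1 : ∀ x : ℝ, (p.qg x).ds.De = 1 := fun x => hDe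
  have H : FsHyp S {1} p Kg nx (π.Γ / π.d) B :=
    { val := hπ, flat := hF, h0 := hh, B0 := hB, μ0 := (div_pos hΓ hd).le, g_mem := g_mem, g_bot := g_bot, g_top := g_top, g_nx := g_nx
      okC := ⟨hfam g hg1.le, by rw [hDe1]; rfl, by show 0 ≤ 1 - t - h; linarith, by rw [hDe1]; show 1 - t - h ≤ 1; linarith, hv⟩
      okO := ⟨hfam g hg1.le, by rw [hDe1]; rfl, by show 0 ≤ 1 - t - h + h; linarith, by rw [hDe1]; show 1 - t - h + h ≤ 1; linarith, hv⟩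
      okK := by
        intro k hkK
        obtain ⟨k1, k2⟩ := g_mem k hkK
        have n1 : 0 ≤ p.kR k * h := mul_nonneg (hkR0 k k1) hh.le
        have n2 : 0 ≤ k * h := mul_nonneg (by linarith) hh.le
        have n3 : k * h ≤ (c + 1) * h := mul_le_mul_of_nonneg_right k2 hh.le
        refine ⟨⟨hfam g hg1.le, by rw [hDe1]; rfl, by show 0 ≤ 1 - t - h; linarith, by rw [hDe1]; show 1 - t - h ≤ 1; linarith, ?_⟩,
          ⟨hfam _ ?_, by rw [hDe1]; rfl, by show 0 ≤ 1 - t - h; linarith, by rw [hDe1]; show 1 - t - h ≤ 1; linarith, ?_⟩,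
          ⟨hfam _ ?_, by rw [hDe1]; rfl, by show 0 ≤ 1 - t - h; linarith, by rw [hDe1]; show 1 - t - h ≤ 1; linarith, hv⟩⟩
        · show 0 ≤ v + p.kR k * h
          linarith
        · show 0 ≤ g + k * h
          linarith
        · show 0 ≤ v + p.kR k * h
          linarith
        · show 0 ≤ g - k * h
          linarith
      geo := hgeo, time := htime }
  obtain ⟨k, hkK, hst⟩ := fs_step H (by rw [mul_div_cancel₀ _ hd.ne']) (fun k hkK => H3 h t v hh r3 a5 k (g_mem k hkK).1)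
    (fun k hkK => (hk k (g_mem k hkK).1 (g_mem k hkK).2).2.2)
  obtain ⟨k1, k2⟩ := g_mem k hkK
  refine ⟨p.kR k, (hk k k1 k2).1, (hk k k1 k2).2.1, ?_⟩
  have e1 : (1 : ℝ) - t - h + h = 1 - t := by ring
  have e2 : (1 : ℝ) - (t + h) = 1 - t - h := by ring
  show π.Γ * h - S.HC (S.Xc (v + Ks * h)) (S.nm (q.en g) (1 - t - h) v)
    ≤ S.E (q.en g) (1 - t) v - S.E (q.en g) (1 - (t + h)) (v + p.kR k * h)
  rw [e2]
  have hst' : π.Γ * h - S.HC (S.Xc (v + Ks * h)) (S.nm (q.en g) (1 - t - h) v)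
    ≤ S.E (q.en g) (1 - t - h + h) v - S.E (q.en g) (1 - t - h) (v + p.kR k * h) := hst
  rw [e1] at hst'
  exact hst'

end

end Claimed.Agent.R256
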