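import Claimed.Agent.R256.Act.GeoStep
import Claimed.Agent.R256.Act.OgsStep
import Claimed.Agent.R256.Act.FsLink
import Claimed.Agent.R256.Nm.Pro.Amb

/-!
# Row 256, section Act, unit GEO, file 6: **(act:step-geometry) = `FsGeo`, `AoGeo`**      (architect helper209; prefix `ag_`)

* `p.st : AgSt` (`Act/FsLink.lean`, helper277) = the root of the finite step `p : FsPt`;   the observables of `Act/FsDefs.lean` are those of `Act/GeoDefs.lean` (definitional equalities).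
* `ag_fsgeo` : `p.st.Ok π`, `p.st.OkK π k (p.kR k)` (`k ∈ Kg`), no global bin, `nmK0 ≤ N0`   ⟹   `FsGeo D π p 31 N0 Kg`   (G1 `ag_G1n`, `ag_G1d`; G2 `ag_G2`; G3 `ag_G3`; refinements `ag_nval_up`).
* `ag_big` : `K ≤ s^(-acc)` for `uf`-most configurations;   `ag_geo_of_ok` : `AoGeo` from the linear conditions on the exponents.
* EXITS `ag_geo_strong`, `ag_geo_weak`, `ag_geo_lin` = `ao_geo_strong`, `ao_geo_weak`, `ao_geo_lin` of `Act/Ogs.lean` (fewer hypotheses), `Ks0 = c + 1`, `g0 = wd = 1`.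
-/

set_option autoImplicit false

namespace Claimed.Agent.R256

open Claimed.Agent.R255
open Claimed.Agent.R255.FLaw (pair)
open Filter Topology
open Classical

noncomputable section

theorem ag_fs_Vn (x : NmRaw) (s : ℝ) (π : SfPar) (p : FsPt) : x.fsVn s π p = x.agVn s π p.st := rfl

theorem ag_fs_Vd (x : NmRaw) (s : ℝ) (π : SfPar) (p : FsPt) : x.fsVd s π p = x.agVd s π p.st := rfl

theorem ag_fs_Th (x : NmRaw) (s : ℝ) (p : FsPt) : x.fsTh s p = x.agTh s p.st := rfl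

theorem ag_kR_mono (p : FsPt) {k k' : ℝ} (h : k ≤ k') : p.kR k ≤ p.kR k' := by
  unfold FsPt.kR
  split_ifs <;> linarith

/-- without a global bin the ray of the raw datum is the ray of the row -/
theorem ag_raw_z (D : SfDoc) (π : SfPar) (ds : NmDs) (hgl : ds.glob = false) (ω ω' : D.Row 1) (h : D.ray 1 ω = D.ray 1 ω') :
    (D.raw π ds ω).z = (D.raw π ds ω').z := by
  have hk : ∀ ω, D.kbar π ds ω = 0 := fun ω => by
    unfold SfDoc.kbar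
    rw [hgl]
    simp
  simp only [SfDoc.raw, hk, h]

/-- **(act:step-geometry) on one documented configuration** -/
theorem ag_fsgeo (D : SfDoc) (π : SfPar) (p : FsPt) (hs : 0 < D.s ∧ D.s < 1) (hgl : p.q.ds.glob = false) (hσ : p.st.Ok π) (Kg : Finset ℝ)
    (hK : ∀ k ∈ Kg, p.st.OkK π k (p.kR k)) (N0 : ℝ) (hN : nmK0 ≤ N0) : FsGeo D π p 31 N0 Kg := by
  obtain ⟨h0, h1⟩ := hs
  have hh := hσ.h0
  have hh' : 0 < p.h := hh
  have hc0 : 0 ≤ p.c := hσ.c0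
  have hg0 : 0 ≤ p.g := by
    have h2 : (p.c + 1) * p.h ≤ p.g := hσ.g
    have : 0 ≤ (p.c + 1) * p.h := by positivity
    linarith
  have hq : (p.qg p.g).Ok π := hσ.q
  have hK0 : (64 : ℝ) ≤ N0 := le_trans (by unfold nmK0; norm_num) hN
  have hK1 : (10 : ℝ) ^ 6 ≤ N0 := le_trans (by unfold nmK0; norm_num) hN
  have iC : ∀ ω ω', D.atq π p.aC ω = D.atq π p.aC ω' → (D.raw π p.q.ds ω).agC D.s π p.st = (D.raw π p.q.ds ω').agC D.s π p.st :=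
    fun ω ω' h => Sum.inl.inj h
  have iO : ∀ ω ω', D.atq π p.aO ω = D.atq π p.aO ω' → (D.raw π p.q.ds ω).agO D.s π p.st = (D.raw π p.q.ds ω').agO D.s π p.st :=
    fun ω ω' h => Sum.inl.inj h
  have eVn : ∀ ω, D.fsVn π p ω = (D.raw π p.q.ds ω).agVn D.s π p.st := fun ω => ag_fs_Vn _ _ _ _
  have eVd : ∀ ω, D.fsVd π p ω = (D.raw π p.q.ds ω).agVd D.s π p.st := fun ω => ag_fs_Vd _ _ _ _
  have eTh : ∀ ω, D.fsTh π p ω = (D.raw π p.q.ds ω).agTh D.s p.st := fun ω => ag_fs_Th _ _ _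
  refine ⟨?_, ?_, ?_, ?_, ?_, ?_, ?_⟩
  · intro ω ω' _ _ hy hC
    rw [eVn, eVn, eVd, eVd]
    exact ag_V_fun (D.raw π p.q.ds ω) (D.raw π p.q.ds ω') (ag_raw_z D π _ hgl ω ω' (congrArg Prod.snd hy)) (iC ω ω' hC)
  · intro ω ω' _ _ hO hC
    rw [eVn, eVn]
    exact ag_G1n h0 h1 hσ _ _ (iC ω ω' hC) (iO ω ω' hO)
  · intro ω ω' _ _ hO hC
    rw [eVn, eVn, eVd, eVd, eTh]
    exact ag_G1d h0 h1 hσ _ _ (iC ω ω' hC) (iO ω ω' hO)
  · intro k hk ω₀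
    obtain ⟨T, hT, hmem⟩ := ag_G2 h0 h1 hσ (hK k hk) ((D.raw π p.q.ds ω₀).agX D.s p.st) ((D.raw π p.q.ds ω₀).agB D.s π p.st k (p.kR k))
      ((D.raw π p.q.ds ω₀).agV D.s π p.st k)
    refine ⟨T.image Sum.inl, le_trans (Nat.cast_le.2 Finset.card_image_le) (hT.trans hK0), fun ω _ _ h => ?_⟩
    obtain ⟨e1, h⟩ := List.cons.inj h
    obtain ⟨_, h⟩ := List.cons.inj h
    obtain ⟨e3, h⟩ := List.cons.inj h
    obtain ⟨e4, _⟩ := List.cons.inj h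
    exact Finset.mem_image_of_mem _ (hmem _ (Sum.inl.inj (Sum.inr.inj e3)) (Sum.inl.inj e4) (Sum.inl.inj e1))
  · intro k hk ω₀
    obtain ⟨T, hT, hmem⟩ := ag_G3 h0 h1 hσ (hK k hk) ((D.raw π p.q.ds ω₀).agO D.s π p.st) ((D.raw π p.q.ds ω₀).agC D.s π p.st)
      ((D.raw π p.q.ds ω₀).agX D.s p.st)
    have hpos : 0 ≤ D.s ^ (-((3 * p.kR k - 2) * p.h)) := (Real.rpow_pos_of_pos h0 _).le
    refine ⟨T.image Sum.inl, le_trans (Nat.cast_le.2 Finset.card_image_le) (hT.trans (mul_le_mul_of_nonneg_right hK1 hpos)), fun ω _ _ h => ?_⟩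
    obtain ⟨e1, h⟩ := List.cons.inj h
    obtain ⟨e2, h⟩ := List.cons.inj h
    obtain ⟨e3, _⟩ := List.cons.inj h
    exact Finset.mem_image_of_mem _ (hmem _ (Sum.inl.inj e2) (Sum.inl.inj e3) (Sum.inl.inj (Sum.inr.inj e1)))
  · intro ω₀
    have hw : (p.qg p.g).w π p.a p.v - p.g ≤ (p.qg p.g).w π (p.a + p.h) p.v - p.g := by
      have e : (p.qg p.g).w π (p.a + p.h) p.v = (p.qg p.g).w π p.a p.v + p.c * p.h := hσ.wO
      have : 0 ≤ p.c * p.h := by positivity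
      linarith
    obtain ⟨T, hT, hmem⟩ := ag_refine_up h0 h1 hq (show p.a ≤ p.a + p.h by linarith) (le_refl p.v) hg0 hw (D.nm π (p.qg p.g) (p.a + p.h) p.v ω₀)
    exact ⟨T.image Sum.inl, le_trans (Nat.cast_le.2 Finset.card_image_le) (hT.trans hN), fun ω _ _ h =>
      Finset.mem_image_of_mem _ (hmem _ (Sum.inl.inj h))⟩
  · intro k hk k' hk' hkk ω₀
    have hk0 : 0 ≤ k := by
      have := (hK k hk).kR1
      have := (hK k hk).kRk
      linarith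
    have hw : (p.qg p.g).w π p.a (p.v + p.kR k * p.h) - (p.g + k * p.h) ≤ (p.qg p.g).w π p.a (p.v + p.kR k' * p.h) - (p.g + k' * p.h) := by
      have e : (p.qg p.g).w π p.a (p.v + p.kR k * p.h) = (p.qg p.g).w π p.a p.v + k * p.h := (hK k hk).wK
      have e' : (p.qg p.g).w π p.a (p.v + p.kR k' * p.h) = (p.qg p.g).w π p.a p.v + k' * p.h := (hK k' hk').wK
      linarith
    have hv : p.v + p.kR k * p.h ≤ p.v + p.kR k' * p.h := by
      have := mul_le_mul_of_nonneg_right (ag_kR_mono p hkk) hh'.le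
      linarith
    obtain ⟨T, hT, hmem⟩ := ag_refine_up h0 h1 hq (le_refl p.a) hv (show 0 ≤ p.g + k * p.h by positivity) hw
      (D.nm π (p.qg (p.g + k' * p.h)) p.a (p.v + p.kR k' * p.h) ω₀)
    refine ⟨T.image Sum.inl, le_trans (Nat.cast_le.2 Finset.card_image_le) (hT.trans hN), fun ω _ _ h => ?_⟩
    obtain ⟨_, h⟩ := List.cons.inj h
    obtain ⟨_, h⟩ := List.cons.inj h
    obtain ⟨e3, _⟩ := List.cons.inj h
    exact Finset.mem_image_of_mem _ (hmem _ (Sum.inl.inj e3))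

section sq

variable {π : SfPar} {C0 : ℝ} {κ : ℝ → ℝ} (S : NmSeq π C0 κ)

/-- constants are absorbed by `s^(-acc)` -/
theorem ag_big (K acc : ℝ) (hacc : 0 < acc) : ∀ᶠ n in uf, K ≤ (S.D n).s ^ (-acc) := by
  filter_upwards [(nm_pro_lgs_atTop S).eventually_ge_atTop (Real.log (max K 1) / acc)] with n hn
  rw [nm_pro_rpow_exp (nm_pro_hs S n)]
  have h2 : Real.log (max K 1) ≤ acc * lg (S.D n).s := by
    rw [div_le_iff₀ hacc] at hn
    have e : (S.D n).lgs = lg (S.D n).s := rfl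
    rw [e] at hn
    linarith
  have h3 : (0 : ℝ) < max K 1 := lt_of_lt_of_le one_pos (le_max_right _ _)
  calc K ≤ max K 1 := le_max_left _ _
    _ = Real.exp (Real.log (max K 1)) := (Real.exp_log h3).symm
    _ ≤ _ := Real.exp_le_exp.2 h2

/-- `AoGeo` from the linear conditions on the exponents -/
theorem ag_geo_of_ok (q : NmQ) (quad : Bool) (c kmax Ks g0 t0 t1 wd : ℝ) (hgl : q.ds.glob = false)
    (H : ∀ g, 0 < g → g ≤ g0 → ∀ δ, 0 < δ → ∃ ρ, 0 < ρ ∧ ∀ h t v, 0 < h → h ≤ ρ → t0 < t → t + h < t1 → π.J * t + δ ≤ v →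
      v + kmax * h ≤ π.J * (t + h) + wd → (aoPt q quad c Ks g t v h).st.Ok π ∧
        ∀ k, c ≤ k → k ≤ c + 1 → (aoPt q quad c Ks g t v h).st.OkK π k ((aoPt q quad c Ks g t v h).kR k)) :
    AoGeo S q quad c kmax Ks g0 t0 t1 wd := by
  intro Kg hKg g hg1 hg2 δ hδ
  obtain ⟨ρ, hρ, H⟩ := H g hg1 hg2 δ hδ
  refine ⟨ρ, hρ, fun h t v a1 a2 a3 a4 a5 a6 => ⟨31, by norm_num, fun acc hacc => ?_⟩⟩
  obtain ⟨u1, u2⟩ := H h t v a1 a2 a3 a4 a5 a6
  filter_upwards [ag_big S nmK0 acc hacc] with n hn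
  exact ag_fsgeo (S.D n) π _ (nm_pro_hs S n) hgl u1 Kg (fun k hk => u2 k (hKg k hk).1 (hKg k hk).2) _ hn

/-- **(act:step-geometry), unclipped quadratic equality branch** = `ao_geo_strong` -/
theorem ag_geo_strong (hπ : π.Valid) (h1 : 0 < π.c2) (h2 : π.q = π.c2) (h3 : 3 < π.c2) (t0 t1 : ℝ) :
    ∃ Ks0 : ℝ, ∀ Ks : ℝ, Ks0 ≤ Ks → ∃ g0 wd : ℝ, 0 < g0 ∧ 0 < wd ∧
      AoGeo S ⟨nmDsEq π, NmTp.quad, 0⟩ true π.c2 ((π.c2 + 1) / 2) Ks g0 t0 t1 wd := by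
  refine ⟨π.c2 + 1, fun Ks hKs => ⟨1, 1, one_pos, one_pos, ag_geo_of_ok S _ _ _ _ _ _ _ _ _ rfl ?_⟩⟩
  intro g hg1 _ δ _
  have hc1 : 0 < π.c2 + 1 := by linarith
  refine ⟨g / (π.c2 + 1), div_pos hg1 hc1, fun h t v a1 a2 _ _ _ _ => ?_⟩
  have r : (π.c2 + 1) * h ≤ g := by
    rw [le_div_iff₀ hc1] at a2; linarith
  have hq : (⟨nmDsEq π, NmTp.quad, g⟩ : NmQ).Ok π :=
    nm_fam_ok π hπ _ ⟨hg1.le, (fun h => by cases h), Or.inl ⟨h1, h2, rfl, (fun h => by cases h)⟩⟩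
  have ek : ∀ k, (aoPt ⟨nmDsEq π, NmTp.quad, 0⟩ true π.c2 Ks g t v h).kR k = k / 2 := fun k => by simp [FsPt.kR, aoPt]
  refine ⟨⟨hq, a1, h1.le, ?_, r, hKs⟩, fun k k1 k2 => ?_⟩
  · show (nmDsEq π).b (1 - t - h + h) + 2 * v = (nmDsEq π).b (1 - t - h) + 2 * v + π.c2 * h
    simp only [NmDs.b, nmDsEq]
    ring
  · rw [ek]
    refine ⟨by linarith, by linarith, k2, ?_, ?_⟩
    · show (nmDsEq π).b (1 - t - h) + 2 * (v + k / 2 * h) = (nmDsEq π).b (1 - t - h) + 2 * v + k * h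
      ring
    · show (nmDsEq π).b (1 - t - h) + (v + k / 2 * h) ≤ (nmDsEq π).b (1 - t - h + h) + v
      simp only [NmDs.b, nmDsEq]
      have := mul_nonneg (show 0 ≤ π.c2 - k / 2 by linarith) a1.le
      nlinarith

/-- **(act:step-geometry), right part of the clipped equality template** = `ao_geo_weak` -/
theorem ag_geo_weak (hπ : π.Valid) (h1 : 0 < π.c2) (h2 : π.q = π.c2) (h3 : 1 ≤ π.c2 - π.J) (t0 t1 : ℝ) :
    ∃ Ks0 : ℝ, ∀ Ks : ℝ, Ks0 ≤ Ks → ∃ g0 wd : ℝ, 0 < g0 ∧ 0 < wd ∧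
      AoGeo S ⟨nmDsEq π, NmTp.clip, 0⟩ false (π.c2 - π.J) (π.c2 - π.J + 1) Ks g0 t0 t1 wd := by
  refine ⟨π.c2 - π.J + 1, fun Ks hKs => ⟨1, 1, one_pos, one_pos, ag_geo_of_ok S _ _ _ _ _ _ _ _ _ rfl ?_⟩⟩
  intro g hg1 _ δ hδ
  have hJ := hπ.J0
  have hc1 : 0 < π.c2 - π.J + 1 := by linarith
  have hJ1 : 0 < π.J + 1 := by linarith
  refine ⟨min (g / (π.c2 - π.J + 1)) (δ / (π.J + 1)), lt_min (div_pos hg1 hc1) (div_pos hδ hJ1), fun h t v a1 a2 _ _ a5 _ => ?_⟩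
  have r : (π.c2 - π.J + 1) * h ≤ g := by
    have := a2.trans (min_le_left _ _)
    rw [le_div_iff₀ hc1] at this; linarith
  have r2 : π.J * h ≤ δ := by
    have := a2.trans (min_le_right _ _)
    rw [le_div_iff₀ hJ1] at this; linarith
  have hr : 0 < π.Cr := by rw [SfPar.Cr, h2]; linarith
  have hq : (⟨nmDsEq π, NmTp.clip, g⟩ : NmQ).Ok π :=
    nm_fam_ok π hπ _ ⟨hg1.le, fun _ => hr, Or.inl ⟨h1, h2, rfl, (fun h => by cases h)⟩⟩
  have ek : ∀ k, (aoPt ⟨nmDsEq π, NmTp.clip, 0⟩ false (π.c2 - π.J) Ks g t v h).kR k = k := fun k => by simp [FsPt.kR, aoPt]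
  have eb : ∀ a, (nmDsEq π).b a = π.c2 * (a - 1) := fun a => by simp only [NmDs.b, nmDsEq]; ring
  have e1 : ∀ a, π.b1 a = (π.c2 - π.J) * (a - 1) := fun a => by rw [SfPar.b1, h2]
  have m1 : ∀ y, 0 ≤ y → min ((nmDsEq π).b (1 - t - h) + (v + y)) (π.b1 (1 - t - h)) = π.b1 (1 - t - h) := fun y hy => by
    apply min_eq_right
    rw [eb, e1]
    nlinarith
  have m2 : min ((nmDsEq π).b (1 - t - h + h) + v) (π.b1 (1 - t - h + h)) = π.b1 (1 - t - h + h) := by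
    apply min_eq_right
    rw [eb, e1]
    nlinarith
  have m0 : min ((nmDsEq π).b (1 - t - h) + v) (π.b1 (1 - t - h)) = π.b1 (1 - t - h) := by
    have := m1 0 le_rfl
    rwa [add_zero] at this
  refine ⟨⟨hq, a1, (show 0 ≤ π.c2 - π.J by linarith), ?_, r, hKs⟩, fun k k1 k2 => ?_⟩
  · show min ((nmDsEq π).b (1 - t - h + h) + v) (π.b1 (1 - t - h + h)) + v
      = min ((nmDsEq π).b (1 - t - h) + v) (π.b1 (1 - t - h)) + v + (π.c2 - π.J) * h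
    rw [m2, m0, e1, e1]
    ring
  · rw [ek]
    have hk0 : 0 ≤ k * h := mul_nonneg (by linarith) a1.le
    refine ⟨by linarith, le_rfl, k2, ?_, ?_⟩
    · show min ((nmDsEq π).b (1 - t - h) + (v + k * h)) (π.b1 (1 - t - h)) + (v + k * h)
        = min ((nmDsEq π).b (1 - t - h) + v) (π.b1 (1 - t - h)) + v + k * h
      rw [m1 _ hk0, m0]
      ring
    · show min ((nmDsEq π).b (1 - t - h) + (v + k * h)) (π.b1 (1 - t - h)) ≤ min ((nmDsEq π).b (1 - t - h + h) + v) (π.b1 (1 - t - h + h))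
      rw [m1 _ hk0, m2, e1, e1]
      have := mul_nonneg (show 0 ≤ π.c2 - π.J by linarith) a1.le
      nlinarith

/-- **(act:step-geometry), pure linear template** = `ao_geo_lin` -/
theorem ag_geo_lin (hπ : π.Valid) (h0 : π.c2 = 0) (h1 : 0 < π.c1) (h2 : π.q = π.c1 + π.J) (h3 : 1 ≤ π.c1) (t0 t1 : ℝ) :
    ∃ Ks0 : ℝ, ∀ Ks : ℝ, Ks0 ≤ Ks → ∃ g0 wd : ℝ, 0 < g0 ∧ 0 < wd ∧
      AoGeo S ⟨nmDsLin, NmTp.plin, 0⟩ false π.c1 (π.c1 + 1) Ks g0 t0 t1 wd := by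
  refine ⟨π.c1 + 1, fun Ks hKs => ⟨1, 1, one_pos, one_pos, ag_geo_of_ok S _ _ _ _ _ _ _ _ _ rfl ?_⟩⟩
  intro g hg1 _ δ _
  have hc1 : 0 < π.c1 + 1 := by linarith
  refine ⟨g / (π.c1 + 1), div_pos hg1 hc1, fun h t v a1 a2 _ _ _ _ => ?_⟩
  have r : (π.c1 + 1) * h ≤ g := by
    rw [le_div_iff₀ hc1] at a2; linarith
  have hq : (⟨nmDsLin, NmTp.plin, g⟩ : NmQ).Ok π :=
    nm_fam_ok π hπ _ ⟨hg1.le, (fun h => by cases h), Or.inr (Or.inl ⟨h0, h1, rfl, rfl⟩)⟩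
  have ek : ∀ k, (aoPt ⟨nmDsLin, NmTp.plin, 0⟩ false π.c1 Ks g t v h).kR k = k := fun k => by simp [FsPt.kR, aoPt]
  have e1 : ∀ a, π.b1 a = π.c1 * (a - 1) := fun a => by rw [SfPar.b1, h2]; ring
  refine ⟨⟨hq, a1, h1.le, ?_, r, hKs⟩, fun k k1 k2 => ?_⟩
  · show π.b1 (1 - t - h + h) + v = π.b1 (1 - t - h) + v + π.c1 * h
    rw [e1, e1]
    ring
  · rw [ek]
    refine ⟨by linarith, le_rfl, k2, ?_, ?_⟩
    · show π.b1 (1 - t - h) + (v + k * h) = π.b1 (1 - t - h) + v + k * h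
      ring
    · show π.b1 (1 - t - h) ≤ π.b1 (1 - t - h + h)
      rw [e1, e1]
      have := mul_nonneg h1.le a1.le
      nlinarith

end sq

end

end Claimed.Agent.R256
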