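import Claimed.Agent.R256.Act.OgsDefs
import Claimed.Agent.R256.Nm.Contract

/-!
# Row 256, section Act, unit OGS, file 2: THE FIELDS OF `OgData.Facts` WHICH ARE GLUE ON `Nm/Contract.lean`      (architect helper137; prefix `ao_`)

`AoStep`, `AoShift`, `AoEnl` = the three analytic inputs ((step): FS, helper277; (shift), (enl): GEO, helper209) in terms of the profiles.
`ao_facts` : these + (surplus), (freeze) + seam equality give `(aoD S q c).Facts`, for every classical query `q` with endpoint `1`.   No `sorry` in this file.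
-/

set_option autoImplicit false

namespace Claimed.Agent.R256

open Claimed.Agent.R255
open MeasureTheory Filter Topology

section

variable {π : SfPar} {C0 : ℝ} {κ : ℝ → ℝ} (S : NmSeq π C0 κ)

/-- **(step)** on the strip of width `wd` to the right of the seam, times in `(t0, t1)`, speeds in `[kmin, kmax]` -/
def AoStep (q : NmQ) (kmin kmax Ks g0 t0 t1 wd : ℝ) : Prop :=
  ∀ g, 0 < g → g ≤ g0 → ∀ δ, 0 < δ → ∃ ρ, 0 < ρ ∧ ∀ h t v, 0 < h → h ≤ ρ → t0 < t →
    t + h < t1 → π.J * t + δ ≤ v → v + kmax * h ≤ π.J * (t + h) + wd →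
    ∃ k, kmin ≤ k ∧ k ≤ kmax ∧
      π.Γ * h - aoMX S q Ks t v h g ≤ aoEg S q g t v - aoEg S q g (t + h) (v + k * h)

/-- **(shift)**, forward time, at a common angular depth `x` : the enlarged name at `(a, v)` predicts the ordinary name at `(a', y)`, `a' + A0 g < a`, `y ≤ v` -/
def AoShift (q : NmQ) (A0 g0 : ℝ) : Prop :=
  ∀ g a a' v y x : ℝ, 0 < g → g ≤ g0 → 0 < a' → a' + A0 * g < a → a < 1 → 0 ≤ y → y ≤ v → v ≤ π.J + 1 → v ≤ x →
    S.U (q.en g) x a v ≤ S.U q x a' y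

/-- **(enl)** -/
def AoEnl (q : NmQ) (Ce g0 : ℝ) : Prop :=
  ∀ g a v : ℝ, 0 < g → g ≤ g0 → 0 < a → a < 1 → 0 ≤ v → v ≤ π.J + 1 → |S.E (q.en g) a v - S.E q a v| ≤ Ce * g

theorem ao_glue_eqns_cite : True := by
  have := @AoStep.eq_1
  have := @AoShift.eq_1
  have := @AoEnl.eq_1
  trivial

variable {S}

theorem AoStep.mono {q : NmQ} {kmin kmax Ks g0 t0 t1 wd g0' wd' : ℝ} (h : AoStep S q kmin kmax Ks g0 t0 t1 wd)
    (hg : g0' ≤ g0) (hw : wd' ≤ wd) : AoStep S q kmin kmax Ks g0' t0 t1 wd' := by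
  intro g h1 h2 δ hδ
  obtain ⟨ρ, hρ, H⟩ := h g h1 (h2.trans hg) δ hδ
  exact ⟨ρ, hρ, fun h t v a1 a2 a3 a4 a5 a6 => H h t v a1 a2 a3 a4 a5 (by linarith)⟩

theorem AoShift.mono {q : NmQ} {A0 g0 g0' : ℝ} (h : AoShift S q A0 g0) (hg : g0' ≤ g0) : AoShift S q A0 g0' :=
  fun g a a' v y x h1 h2 => h g a a' v y x h1 (h2.trans hg)

theorem AoEnl.mono {q : NmQ} {Ce g0 g0' : ℝ} (h : AoEnl S q Ce g0) (hg : g0' ≤ g0) : AoEnl S q Ce g0' :=
  fun g a v h1 h2 => h g a v h1 (h2.trans hg)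

variable (S)

theorem ao_fam_en {q : NmQ} (hq : q.Fam π) {g : ℝ} (hg : 0 ≤ g) : (q.en g).Fam π := ⟨hg, hq.2.1, hq.2.2⟩

/-- the normal depth is Lipschitz -/
theorem ao_w_lip (q : NmQ) (a a' v v' : ℝ) :
    |q.w π a v - q.w π a' v'| ≤ (|q.ds.bs| + |π.q - π.J|) * |a - a'| + 2 * |v - v'| := by
  have hb : |q.ds.b a - q.ds.b a'| = |q.ds.bs| * |a - a'| := by
    rw [← abs_mul]; congr 1; simp only [NmDs.b]; ring
  have h1 : |π.b1 a - π.b1 a'| = |π.q - π.J| * |a - a'| := by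
    rw [← abs_mul]; congr 1; simp only [SfPar.b1]; ring
  have n1 : 0 ≤ |q.ds.bs| * |a - a'| := by positivity
  have n2 : 0 ≤ |π.q - π.J| * |a - a'| := by positivity
  have n3 : 0 ≤ |v - v'| := abs_nonneg _
  rw [add_mul]
  unfold NmQ.w
  cases q.tp with
  | quad =>
    show |q.ds.b a + 2 * v - (q.ds.b a' + 2 * v')| ≤ _
    have e : q.ds.b a + 2 * v - (q.ds.b a' + 2 * v') = (q.ds.b a - q.ds.b a') + 2 * (v - v') := by ring
    rw [e]
    refine (abs_add_le _ _).trans ?_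
    rw [abs_mul, abs_two, hb]
    linarith
  | clip =>
    show |min (q.ds.b a + v) (π.b1 a) + v - (min (q.ds.b a' + v') (π.b1 a') + v')| ≤ _
    have e : min (q.ds.b a + v) (π.b1 a) + v - (min (q.ds.b a' + v') (π.b1 a') + v')
        = (min (q.ds.b a + v) (π.b1 a) - min (q.ds.b a' + v') (π.b1 a')) + (v - v') := by ring
    rw [e]
    refine (abs_add_le _ _).trans ?_
    have h2 := abs_min_sub_min_le_max (q.ds.b a + v) (π.b1 a) (q.ds.b a' + v') (π.b1 a')
    have h3 : |q.ds.b a + v - (q.ds.b a' + v')| ≤ |q.ds.bs| * |a - a'| + |v - v'| := by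
      have e2 : q.ds.b a + v - (q.ds.b a' + v') = (q.ds.b a - q.ds.b a') + (v - v') := by ring
      rw [e2, ← hb]
      exact abs_add_le _ _
    have h4 : max |q.ds.b a + v - (q.ds.b a' + v')| |π.b1 a - π.b1 a'|
        ≤ |q.ds.bs| * |a - a'| + |π.q - π.J| * |a - a'| + |v - v'| := by
      refine max_le (by linarith) (by rw [h1]; linarith)
    linarith
  | plin =>
    show |π.b1 a + v - (π.b1 a' + v')| ≤ _
    have e : π.b1 a + v - (π.b1 a' + v') = (π.b1 a - π.b1 a') + (v - v') := by ring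
    rw [e]
    refine (abs_add_le _ _).trans ?_
    rw [h1]
    linarith

/-- the excess is Lipschitz -/
theorem ao_E_lip (hπ : π.Valid) (q : NmQ) (hq : q.Fam π) : ∃ L : ℝ, 0 ≤ L ∧ ∀ a a' v v' : ℝ,
    |S.E q a v - S.E q a' v'| ≤ L * (|a - a'| + |v - v'|) := by
  obtain ⟨C, hC⟩ := nm_H_lip S hπ q hq
  refine ⟨|C| + |π.p + π.d| + 4 + (|q.ds.bs| + |π.q - π.J| + 2), by positivity, fun a a' v v' => ?_⟩
  have hη := hπ.eta
  have h1 := hC a a' v v'
  have h2 := ao_w_lip (π := π) q a a' v v'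
  have n1 : 0 ≤ |a - a'| := abs_nonneg _
  have n2 : 0 ≤ |v - v'| := abs_nonneg _
  have e : S.E q a v - S.E q a' v' = (S.H q a v - S.H q a' v') - (π.p + π.d) * (a - a') - (3 + π.η) * (v - v')
      - (1 - π.η) * (q.w π a v - q.w π a' v') := by
    simp only [NmSeq.E, NmQ.Z, NmQ.W]; ring
  have t1 : |S.H q a v - S.H q a' v'| ≤ |C| * (|a - a'| + |v - v'|) :=
    h1.trans (mul_le_mul_of_nonneg_right (le_abs_self C) (by positivity))
  have t2 : |(π.p + π.d) * (a - a')| ≤ |π.p + π.d| * (|a - a'| + |v - v'|) := by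
    rw [abs_mul]; exact mul_le_mul_of_nonneg_left (by linarith) (abs_nonneg _)
  have t3 : |(3 + π.η) * (v - v')| ≤ 4 * (|a - a'| + |v - v'|) := by
    rw [abs_mul, abs_of_pos (by linarith : (0 : ℝ) < 3 + π.η)]
    nlinarith
  have t4 : |(1 - π.η) * (q.w π a v - q.w π a' v')| ≤ (|q.ds.bs| + |π.q - π.J| + 2) * (|a - a'| + |v - v'|) := by
    rw [abs_mul, abs_of_pos (by linarith : (0 : ℝ) < 1 - π.η)]
    have n3 : 0 ≤ |q.ds.bs| + |π.q - π.J| := by positivity
    have n4 : 0 ≤ |q.w π a v - q.w π a' v'| := abs_nonneg _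
    calc (1 - π.η) * |q.w π a v - q.w π a' v'| ≤ 1 * |q.w π a v - q.w π a' v'| :=
          mul_le_mul_of_nonneg_right (by linarith) n4
      _ ≤ (|q.ds.bs| + |π.q - π.J|) * |a - a'| + 2 * |v - v'| := by rw [one_mul]; exact h2
      _ ≤ (|q.ds.bs| + |π.q - π.J| + 2) * (|a - a'| + |v - v'|) := by nlinarith
  rw [e]
  have s1 := abs_sub (S.H q a v - S.H q a' v' - (π.p + π.d) * (a - a') - (3 + π.η) * (v - v'))
    ((1 - π.η) * (q.w π a v - q.w π a' v'))
  have s2 := abs_sub (S.H q a v - S.H q a' v' - (π.p + π.d) * (a - a')) ((3 + π.η) * (v - v'))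
  have s3 := abs_sub (S.H q a v - S.H q a' v') ((π.p + π.d) * (a - a'))
  nlinarith

/-- the angular score at the depths `x ≥ v` -/
theorem ao_U_bd (hπ : π.Valid) (q : NmQ) (hq : q.Fam π) (a v x : ℝ) (hx : v ≤ x) : 0 ≤ S.U q x a v ∧ S.U q x a v ≤ x - v := by
  obtain ⟨h0, h1⟩ := nm_U_basic S hπ q hq a v
  have := h1 v x le_rfl hx
  rw [h0] at this
  exact ⟨by linarith [this.1], by linarith [this.2]⟩

theorem ao_U_mono (hπ : π.Valid) (q : NmQ) (hq : q.Fam π) (a v x x' : ℝ) (hx : v ≤ x) (hx' : x ≤ x') : S.U q x a v ≤ S.U q x' a v := by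
  have := ((nm_U_basic S hπ q hq a v).2 x x' hx hx').1
  linarith

/-- the diagonal score is continuous in the width -/
theorem ao_U_cont (hπ : π.Valid) (q : NmQ) (hq : q.Fam π) (a c : ℝ) : Continuous fun y : ℝ => S.U q (max (y + c) y) a y := by
  obtain ⟨-, C, hC⟩ := nm_U_incr S hπ q hq
  have key : ∀ y y' : ℝ, y ≤ y' → |S.U q (max (y + c) y) a y - S.U q (max (y' + c) y') a y'| ≤ (|C| + 1) * |y - y'| := by
    intro y y' hy
    have hx : y ≤ max (y + c) y := le_max_right _ _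
    have hxx : max (y + c) y ≤ max (y' + c) y' := max_le_max (by linarith) hy
    have h1 := (nm_U_basic S hπ q hq a y).2 _ _ hx hxx
    have h2 := hC a a y y' (max (y' + c) y')
    have h3 : max (y' + c) y' - max (y + c) y ≤ y' - y := by
      rcases le_total (y' + c) y' with h | h
      · rw [max_eq_right h, max_eq_right (by linarith : y + c ≤ y)]
      · rw [max_eq_left h, max_eq_left (by linarith : y ≤ y + c)]; linarith
    have h4 : |y - y'| = y' - y := by rw [abs_sub_comm, abs_of_nonneg (by linarith)]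
    rw [sub_self, abs_zero, zero_add] at h2
    have h5 : C * |y - y'| ≤ |C| * |y - y'| := mul_le_mul_of_nonneg_right (le_abs_self C) (abs_nonneg _)
    have e : S.U q (max (y + c) y) a y - S.U q (max (y' + c) y') a y'
        = -(S.U q (max (y' + c) y') a y - S.U q (max (y + c) y) a y) + (S.U q (max (y' + c) y') a y - S.U q (max (y' + c) y') a y') := by ring
    rw [e]
    refine (abs_add_le _ _).trans ?_
    rw [abs_neg, abs_of_nonneg h1.1]
    rw [h4] at h2 h5 ⊢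
    nlinarith [h1.2]
  have hL : LipschitzWith (Real.toNNReal (|C| + 1)) fun y : ℝ => S.U q (max (y + c) y) a y := by
    refine LipschitzWith.of_dist_le_mul fun y y' => ?_
    rw [Real.dist_eq, Real.dist_eq, Real.coe_toNNReal _ (by positivity)]
    rcases le_total y y' with h | h
    · exact key y y' h
    · rw [abs_sub_comm, abs_sub_comm y y']
      exact key y' y h
  exact hL.continuous

/-- **(ang)** at every time, almost every width, all slopes -/
theorem ao_ang (hπ : π.Valid) (q : NmQ) (hq : q.Fam π) (a : ℝ) : ∀ᵐ v : ℝ, ∀ p : ℝ, 0 ≤ p →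
    Tendsto (fun h : ℝ => S.U q (v + p * h) a v / h) (𝓝[>] 0) (𝓝 (S.m q a v * p)) := by
  obtain ⟨hi, C, hC⟩ := nm_U_incr S hπ q hq
  have hbox : ∀ n : ℕ, ∀ᵐ v : ℝ, v ∈ Set.Ioo (-(n : ℝ)) n → ∀ p : ℝ, 0 ≤ p →
      Tendsto (fun h : ℝ => S.U q (v + p * h) a v / h) (𝓝[>] 0) (𝓝 (S.m q a v * p)) := by
    intro n
    exact (nm_tr_ang (fun x a v => S.U q x a v) (a - 1) (a + 1) (-(n : ℝ)) n C
      (fun a _ v _ => (nm_U_basic S hπ q hq a v).1)
      (fun a _ v _ x x' h1 h2 _ => (nm_U_basic S hπ q hq a v).2 x x' h1 h2)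
      (fun a _ a' _ v _ v' _ x x' h1 h2 h3 h4 _ => hi a a' v v' x x' h1 h2 h3 h4)
      (fun a _ a' _ v _ v' _ x => hC a a' v v' x)).1 a ⟨by linarith, by linarith⟩
  filter_upwards [ae_all_iff.2 hbox] with v hv
  obtain ⟨n, hn⟩ := exists_nat_gt |v|
  exact hv n ⟨by linarith [neg_abs_le v], by linarith [le_abs_self v]⟩

/-- **ASSEMBLY** : every field of `OgData.Facts` for the instance `aoD S q c`, classical, endpoint `1`. -/
theorem ao_facts (hπ : π.Valid) (hX : S.HasX) (hc : π.hyb = false) (q : NmQ) (hq : q.Fam π) (hDe : q.ds.De = 1) (c : AoCst)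
    (ht0 : 0 < c.t0) (ht : c.t0 < c.t1) (ht1 : c.t1 < 1) (hwd : 0 < c.wd) (hwd1 : c.wd ≤ 1) (hg : 0 < c.g0)
    (hKs : 0 ≤ c.Ks) (hA0 : 0 ≤ c.A0) (hL : 0 ≤ c.Lip) (hCe : 0 ≤ c.Ce)
    (hlip : ∀ a a' v v' : ℝ, |S.E q a v - S.E q a' v'| ≤ c.Lip * (|a - a'| + |v - v'|))
    (henl : AoEnl S q c.Ce c.g0)
    (hseam : ∀ t, c.t0 < t → t < c.t1 → S.E q (1 - t) (π.J * t) = 0)
    (hstep : AoStep S q c.kmin c.kmax c.Ks c.g0 c.t0 c.t1 c.wd)
    (hshift : AoShift S q c.A0 c.g0)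
    (hsur : ∀ᵐ p : ℝ × ℝ, (aoD S q c).DomR p.1 p.2 → 0 < aoM S q p.1 p.2 → aoM S q p.1 p.2 ≤ c.k0 →
      OgDiniLe (fun τ => aoE S q (p.1 + τ) (p.2 + c.kp * τ)) 0 (-(2 * π.Γ)))
    (hfr : ∀ᵐ p : ℝ × ℝ, (aoD S q c).Dom p.1 p.2 → c.k0 < aoM S q p.1 p.2 →
      OgDiniLe (fun τ => aoE S q (p.1 + τ) p.2) 0 (-(2 * π.Γ))) : (aoD S q c).Facts := by
  have hJ := hπ.J0
  have hyb : ∀ (q' : NmQ) (a v : ℝ), π.hyb = true → q'.g = 0 ∧ q'.w π a v ≤ 0 := by
    intro q' a v h; rw [hc] at h; cases h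
  have hm := nm_m_basic S hπ q hq
  have domR : ∀ {t v : ℝ}, (aoD S q c).DomR t v → c.t0 < t ∧ t < c.t1 ∧ π.J * t ≤ v ∧ v ≤ π.J * t + c.wd := fun h => h
  have dom : ∀ {t v : ℝ}, (aoD S q c).Dom t v → c.t0 < t ∧ t < c.t1 ∧ 0 ≤ v ∧ v ≤ π.J * t + c.wd := fun h => h
  have vnn : ∀ {t v : ℝ}, (aoD S q c).DomR t v → 0 ≤ v ∧ v ≤ π.J + 1 := by
    intro t v h
    obtain ⟨h1, h2, h3, h4⟩ := domR h
    have : 0 ≤ π.J * t := mul_nonneg hJ (by linarith)
    have : π.J * t ≤ π.J * 1 := mul_le_mul_of_nonneg_left (by linarith) hJ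
    exact ⟨by linarith, by linarith⟩
  refine
    { t0_nn := ht0.le, t_lt := ht, wd_pos := hwd, g0_pos := hg, Ks_nn := hKs, A0_nn := hA0, Lip_nn := hL, Ce_nn := hCe,
      E_nn := ?_, E_lip := ?_, Eg_nn := ?_, enl := ?_, seam := hseam, step := hstep, shift := ?_, U_nn := ?_, U_le := ?_,
      U_meas := ?_, ang := ?_, m_nn := ?_, m_mono := ?_, m_meas := ?_, surplus := hsur, freeze := hfr }
  · intro t v h
    obtain ⟨h1, h2, h3, -⟩ := dom h
    exact nm_E_nonneg S hπ hX q hq (1 - t) v ⟨by linarith, by rw [hDe]; linarith⟩ h3 (hyb _ _ _)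
  · intro t v t' v' _ _
    have := hlip (1 - t) (1 - t') v v'
    have e : (1 - t) - (1 - t') = -(t - t') := by ring
    rw [e, abs_neg] at this
    exact this
  · intro g t v h1 _ h
    obtain ⟨h3, h4, -, -⟩ := domR h
    exact nm_E_nonneg S hπ hX (q.en g) (ao_fam_en hq h1.le) (1 - t) v
      ⟨by linarith, by show 1 - t ≤ q.ds.De; rw [hDe]; linarith⟩ (vnn h).1 (hyb _ _ _)
  · intro g t v h1 h2 h
    obtain ⟨h3, h4, -, -⟩ := domR h
    exact henl g (1 - t) v h1 h2 (by linarith) (by linarith) (vnn h).1 (vnn h).2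
  · intro g h t v t' y h1 h2 h3 hd h4 hd' h5 h6
    obtain ⟨a1, a2, -, -⟩ := domR hd
    obtain ⟨b1, b2, -, -⟩ := domR hd'
    have h4' : t + h + c.A0 * g < t' := h4
    have n1 : 0 ≤ c.Ks * h := mul_nonneg hKs h3.le
    have e1 : max (y + (c.Ks + 1) * h) y = y + (c.Ks + 1) * h := max_eq_left (by nlinarith)
    show S.U (q.en g) (v + c.Ks * h) (1 - t - h) v ≤ S.U q (max (y + (c.Ks + 1) * h) y) (1 - t') y
    rw [e1]
    refine (ao_U_mono S hπ (q.en g) (ao_fam_en hq h1.le) (1 - t - h) v _ (y + (c.Ks + 1) * h) (by linarith) (by linarith)).trans ?_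
    exact hshift g (1 - t - h) (1 - t') v y _ h1 h2 (by linarith) (by linarith) (by linarith) (vnn hd').1 h6 (vnn hd).2 (by linarith)
  · intro h t y _ _
    exact (ao_U_bd S hπ q hq (1 - t) y _ (le_max_right _ _)).1
  · intro h t y h1 _
    have n1 : 0 ≤ (c.Ks + 1) * h := by positivity
    have := (ao_U_bd S hπ q hq (1 - t) y (max (y + (c.Ks + 1) * h) y) (le_max_right _ _)).2
    rw [max_eq_left (by linarith : y ≤ y + (c.Ks + 1) * h)] at this
    show S.U q (max (y + (c.Ks + 1) * h) y) (1 - t) y ≤ (c.Ks + 1) * h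
    rw [max_eq_left (by linarith : y ≤ y + (c.Ks + 1) * h)]
    linarith
  · intro h t
    exact (ao_U_cont S hπ q hq (1 - t) ((c.Ks + 1) * h)).measurable
  · intro r _ _
    filter_upwards [ao_ang S hπ q hq (1 - (r : ℝ))] with y hy _
    have h1 := hy (c.Ks + 1) (by linarith)
    rw [mul_comm] at h1
    refine h1.congr' ?_
    filter_upwards [self_mem_nhdsWithin] with h hh
    have hh' : (0 : ℝ) < h := hh
    have n1 : 0 ≤ (c.Ks + 1) * h := by positivity
    show S.U q (y + (c.Ks + 1) * h) (1 - (r : ℝ)) y / h = S.U q (max (y + (c.Ks + 1) * h) y) (1 - (r : ℝ)) y / h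
    rw [max_eq_left (by linarith : y ≤ y + (c.Ks + 1) * h)]
  · intro t v
    exact (hm.2.2.1 (1 - t) v).1
  · intro v t t' _ h _
    exact hm.2.2.2 (1 - t') (1 - t) v (by linarith)
  · intro t
    exact hm.2.1 (1 - t)

end

end Claimed.Agent.R256
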