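import Claimed.Agent.R256.Act.GeoUp
import Claimed.Agent.R256.Act.OgsGlue
import Claimed.Agent.R256.Nm.Pro.Alph
import Claimed.Agent.R256.Nm.Pro.Amb

/-!
# Row 256, section Act, unit GEO, file 5: **(enl), (shift)** FOR THE PROFILES      (architect helper209; prefix `ag_`)

EXITS `ag_enl`, `ag_shift` = `ao_enl`, `ao_shift` of `Act/Ogs.lean` VERBATIM (helper137 cites them).
* limits: `ag_HC_le`, `ag_Hn_le` (an inequality `x ≤ y + c lgs + K` on every law passes to the ultralimits; boundedness from `Nm/Pro/Alph.lean`, helper156).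
* (enl): `𝒞^0` lists `𝒞^g` (`ag_nval_up`), `𝒞^g` lists `𝒞^0` with `16 s^(-2g)` names (`nm_pro_ls_g`);  `Z^g = Z - (1-η) g`;  `Ce = 2`.
* (shift): `ag_entC_up` with the coarse name `𝒞^0(a', y)` and the fine name `𝒞^g(a, v)`;  `w(a', y) ≤ w(a, v) - g` as soon as `a - a' ≥ A0 g`, `A0 = 1 / (forward rate of w)` (`ag_w_rate`).
-/

set_option autoImplicit false

namespace Claimed.Agent.R256

open Claimed.Agent.R255
open Claimed.Agent.R255.FLaw (pair)
open Filter Topology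
open Classical

noncomputable section

section lim

variable {π : SfPar} {C0 : ℝ} {κ : ℝ → ℝ} (S : NmSeq π C0 κ)

theorem ag_const_div (K : ℝ) : Tendsto (fun n => K / (S.D n).lgs) uf (𝓝 0) :=
  (nm_pro_lgs_atTop S).const_div_atTop K

/-- an inequality between two bounded normalised sequences passes to the ultralimits -/
theorem ag_ulim_le {x y : ℕ → ℝ} (hx : UBdd (fun n => x n / (S.D n).lgs)) (hy : UBdd (fun n => y n / (S.D n).lgs)) (c K : ℝ)
    (h : ∀ᶠ n in uf, x n ≤ y n + c * (S.D n).lgs + K) :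
    ulim (fun n => x n / (S.D n).lgs) ≤ ulim (fun n => y n / (S.D n).lgs) + c := by
  have := uf_neBot
  have h1 := ulim_tendsto _ hx
  have h2 : Tendsto (fun n => y n / (S.D n).lgs + c + K / (S.D n).lgs) uf (𝓝 (ulim (fun n => y n / (S.D n).lgs) + c + 0)) :=
    ((ulim_tendsto _ hy).add tendsto_const_nhds).add (ag_const_div S K)
  rw [add_zero] at h2
  refine le_of_tendsto_of_tendsto h1 h2 ?_
  filter_upwards [h] with n hn
  have hl := nm_pro_lgs_pos S n
  rw [div_le_iff₀ hl]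
  have e : (y n / (S.D n).lgs + c + K / (S.D n).lgs) * (S.D n).lgs = y n + c * (S.D n).lgs + K := by
    field_simp
  rw [e]
  exact hn

theorem ag_HC_le {α β γ δ : ℕ → Type} {Y : S.Obs α} {Y' : S.Obs δ} (X : S.Obs β) (X' : S.Obs γ) {A A' : ℝ} (hY : S.cq.Alph Y A) (hY' : S.cq.Alph Y' A')
    (c K : ℝ) (h : ∀ᶠ n in uf, ((S.D n).P 1).entC (Y n) (X n) ≤ ((S.D n).P 1).entC (Y' n) (X' n) + c * (S.D n).lgs + K) :
    S.HC Y X ≤ S.HC Y' X' + c :=
  ag_ulim_le S (nm_pro_ubdd X hY) (nm_pro_ubdd X' hY') c K h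

theorem ag_Hn_le {α δ : ℕ → Type} {Y : S.Obs α} {Y' : S.Obs δ} {A A' : ℝ} (hY : S.cq.Alph Y A) (hY' : S.cq.Alph Y' A')
    (c K : ℝ) (h : ∀ᶠ n in uf, ((S.D n).P 1).ent (Y n) ≤ ((S.D n).P 1).ent (Y' n) + c * (S.D n).lgs + K) :
    S.Hn Y ≤ S.Hn Y' + c :=
  ag_ulim_le S (nm_pro_ubdd_ent hY) (nm_pro_ubdd_ent hY') c K h

end lim

section og

variable {π : SfPar} {C0 : ℝ} {κ : ℝ → ℝ} (S : NmSeq π C0 κ)

/-- `𝓗^g ≤ 𝓗^0 ≤ 𝓗^g + 2 g` -/
theorem ag_H_enl {q : NmQ} (hq : q.Ok π) (g : ℝ) (hg : 0 ≤ g) (a v : ℝ) :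
    S.H (q.en g) a v ≤ S.H (q.en 0) a v ∧ S.H (q.en 0) a v ≤ S.H (q.en g) a v + 2 * g := by
  obtain ⟨A, hA⟩ := dc_msc_pa_alph S.cq (nm_pro_pa_nm (S := S) (q.en g) a v)
  obtain ⟨A', hA'⟩ := dc_msc_pa_alph S.cq (nm_pro_pa_nm (S := S) (q.en 0) a v)
  constructor
  · have h := ag_Hn_le S hA hA' 0 (Real.log nmK0) (Eventually.of_forall fun n => by
      obtain ⟨h0, h1⟩ := nm_pro_hs S n
      have e1 := ent_entC_le_log_nval _ _ _ (ag_nval_up (S.D n) π hq h0 h1 (le_refl a) (le_refl v) hg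
        (show q.w π a v - g ≤ q.w π a v - 0 by linarith))
      have f2 := ent_le_pair_left ((S.D n).P 1) ((S.D n).nm π (q.en g) a v) ((S.D n).nm π (q.en 0) a v)
      unfold FLaw.entC at e1
      show ((S.D n).P 1).ent ((S.D n).nm π (q.en g) a v) ≤ ((S.D n).P 1).ent ((S.D n).nm π (q.en 0) a v) + 0 * (S.D n).lgs + Real.log nmK0
      linarith)
    rw [add_zero] at h
    exact h
  · exact ag_Hn_le S hA' hA (2 * g) (Real.log 16) (Eventually.of_forall fun n => by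
      have hs := nm_pro_hs S n
      have hl : nmLs (fun x : NmRaw => x.name (S.D n).s π (q.en g) a v) (fun x : NmRaw => x.name (S.D n).s π (q.en 0) a v)
          (16 * Real.exp (2 * (g * lg (S.D n).s))) :=
        nm_pro_ls_g hs π q.ds q.tp g 0 g a v (by rw [sub_zero, abs_of_nonneg hg])
      have hn : ((S.D n).P 1).NVal (fun _ => True) ((S.D n).nm π (q.en 0) a v) ((S.D n).nm π (q.en g) a v)
          (16 * Real.exp (2 * (g * lg (S.D n).s))) :=
        nm_pro_ls_nval ((S.D n).P 1) hl ((S.D n).raw π q.ds) id id Function.injective_id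
      have e1 := ent_entC_le_log_nval _ _ _ hn
      have f2 := ent_le_pair_left ((S.D n).P 1) ((S.D n).nm π (q.en 0) a v) ((S.D n).nm π (q.en g) a v)
      rw [Real.log_mul (by norm_num) (Real.exp_pos _).ne', Real.log_exp] at e1
      unfold FLaw.entC at e1
      show ((S.D n).P 1).ent ((S.D n).nm π (q.en 0) a v) ≤ ((S.D n).P 1).ent ((S.D n).nm π (q.en g) a v) + 2 * g * lg (S.D n).s + Real.log 16
      linarith)

/-- **(enl)** = `ao_enl` -/
theorem ag_enl (hπ : π.Valid) (q : NmQ) (hq : q.Fam π) (hg0 : q.g = 0) : ∃ Ce : ℝ, 0 ≤ Ce ∧ AoEnl S q Ce 1 := by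
  refine ⟨2, by norm_num, fun g a v h1 _ _ _ _ _ => ?_⟩
  have hq' := nm_fam_ok π hπ q hq
  have e0 : q.en 0 = q := by rw [← hg0]; rfl
  obtain ⟨u1, u2⟩ := ag_H_enl S hq' g h1.le a v
  rw [e0] at u1 u2
  have e : S.E (q.en g) a v - S.E q a v = S.H (q.en g) a v - S.H q a v + (1 - π.η) * g := by
    simp only [NmSeq.E, NmQ.Z, NmQ.W]
    rw [ag_en_w, hg0]
    show S.H (q.en g) a v - S.D0 - ((π.p + π.d) * a + ((3 + π.η) * v + (1 - π.η) * (q.w π a v - g)))
      - (S.H q a v - S.D0 - ((π.p + π.d) * a + ((3 + π.η) * v + (1 - π.η) * (q.w π a v - 0)))) = _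
    ring
  have h2 := hπ.eta.1
  have h3 := hπ.eta.2
  rw [e, abs_le]
  constructor <;> nlinarith

/-- the forward rate of the normal exponent -/
theorem ag_w_rate (q : NmQ) (r0 : ℝ) (hb : q.tp ≠ NmTp.plin → r0 ≤ q.ds.bs) (hc : q.tp ≠ NmTp.quad → r0 ≤ π.q - π.J) {a a' v y : ℝ}
    (ha : a' ≤ a) (hv : y ≤ v) : q.w π a' y + r0 * (a - a') ≤ q.w π a v := by
  have hd : 0 ≤ a - a' := by linarith
  have eb : q.ds.b a - q.ds.b a' = q.ds.bs * (a - a') := by unfold NmDs.b; ring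
  have e1 : π.b1 a - π.b1 a' = (π.q - π.J) * (a - a') := by unfold SfPar.b1; ring
  unfold NmQ.w
  cases h : q.tp with
  | quad =>
    have h1 := mul_le_mul_of_nonneg_right (hb (by rw [h]; exact fun h' => NmTp.noConfusion h')) hd
    simp only
    linarith
  | clip =>
    have h1 := mul_le_mul_of_nonneg_right (hb (by rw [h]; exact fun h' => NmTp.noConfusion h')) hd
    have h2 := mul_le_mul_of_nonneg_right (hc (by rw [h]; exact fun h' => NmTp.noConfusion h')) hd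
    simp only
    have h3 : min (q.ds.b a' + y) (π.b1 a') + r0 * (a - a') ≤ min (q.ds.b a + v) (π.b1 a) :=
      le_min (by linarith [min_le_left (q.ds.b a' + y) (π.b1 a')]) (by linarith [min_le_right (q.ds.b a' + y) (π.b1 a')])
    linarith
  | plin =>
    have h2 := mul_le_mul_of_nonneg_right (hc (by rw [h]; exact fun h' => NmTp.noConfusion h')) hd
    simp only
    linarith

/-- (shift) at a common angular depth, general form -/
theorem ag_U_shift {q : NmQ} (hq : q.Ok π) (g : ℝ) {a a' v y : ℝ} (ha : a' ≤ a) (hv : y ≤ v) (hw : q.w π a' y ≤ q.w π a v - g) (x : ℝ) :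
    S.U (q.en g) x a v ≤ S.U (q.en 0) x a' y := by
  obtain ⟨A, hA⟩ := dc_msc_pa_alph S.cq (nm_pro_pa_Xc (S := S) x)
  have h := ag_HC_le S (S.nm (q.en g) a v) (S.nm (q.en 0) a' y) hA hA 0 (Real.log nmK0) (Eventually.of_forall fun n => by
    obtain ⟨h0, h1⟩ := nm_pro_hs S n
    have e := ag_entC_up (S.D n) π hq h0 h1 ha hv (le_refl (0 : ℝ)) (show q.w π a' y - 0 ≤ q.w π a v - g by linarith) ((S.D n).Xc x)
    show ((S.D n).P 1).entC ((S.D n).Xc x) ((S.D n).nm π (q.en g) a v)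
      ≤ ((S.D n).P 1).entC ((S.D n).Xc x) ((S.D n).nm π (q.en 0) a' y) + 0 * (S.D n).lgs + Real.log nmK0
    linarith)
  rw [add_zero] at h
  exact h

/-- **(shift)** = `ao_shift` -/
theorem ag_shift (hπ : π.Valid) (hr : 0 < π.Cr) (q : NmQ) (hq : q.Fam π) (hg0 : q.g = 0) (hgl : q.ds.glob = false) :
    ∃ A0 g0 : ℝ, 0 ≤ A0 ∧ 0 < g0 ∧ AoShift S q A0 g0 := by
  have hq' := nm_fam_ok π hπ q hq
  have e0 : q.en 0 = q := by rw [← hg0]; rfl
  have hr' : 0 < π.q - π.J := hr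
  obtain ⟨r0, hr0, hb, hc⟩ : ∃ r0 : ℝ, 0 < r0 ∧ (q.tp ≠ NmTp.plin → r0 ≤ q.ds.bs) ∧ (q.tp ≠ NmTp.quad → r0 ≤ π.q - π.J) := by
    obtain ⟨-, -, h⟩ := hq
    rcases h with ⟨h1, -, h3, -⟩ | ⟨-, -, -, h4⟩ | ⟨-, -, -, De, -, -, -, h3⟩
    · refine ⟨min π.c2 (π.q - π.J), lt_min h1 hr', fun _ => ?_, fun _ => min_le_right _ _⟩
      rw [h3]
      exact min_le_left _ _
    · exact ⟨π.q - π.J, hr', fun h => absurd h4 h, fun _ => le_rfl⟩
    · rw [h3] at hgl
      simp [nmDsStr] at hgl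
  refine ⟨1 / r0, 1, by positivity, one_pos, fun g a a' v y x h1 _ _ h4 _ _ h7 _ _ => ?_⟩
  have h5 : g < r0 * (a - a') := by
    have : 1 / r0 * g < a - a' := by linarith
    calc g = r0 * (1 / r0 * g) := by field_simp
      _ < r0 * (a - a') := mul_lt_mul_of_pos_left this hr0
  have ha : a' ≤ a := by
    have : 0 ≤ 1 / r0 * g := by positivity
    linarith
  have h6 := ag_w_rate (π := π) q r0 hb hc ha h7
  have h8 := ag_U_shift S hq' g ha h7 (by linarith) x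
  rw [e0] at h8
  exact h8

end og

end

end Claimed.Agent.R256
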