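import Claimed.Agent.R256.Act.GeoUp

/-!
# Row 256, section Act, unit GEO, file 3: (act:step-geometry) ON RAW DATA      (architect helper209; prefix `ag_`)

PAPER FREE (on `Nm/Geo/*`).   Everything is stated for TWO raw data `x y : NmRaw` with common names ("two data form" = the fields of `FsCore`, `Act/Fs.lean`) or as finite lists.
* G0 `ag_th_bd`, `ag_th_fun`, `ag_T_fun`, `ag_cov`, `ag_V_bd`, `ag_V_fun`  : time and normal pair.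
* G1 `ag_G1n`, `ag_G1d` : `(O, C)` predict `V_n` to `31 δ^c` and `V_d + θ' V_n` to `31 δ^(c+1)`.
* G2 `ag_G2` : `(X^*, B^k, V_k)` list `C^k`, `≤ 64` names.
* G3 `ag_G3` : `(O, C, X^*)` list `B^k`, `≤ 10^6 s^(-(3 kR - 2) h)` names.
-/

set_option autoImplicit false

namespace Claimed.Agent.R256

open Claimed.Agent.R255
open Classical

noncomputable section

/-! ## cells -/

theorem ag_rep_of_cell {s b x y : ℝ} (h : nmCell s b x = nmCell s b y) : nmRep s b x = nmRep s b y := by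
  unfold nmRep
  rw [h]

theorem ag_cell_rep (s b x : ℝ) : nmCell s b (nmRep s b x) = nmCell s b x := by
  unfold nmRep
  have hp : (0 : ℝ) < (2 : ℝ) ^ nmLev s b := by positivity
  show ⌊(nmCell s b x : ℝ) / (2 : ℝ) ^ nmLev s b * (2 : ℝ) ^ nmLev s b⌋ = nmCell s b x
  rw [div_mul_cancel₀ _ hp.ne', Int.floor_intCast]

/-- two representatives of the same number -/
theorem ag_rep_diff {s : ℝ} (h0 : 0 < s) (h1 : s < 1) {b b' : ℝ} (h : b ≤ b') (x : ℝ) : |nmRep s b' x - nmRep s b x| ≤ s ^ b := by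
  have e1 := nm_gc_rep_mono h0 h1 h x
  have e2 := nm_rep_le s b' x
  have e3 := nm_rep_lt s b x
  have e4 := nm_wd_le h0 h1 b
  rw [abs_le]
  constructor <;> linarith

/-- the comparison root `→` child at the enlargement `0` -/
def AgSt.G0 (σ : AgSt) (s : ℝ) (π : SfPar) : NmG := ⟨s, π, σ.q.en 0, σ.a, σ.v, σ.a + σ.h, σ.v⟩

section g1

variable {s : ℝ} {π : SfPar} {σ : AgSt}

theorem ag_G0_ok (h0 : 0 < s) (h1 : s < 1) (hσ : σ.Ok π) : (σ.G0 s π).Ok :=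
  ⟨h0, h1, ag_en_ok hσ.q le_rfl, by show σ.a ≤ σ.a + σ.h; linarith [hσ.h0], le_rfl⟩

/-- the residual normal velocities of two data with the same `(O, C)` -/
theorem ag_dN (h0 : 0 < s) (h1 : s < 1) (hσ : σ.Ok π) (x y : NmRaw) (hC : x.agC s π σ = y.agC s π σ) (hO : x.agO s π σ = y.agO s π σ) :
    |y.Nres s π σ.q σ.a σ.v - x.Nres s π σ.q σ.a σ.v| ≤ s ^ (σ.q.w π σ.a σ.v + σ.c * σ.h - σ.q.g) + 14 * s ^ (σ.q.w π σ.a σ.v) := by
  have hG := ag_G0_ok h0 h1 hσ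
  set G : NmG := σ.G0 s π with hGd
  have pt : (G.lo x).t = (G.lo y).t := by have h := congrArg NmNm.t hC; exact h
  have pk : (G.lo x).k = (G.lo y).k := by have h := congrArg NmNm.k hC; exact h
  have pR : (G.lo x).R = (G.lo y).R := by have h := congrArg NmNm.R hC; exact h
  have pL : (G.lo x).L = (G.lo y).L := by have h := congrArg NmNm.L hC; exact h
  have ft : (G.hi x).t = (G.hi y).t := by have h := congrArg NmNm.t hO; exact h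
  have fk : (G.hi x).k = (G.hi y).k := by have h := congrArg NmNm.k hO; exact h
  have fR : (G.hi x).R = (G.hi y).R := by have h := congrArg NmNm.R hO; exact h
  have fX : (G.hi x).X = (G.hi y).X := by have h := congrArg NmNm.X hO; exact h
  have fL : (G.hi x).L = (G.hi y).L := by have h := congrArg NmNm.L hO; exact h
  have fY : (G.hi x).Y = (G.hi y).Y := by have h := congrArg NmNm.Y hO; exact h
  have fN : nmCell s (σ.q.w π (σ.a + σ.h) σ.v - σ.q.g) (x.Nres s π σ.q (σ.a + σ.h) σ.v)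
      = nmCell s (σ.q.w π (σ.a + σ.h) σ.v - σ.q.g) (y.Nres s π σ.q (σ.a + σ.h) σ.v) := by
    have h := congrArg NmNm.N hO; exact h
  have ex : |x.Nres s π σ.q σ.a σ.v - x.Nres s π σ.q (σ.a + σ.h) σ.v - G.knN (G.lo x) (G.hi x)| ≤ 7 * s ^ (σ.q.w π σ.a σ.v - 0) :=
    nm_est_N hG x
  have ey : |y.Nres s π σ.q σ.a σ.v - y.Nres s π σ.q (σ.a + σ.h) σ.v - G.knN (G.lo y) (G.hi y)| ≤ 7 * s ^ (σ.q.w π σ.a σ.v - 0) :=
    nm_est_N hG y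
  rw [← nm_ge_knN G pt ft pk fk pR fR fX pL fL fY] at ey
  have hc := nm_close_of_cell h0 h1 fN
  rw [hσ.wO] at hc
  rw [sub_zero] at ex ey
  rw [abs_le] at ex ey hc ⊢
  constructor <;> linarith [ex.1, ex.2, ey.1, ey.2, hc.1, hc.2]

/-- the residual normal positions of two data with the same `(O, C)` -/
theorem ag_dD (h0 : 0 < s) (h1 : s < 1) (hσ : σ.Ok π) (x y : NmRaw) (hC : x.agC s π σ = y.agC s π σ) (hO : x.agO s π σ = y.agO s π σ) :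
    |(y.Dres s π σ.q σ.a σ.v - x.Dres s π σ.q σ.a σ.v)
        + (x.ta s (σ.a + σ.h) - x.ta s σ.a) * (y.Nres s π σ.q σ.a σ.v - x.Nres s π σ.q σ.a σ.v)|
      ≤ s ^ (σ.a + σ.h + (σ.q.w π σ.a σ.v + σ.c * σ.h) - σ.q.g) + 30 * s ^ (σ.a + σ.q.w π σ.a σ.v) := by
  have hG := ag_G0_ok h0 h1 hσ
  set G : NmG := σ.G0 s π with hGd
  have pt : (G.lo x).t = (G.lo y).t := by have h := congrArg NmNm.t hC; exact h
  have pk : (G.lo x).k = (G.lo y).k := by have h := congrArg NmNm.k hC; exact h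
  have pR : (G.lo x).R = (G.lo y).R := by have h := congrArg NmNm.R hC; exact h
  have pL : (G.lo x).L = (G.lo y).L := by have h := congrArg NmNm.L hC; exact h
  have ft : (G.hi x).t = (G.hi y).t := by have h := congrArg NmNm.t hO; exact h
  have fk : (G.hi x).k = (G.hi y).k := by have h := congrArg NmNm.k hO; exact h
  have fR : (G.hi x).R = (G.hi y).R := by have h := congrArg NmNm.R hO; exact h
  have fX : (G.hi x).X = (G.hi y).X := by have h := congrArg NmNm.X hO; exact h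
  have fB : (G.hi x).B = (G.hi y).B := by have h := congrArg NmNm.B hO; exact h
  have fL : (G.hi x).L = (G.hi y).L := by have h := congrArg NmNm.L hO; exact h
  have fY : (G.hi x).Y = (G.hi y).Y := by have h := congrArg NmNm.Y hO; exact h
  have fD : nmCell s (σ.a + σ.h + σ.q.w π (σ.a + σ.h) σ.v - σ.q.g) (x.Dres s π σ.q (σ.a + σ.h) σ.v)
      = nmCell s (σ.a + σ.h + σ.q.w π (σ.a + σ.h) σ.v - σ.q.g) (y.Dres s π σ.q (σ.a + σ.h) σ.v) := by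
    have h := congrArg NmNm.D hO; exact h
  -- the known shear part
  obtain ⟨sh, hsh⟩ : ∃ sh : NmNm → NmNm → ℝ, sh = fun c c' => G.dL c c' * c'.Bv G.s G.a' G.v' + G.dR c c' * c'.Yv G.s G.a' G.v'
      + 2 * G.dR c c' * c'.Xv G.s G.v' * c'.Bv G.s G.a' G.v' - G.dk c c' * c'.Bv G.s G.a' G.v' ^ 2 := ⟨_, rfl⟩
  have hshe : sh (G.lo x) (G.hi x) = sh (G.lo y) (G.hi y) := by
    rw [hsh]
    simp only
    unfold NmNm.Xv NmNm.Yv NmNm.Bv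
    rw [nm_ge_dR G pt ft pk pR fR, nm_ge_dk G pk fk, nm_ge_dL G pL fL, fX, fY, fB]
  have hτe : G.tau (G.lo x) (G.hi x) = G.tau (G.lo y) (G.hi y) := nm_ge_tau G pt ft
  obtain ⟨t0, t1⟩ := nm_est_tau hG x
  have t1' : G.tau (G.lo x) (G.hi x) ≤ s ^ σ.a := t1
  have eτ : G.tau (G.lo x) (G.hi x) = x.ta s (σ.a + σ.h) - x.ta s σ.a := rfl
  have ex : |x.Dres s π σ.q σ.a σ.v - x.Dres s π σ.q (σ.a + σ.h) σ.v
      - (-(G.tau (G.lo x) (G.hi x) * nmRep s (σ.q.w π σ.a σ.v - 0) (x.Nres s π σ.q σ.a σ.v)) - sh (G.lo x) (G.hi x))|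
      ≤ 14 * s ^ (σ.a + σ.q.w π σ.a σ.v - 0) := by
    rw [hsh]
    exact nm_est_D hG x
  have ey : |y.Dres s π σ.q σ.a σ.v - y.Dres s π σ.q (σ.a + σ.h) σ.v
      - (-(G.tau (G.lo y) (G.hi y) * nmRep s (σ.q.w π σ.a σ.v - 0) (y.Nres s π σ.q σ.a σ.v)) - sh (G.lo y) (G.hi y))|
      ≤ 14 * s ^ (σ.a + σ.q.w π σ.a σ.v - 0) := by
    rw [hsh]
    exact nm_est_D hG y
  rw [← hshe, ← hτe] at ey
  have nx := nm_rep_abs h0 h1 (σ.q.w π σ.a σ.v - 0) (x.Nres s π σ.q σ.a σ.v)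
  have ny := nm_rep_abs h0 h1 (σ.q.w π σ.a σ.v - 0) (y.Nres s π σ.q σ.a σ.v)
  have hc := nm_close_of_cell h0 h1 fD
  rw [hσ.wO] at hc
  simp only [sub_zero] at ex ey nx ny
  rw [← eτ]
  obtain ⟨τ, hτ⟩ : ∃ τ, τ = G.tau (G.lo x) (G.hi x) := ⟨_, rfl⟩
  rw [← hτ] at ex ey t0 t1' ⊢
  have hS : s ^ (σ.a + σ.q.w π σ.a σ.v) = s ^ σ.a * s ^ (σ.q.w π σ.a σ.v) := Real.rpow_add h0 _ _
  have mx : |τ * (x.Nres s π σ.q σ.a σ.v - nmRep s (σ.q.w π σ.a σ.v) (x.Nres s π σ.q σ.a σ.v))| ≤ s ^ (σ.a + σ.q.w π σ.a σ.v) := by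
    rw [hS]
    exact nm_gd_mul (by rw [abs_of_nonneg t0]; exact t1') nx
  have my : |τ * (y.Nres s π σ.q σ.a σ.v - nmRep s (σ.q.w π σ.a σ.v) (y.Nres s π σ.q σ.a σ.v))| ≤ s ^ (σ.a + σ.q.w π σ.a σ.v) := by
    rw [hS]
    exact nm_gd_mul (by rw [abs_of_nonneg t0]; exact t1') ny
  rw [abs_le] at ex ey hc mx my ⊢
  constructor <;> linarith [ex.1, ex.2, ey.1, ey.2, hc.1, hc.2, mx.1, mx.2, my.1, my.2]

theorem ag_aux_div {S u A B K : ℝ} (hS : 0 < S) (h : |u| ≤ S * A + K * (S * B)) : |u / S| ≤ A + K * B := by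
  rw [abs_div, abs_of_pos hS, div_le_iff₀ hS]
  calc |u| ≤ S * A + K * (S * B) := h
    _ = (A + K * B) * S := by ring

/-- **G1, velocity** -/
theorem ag_G1n (h0 : 0 < s) (h1 : s < 1) (hσ : σ.Ok π) (x y : NmRaw) (hC : x.agC s π σ = y.agC s π σ) (hO : x.agO s π σ = y.agO s π σ) :
    |y.agVn s π σ - x.agVn s π σ| ≤ 31 * (s ^ σ.h) ^ σ.c := by
  have hd := ag_dN h0 h1 hσ x y hC hO
  have pN : nmCell s (σ.q.w π σ.a σ.v - σ.q.g) (x.Nres s π σ.q σ.a σ.v) = nmCell s (σ.q.w π σ.a σ.v - σ.q.g) (y.Nres s π σ.q σ.a σ.v) := by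
    have h := congrArg NmNm.N hC; exact h
  have hS : 0 < s ^ (σ.q.w π σ.a σ.v - σ.q.g) := Real.rpow_pos_of_pos h0 _
  have e : y.agVn s π σ - x.agVn s π σ = (y.Nres s π σ.q σ.a σ.v - x.Nres s π σ.q σ.a σ.v) / s ^ (σ.q.w π σ.a σ.v - σ.q.g) := by
    unfold NmRaw.agVn
    rw [ag_rep_of_cell pN]
    ring
  have p1 : s ^ (σ.q.w π σ.a σ.v + σ.c * σ.h - σ.q.g) = s ^ (σ.q.w π σ.a σ.v - σ.q.g) * s ^ (σ.c * σ.h) := by
    rw [← Real.rpow_add h0]; congr 1; ring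
  have p2 : s ^ (σ.q.w π σ.a σ.v) = s ^ (σ.q.w π σ.a σ.v - σ.q.g) * s ^ σ.q.g := by
    rw [← Real.rpow_add h0]; congr 1; ring
  rw [p1, p2] at hd
  have h3 := ag_aux_div hS hd
  have h4 : s ^ σ.q.g ≤ s ^ (σ.c * σ.h) := nm_pow_anti h0 h1 (by nlinarith [hσ.g, hσ.h0])
  have h5 : (s ^ σ.h) ^ σ.c = s ^ (σ.c * σ.h) := by rw [← Real.rpow_mul h0.le, mul_comm]
  have h6 : 0 < s ^ (σ.c * σ.h) := Real.rpow_pos_of_pos h0 _
  rw [e, h5]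
  linarith

/-- **G1, position** -/
theorem ag_G1d (h0 : 0 < s) (h1 : s < 1) (hσ : σ.Ok π) (x y : NmRaw) (hC : x.agC s π σ = y.agC s π σ) (hO : x.agO s π σ = y.agO s π σ) :
    |(y.agVd s π σ - x.agVd s π σ) + x.agTh s σ * (y.agVn s π σ - x.agVn s π σ)| ≤ 31 * (s ^ σ.h) ^ (σ.c + 1) := by
  have hd := ag_dD h0 h1 hσ x y hC hO
  have pN : nmCell s (σ.q.w π σ.a σ.v - σ.q.g) (x.Nres s π σ.q σ.a σ.v) = nmCell s (σ.q.w π σ.a σ.v - σ.q.g) (y.Nres s π σ.q σ.a σ.v) := by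
    have h := congrArg NmNm.N hC; exact h
  have pD : nmCell s (σ.a + σ.q.w π σ.a σ.v - σ.q.g) (x.Dres s π σ.q σ.a σ.v) = nmCell s (σ.a + σ.q.w π σ.a σ.v - σ.q.g) (y.Dres s π σ.q σ.a σ.v) := by
    have h := congrArg NmNm.D hC; exact h
  have hS : 0 < s ^ (σ.a + σ.q.w π σ.a σ.v - σ.q.g) := Real.rpow_pos_of_pos h0 _
  have hSa : 0 < s ^ σ.a := Real.rpow_pos_of_pos h0 _
  have hSw : 0 < s ^ (σ.q.w π σ.a σ.v - σ.q.g) := Real.rpow_pos_of_pos h0 _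
  have hSS : s ^ (σ.a + σ.q.w π σ.a σ.v - σ.q.g) = s ^ σ.a * s ^ (σ.q.w π σ.a σ.v - σ.q.g) := by
    rw [← Real.rpow_add h0]; congr 1; ring
  have e : (y.agVd s π σ - x.agVd s π σ) + x.agTh s σ * (y.agVn s π σ - x.agVn s π σ)
      = ((y.Dres s π σ.q σ.a σ.v - x.Dres s π σ.q σ.a σ.v)
        + (x.ta s (σ.a + σ.h) - x.ta s σ.a) * (y.Nres s π σ.q σ.a σ.v - x.Nres s π σ.q σ.a σ.v)) / s ^ (σ.a + σ.q.w π σ.a σ.v - σ.q.g) := by
    unfold NmRaw.agVn NmRaw.agVd NmRaw.agTh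
    rw [ag_rep_of_cell pN, ag_rep_of_cell pD, hSS]
    field_simp
    ring
  have p1 : s ^ (σ.a + σ.h + (σ.q.w π σ.a σ.v + σ.c * σ.h) - σ.q.g) = s ^ (σ.a + σ.q.w π σ.a σ.v - σ.q.g) * s ^ ((σ.c + 1) * σ.h) := by
    rw [← Real.rpow_add h0]; congr 1; ring
  have p2 : s ^ (σ.a + σ.q.w π σ.a σ.v) = s ^ (σ.a + σ.q.w π σ.a σ.v - σ.q.g) * s ^ σ.q.g := by
    rw [← Real.rpow_add h0]; congr 1; ring
  rw [p1, p2] at hd
  have h3 := ag_aux_div hS hd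
  have h4 : s ^ σ.q.g ≤ s ^ ((σ.c + 1) * σ.h) := nm_pow_anti h0 h1 hσ.g
  have h5 : (s ^ σ.h) ^ (σ.c + 1) = s ^ ((σ.c + 1) * σ.h) := by rw [← Real.rpow_mul h0.le, mul_comm]
  have h6 : 0 < s ^ ((σ.c + 1) * σ.h) := Real.rpow_pos_of_pos h0 _
  rw [e, h5]
  linarith

/-! ## G0 : time and normal pair -/

theorem ag_th_bd (h0 : 0 < s) (h1 : s < 1) (hh : 0 ≤ σ.h) (x : NmRaw) : 0 ≤ x.agTh s σ ∧ x.agTh s σ ≤ 1 := by
  have hS : 0 < s ^ σ.a := Real.rpow_pos_of_pos h0 _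
  have e1 := nm_gc_rep_mono h0 h1 (show σ.a ≤ σ.a + σ.h by linarith) x.T
  have e2 := nm_rep_le s (σ.a + σ.h) x.T
  have e3 := nm_rep_lt s σ.a x.T
  have e4 := nm_wd_le h0 h1 σ.a
  unfold NmRaw.agTh NmRaw.ta
  constructor
  · exact div_nonneg (by linarith) hS.le
  · rw [div_le_one hS]
    linarith

theorem ag_th_abs (h0 : 0 < s) (h1 : s < 1) (hh : 0 ≤ σ.h) (x : NmRaw) : |x.agTh s σ| ≤ 1 := by
  obtain ⟨e1, e2⟩ := ag_th_bd (σ := σ) h0 h1 hh x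
  rw [abs_of_nonneg e1]
  exact e2

theorem ag_th_fun (x y : NmRaw) (hC : x.agC s π σ = y.agC s π σ) (hO : x.agO s π σ = y.agO s π σ) : x.agTh s σ = y.agTh s σ := by
  have pt : nmCell s σ.a x.T = nmCell s σ.a y.T := by have h := congrArg NmNm.t hC; exact h
  have ft : nmCell s (σ.a + σ.h) x.T = nmCell s (σ.a + σ.h) y.T := by have h := congrArg NmNm.t hO; exact h
  unfold NmRaw.agTh NmRaw.ta
  rw [ag_rep_of_cell pt, ag_rep_of_cell ft]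

theorem ag_T_eq (x : NmRaw) : x.agT s σ σ.c = (x.agO s π σ).t := by
  show nmCell s (σ.a + (σ.c + 1 - σ.c) * σ.h) x.T = nmCell s (σ.a + σ.h) x.T
  congr 1
  ring

theorem ag_T_fun (x y : NmRaw) (hO : x.agO s π σ = y.agO s π σ) : x.agT s σ σ.c = y.agT s σ σ.c := by
  rw [ag_T_eq (π := π), ag_T_eq (π := π), hO]

/-- an interval of radius `δ^(c+1-z)` of `θ'` meets at most five time cells of the depth `a + (c+1-z) h` -/
theorem ag_cov (h0 : 0 < s) (h1 : s < 1) (hh : 0 ≤ σ.h) (z : ℝ) (hz : σ.c ≤ z) (X0 : ℝ) (tC : ℤ) :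
    ∃ S : Finset ℤ, S.card ≤ 5 ∧ ∀ x : NmRaw, (x.agC s π σ).t = tC → |x.agTh s σ - X0| ≤ (s ^ σ.h) ^ (σ.c + 1 - z) → x.agT s σ z ∈ S := by
  obtain ⟨e, he⟩ : ∃ e, e = σ.a + (σ.c + 1 - z) * σ.h := ⟨_, rfl⟩
  have hea : e ≤ σ.a + σ.h := by rw [he]; nlinarith
  obtain ⟨M, hM⟩ : ∃ M : ℝ, M = (2 : ℝ) ^ nmLev s e := ⟨_, rfl⟩
  have hMpos : 0 < M := by rw [hM]; positivity
  have hM2 : s ^ e * M < 2 := by
    have h := nm_wd_gt h0 h1 e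
    unfold nmWd at h
    rw [← hM] at h
    calc s ^ e * M < 2 * M⁻¹ * M := mul_lt_mul_of_pos_right h hMpos
      _ = 2 := by field_simp
  obtain ⟨m, hm⟩ : ∃ m : ℝ, m = nmVal s σ.a tC + s ^ σ.a * X0 := ⟨_, rfl⟩
  refine ⟨Finset.Icc ⌊(m - s ^ e) * M⌋ (⌊(m - s ^ e) * M⌋ + 4), ?_, ?_⟩
  · rw [Int.card_Icc]
    have : ⌊(m - s ^ e) * M⌋ + 4 + 1 - ⌊(m - s ^ e) * M⌋ = 5 := by ring
    rw [this]
    rfl
  · intro x hx hθ
    have hS : 0 < s ^ σ.a := Real.rpow_pos_of_pos h0 _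
    have e1 : x.agT s σ z = nmCell s e (x.ta s (σ.a + σ.h)) := by
      show nmCell s (σ.a + (σ.c + 1 - z) * σ.h) x.T = _
      rw [← he]
      exact nm_cell_nest h0 h1 hea (ag_cell_rep s (σ.a + σ.h) x.T).symm
    have e2 : x.ta s σ.a = nmVal s σ.a tC := by
      rw [← hx]
      rfl
    have e3 : x.ta s (σ.a + σ.h) - m = s ^ σ.a * (x.agTh s σ - X0) := by
      rw [hm]
      unfold NmRaw.agTh
      rw [e2]
      field_simp
      ring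
    have e4 : s ^ σ.a * (s ^ σ.h) ^ (σ.c + 1 - z) = s ^ e := by
      rw [← Real.rpow_mul h0.le, ← Real.rpow_add h0, he]
      congr 1
      ring
    have e5 : |x.ta s (σ.a + σ.h) - m| ≤ s ^ e := by
      rw [e3, abs_mul, abs_of_pos hS, ← e4]
      exact mul_le_mul_of_nonneg_left hθ hS.le
    rw [abs_le] at e5
    rw [e1, Finset.mem_Icc]
    unfold nmCell
    rw [← hM]
    constructor
    · exact Int.floor_mono (mul_le_mul_of_nonneg_right (by linarith [e5.1]) hMpos.le)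
    · have h3 : x.ta s (σ.a + σ.h) * M < ((⌊(m - s ^ e) * M⌋ + 4 + 1 : ℤ) : ℝ) := by
        have h4 := Int.lt_floor_add_one ((m - s ^ e) * M)
        have h5 : x.ta s (σ.a + σ.h) * M ≤ (m + s ^ e) * M := mul_le_mul_of_nonneg_right (by linarith [e5.2]) hMpos.le
        push_cast
        nlinarith
      have h6 := Int.floor_lt.2 h3
      linarith

theorem ag_V_bd (h0 : 0 < s) (h1 : s < 1) (x : NmRaw) : |x.agVn s π σ| ≤ 1 ∧ |x.agVd s π σ| ≤ 1 := by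
  have key : ∀ b r : ℝ, |(r - nmRep s b r) / s ^ b| ≤ 1 := by
    intro b r
    have hS : 0 < s ^ b := Real.rpow_pos_of_pos h0 _
    rw [abs_div, abs_of_pos hS, div_le_one hS]
    exact nm_rep_abs h0 h1 b r
  exact ⟨key _ _, key _ _⟩

/-- the normal pair is a function of the ray and of `C` -/
theorem ag_V_fun (x y : NmRaw) (hz : x.z = y.z) (hC : x.agC s π σ = y.agC s π σ) :
    x.agVn s π σ = y.agVn s π σ ∧ x.agVd s π σ = y.agVd s π σ := by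
  have pt : nmCell s σ.a x.T = nmCell s σ.a y.T := by have h := congrArg NmNm.t hC; exact h
  have pk : nmCell s (σ.q.ds.b σ.a - σ.a) (x.kraw σ.q) = nmCell s (σ.q.ds.b σ.a - σ.a) (y.kraw σ.q) := by
    have h := congrArg NmNm.k hC; exact h
  have pR : nmCell s (σ.q.ds.b σ.a) (x.Rraw s σ.q σ.a) = nmCell s (σ.q.ds.b σ.a) (y.Rraw s σ.q σ.a) := by
    have h := congrArg NmNm.R hC; exact h
  have pL : nmCell s (σ.q.l π σ.a σ.v) (x.Lraw s σ.q σ.a) = nmCell s (σ.q.l π σ.a σ.v) (y.Lraw s σ.q σ.a) := by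
    have h := congrArg NmNm.L hC; exact h
  have eN : x.Nres s π σ.q σ.a σ.v = y.Nres s π σ.q σ.a σ.v := by
    unfold NmRaw.Nres NmRaw.La NmRaw.Ra NmRaw.ka NmRaw.ta
    rw [ag_rep_of_cell pt, ag_rep_of_cell pk, ag_rep_of_cell pR, ag_rep_of_cell pL, hz]
  have eD : x.Dres s π σ.q σ.a σ.v = y.Dres s π σ.q σ.a σ.v := by
    unfold NmRaw.Dres NmRaw.La NmRaw.Ra NmRaw.ka NmRaw.ta
    rw [ag_rep_of_cell pt, ag_rep_of_cell pk, ag_rep_of_cell pR, ag_rep_of_cell pL, hz]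
  unfold NmRaw.agVn NmRaw.agVd
  rw [eN, eD]
  exact ⟨rfl, rfl⟩

/-! ## G2 -/

theorem ag_Nres_move (x : NmRaw) (q : NmQ) (a v v' : ℝ) :
    x.Nres s π q a v' - x.Nres s π q a v = -((x.La s π q a v' - x.La s π q a v) * x.z.X) := by
  unfold NmRaw.Nres
  ring

theorem ag_Dres_move (x : NmRaw) (q : NmQ) (a v v' : ℝ) :
    x.Dres s π q a v' - x.Dres s π q a v = -((x.La s π q a v' - x.La s π q a v) * x.z.Bt (x.ta s a)) := by
  unfold NmRaw.Dres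
  ring

theorem ag_l_mono_v (h0 : 0 < s) (h1 : s < 1) {q : NmQ} (hq : q.Ok π) (a : ℝ) {v v' : ℝ} (hv : v ≤ v') : q.l π a v ≤ q.l π a v' :=
  nm_l_mono (G := ⟨s, π, q, a, v, a, v'⟩) ⟨h0, h1, hq, le_rfl, hv⟩

/-- `|L^k - L| ≤ s^l` -/
theorem ag_La_diff (h0 : 0 < s) (h1 : s < 1) {q : NmQ} (hq : q.Ok π) (x : NmRaw) (a : ℝ) {v v' : ℝ} (hv : v ≤ v') :
    |x.La s π q a v' - x.La s π q a v| ≤ s ^ (q.l π a v) :=
  ag_rep_diff h0 h1 (ag_l_mono_v h0 h1 hq a hv) _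

/-- the moved residual velocity, known term read at an angular representative `xs` of accuracy `s^e` -/
theorem ag_N_move (h0 : 0 < s) (h1 : s < 1) {q : NmQ} (hq : q.Ok π) (x : NmRaw) (a : ℝ) {v v' : ℝ} (hv : v ≤ v') (e b : ℝ)
    (hb : b ≤ q.w π a v + (e - v)) :
    |x.Nres s π q a v' - x.Nres s π q a v - -((x.La s π q a v' - x.La s π q a v) * nmRep s e x.z.X)| ≤ 1 * s ^ b := by
  have e1 : x.Nres s π q a v' - x.Nres s π q a v - -((x.La s π q a v' - x.La s π q a v) * nmRep s e x.z.X)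
      = -((x.La s π q a v' - x.La s π q a v) * (x.z.X - nmRep s e x.z.X)) := by
    rw [ag_Nres_move]
    ring
  rw [e1, abs_neg, one_mul]
  refine (nm_gd_mul (ag_La_diff h0 h1 hq x a hv) (nm_rep_abs h0 h1 e x.z.X)).trans ?_
  rw [← Real.rpow_add h0]
  refine nm_pow_anti h0 h1 ?_
  rw [nm_w_eq] at hb
  linarith

/-- the moved residual position, known term read at a representative of `B_{t_a}` of accuracy `s^e` -/
theorem ag_D_move (h0 : 0 < s) (h1 : s < 1) {q : NmQ} (hq : q.Ok π) (x : NmRaw) (a : ℝ) {v v' : ℝ} (hv : v ≤ v') (e b : ℝ)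
    (hb : b ≤ q.w π a v + (e - v)) :
    |x.Dres s π q a v' - x.Dres s π q a v - -((x.La s π q a v' - x.La s π q a v) * nmRep s e (x.z.Bt (x.ta s a)))| ≤ 1 * s ^ b := by
  have e1 : x.Dres s π q a v' - x.Dres s π q a v - -((x.La s π q a v' - x.La s π q a v) * nmRep s e (x.z.Bt (x.ta s a)))
      = -((x.La s π q a v' - x.La s π q a v) * (x.z.Bt (x.ta s a) - nmRep s e (x.z.Bt (x.ta s a)))) := by
    rw [ag_Dres_move]
    ring
  rw [e1, abs_neg, one_mul]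
  refine (nm_gd_mul (ag_La_diff h0 h1 hq x a hv) (nm_rep_abs h0 h1 e _)).trans ?_
  rw [← Real.rpow_add h0]
  refine nm_pow_anti h0 h1 ?_
  rw [nm_w_eq] at hb
  linarith

/-- the differences of the entries in G2 -/
def agK2 : Fin 10 → ℝ := ![0, 0, 0, 0, 0, 0, 0, 0, 7, 7]

/-- **G2, two raw data** -/
theorem ag_two_G2 (h0 : 0 < s) (h1 : s < 1) (hσ : σ.Ok π) {k kR : ℝ} (hk : σ.OkK π k kR) (x y : NmRaw) (hX : x.agX s σ = y.agX s σ)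
    (hB : x.agB s π σ k kR = y.agB s π σ k kR) (hV : x.agV s π σ k = y.agV s π σ k) (i : Fin 10) :
    |((nmVec (x.agK s π σ kR) i - nmVec (y.agK s π σ kR) i : ℤ) : ℝ)| ≤ agK2 i := by
  have hh := hσ.h0
  have hv : σ.v ≤ σ.v + kR * σ.h := by nlinarith [hk.kR1]
  have hg0 := hσ.q.g0
  have eLk : x.La s π σ.q σ.a (σ.v + kR * σ.h) = y.La s π σ.q σ.a (σ.v + kR * σ.h) := by
    have h : nmCell s (σ.q.l π σ.a (σ.v + kR * σ.h)) (x.Lraw s σ.q σ.a) = nmCell s (σ.q.l π σ.a (σ.v + kR * σ.h)) (y.Lraw s σ.q σ.a) := by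
      have h := congrArg NmNm.L hB; exact h
    exact ag_rep_of_cell h
  have eL : x.La s π σ.q σ.a σ.v = y.La s π σ.q σ.a σ.v := by
    have h : nmCell s (σ.q.l π σ.a σ.v) (x.Lraw s σ.q σ.a) = nmCell s (σ.q.l π σ.a σ.v) (y.Lraw s σ.q σ.a) := by
      have h := congrArg NmNm.L hV; exact h
    exact ag_rep_of_cell h
  have zero : ∀ {m n : ℤ}, m = n → |((m - n : ℤ) : ℝ)| ≤ 0 := by
    intro m n h
    rw [h]
    simp
  fin_cases i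
  · exact zero (by have h := congrArg NmNm.kb hB; exact h)
  · exact zero (by have h := congrArg NmNm.t hB; exact h)
  · exact zero (by have h := congrArg NmNm.k hB; exact h)
  · exact zero (by have h := congrArg NmNm.R hB; exact h)
  · exact zero (by have h := congrArg NmNm.X hB; exact h)
  · exact zero (by have h := congrArg NmNm.B hB; exact h)
  · exact zero (by have h := congrArg NmNm.L hB; exact h)
  · exact zero (by have h := congrArg NmNm.Y hB; exact h)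
  · show |(((x.agK s π σ kR).N - (y.agK s π σ kR).N : ℤ) : ℝ)| ≤ 7
    have fN : nmCell s (σ.q.w π σ.a σ.v - (σ.q.g - k * σ.h)) (x.Nres s π σ.q σ.a σ.v)
        = nmCell s (σ.q.w π σ.a σ.v - (σ.q.g - k * σ.h)) (y.Nres s π σ.q σ.a σ.v) := by
      have h := congrArg NmNm.N hV; exact h
    have hb : σ.q.w π σ.a (σ.v + kR * σ.h) - σ.q.g ≤ σ.q.w π σ.a σ.v - (σ.q.g - k * σ.h) := by rw [hk.wK]; linarith
    have hb2 : σ.q.w π σ.a (σ.v + kR * σ.h) - σ.q.g ≤ σ.q.w π σ.a σ.v + (σ.v + σ.Ks * σ.h - σ.v) := by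
      rw [hk.wK]
      nlinarith [hk.kc, hσ.Ks]
    have ex := ag_N_move h0 h1 hσ.q x σ.a hv (σ.v + σ.Ks * σ.h) _ hb2
    have ey := ag_N_move h0 h1 hσ.q y σ.a hv (σ.v + σ.Ks * σ.h) _ hb2
    rw [← eLk, ← eL, ← ag_rep_of_cell (show nmCell s (σ.v + σ.Ks * σ.h) x.z.X = nmCell s (σ.v + σ.Ks * σ.h) y.z.X from hX)] at ey
    exact (nm_step_up h0 h1 hb ex ey fN).trans (by norm_num)
  · show |(((x.agK s π σ kR).D - (y.agK s π σ kR).D : ℤ) : ℝ)| ≤ 7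
    have fD : nmCell s (σ.a + σ.q.w π σ.a σ.v - (σ.q.g - k * σ.h)) (x.Dres s π σ.q σ.a σ.v)
        = nmCell s (σ.a + σ.q.w π σ.a σ.v - (σ.q.g - k * σ.h)) (y.Dres s π σ.q σ.a σ.v) := by
      have h := congrArg NmNm.D hV; exact h
    have fB : nmCell s (σ.a + (σ.v + kR * σ.h)) (x.z.Bt (x.ta s σ.a)) = nmCell s (σ.a + (σ.v + kR * σ.h)) (y.z.Bt (y.ta s σ.a)) := by
      have h := congrArg NmNm.B hB; exact h
    have hb : σ.a + σ.q.w π σ.a (σ.v + kR * σ.h) - σ.q.g ≤ σ.a + σ.q.w π σ.a σ.v - (σ.q.g - k * σ.h) := by rw [hk.wK]; linarith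
    have hb2 : σ.a + σ.q.w π σ.a (σ.v + kR * σ.h) - σ.q.g ≤ σ.q.w π σ.a σ.v + (σ.a + (σ.v + kR * σ.h) - σ.v) := by
      rw [hk.wK]
      nlinarith [hk.kc, hσ.g, hk.kR1]
    have ex := ag_D_move h0 h1 hσ.q x σ.a hv (σ.a + (σ.v + kR * σ.h)) _ hb2
    have ey := ag_D_move h0 h1 hσ.q y σ.a hv (σ.a + (σ.v + kR * σ.h)) _ hb2
    rw [← eLk, ← eL, ← ag_rep_of_cell fB] at ey
    exact (nm_step_up h0 h1 hb ex ey fD).trans (by norm_num)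

/-- **G2** : `(X^*, B^k, V_k)` list `C^k` -/
theorem ag_G2 (h0 : 0 < s) (h1 : s < 1) (hσ : σ.Ok π) {k kR : ℝ} (hk : σ.OkK π k kR) (cX : ℤ) (cB cV : NmNm) :
    ∃ S : Finset NmNm, (S.card : ℝ) ≤ 64 ∧ ∀ x : NmRaw, x.agX s σ = cX → x.agB s π σ k kR = cB → x.agV s π σ k = cV → x.agK s π σ kR ∈ S := by
  obtain ⟨S, hS, hmem⟩ := nm_aux_list agK2 (by intro i; fin_cases i <;> simp [agK2])
    {c | ∃ x : NmRaw, x.agX s σ = cX ∧ x.agB s π σ k kR = cB ∧ x.agV s π σ k = cV ∧ x.agK s π σ kR = c} (by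
    rintro _ ⟨x, hx1, hx2, hx3, rfl⟩ _ ⟨y, hy1, hy2, hy3, rfl⟩ i _
    exact ag_two_G2 h0 h1 hσ hk x y (hx1.trans hy1.symm) (hx2.trans hy2.symm) (hx3.trans hy3.symm) i)
  refine ⟨S, hS.trans ?_, fun x h1 h2 h3 => hmem _ ⟨x, h1, h2, h3, rfl⟩⟩
  simp only [Fin.prod_univ_succ, agK2]
  simp
  norm_num

/-! ## G3 -/

theorem ag_tau_bd (h0 : 0 < s) (h1 : s < 1) (hh : 0 ≤ σ.h) (x : NmRaw) :
    0 ≤ x.ta s (σ.a + σ.h) - x.ta s σ.a ∧ x.ta s (σ.a + σ.h) - x.ta s σ.a ≤ s ^ σ.a := by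
  have e1 := nm_gc_rep_mono h0 h1 (show σ.a ≤ σ.a + σ.h by linarith) x.T
  have e2 := nm_rep_le s (σ.a + σ.h) x.T
  have e3 := nm_rep_lt s σ.a x.T
  have e4 := nm_wd_le h0 h1 σ.a
  unfold NmRaw.ta
  constructor <;> linarith

theorem ag_tau_abs (h0 : 0 < s) (h1 : s < 1) (hh : 0 ≤ σ.h) (x : NmRaw) : |x.ta s (σ.a + σ.h) - x.ta s σ.a| ≤ s ^ σ.a := by
  obtain ⟨e1, e2⟩ := ag_tau_bd (σ := σ) h0 h1 hh x
  rw [abs_of_nonneg e1]
  exact e2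

/-- backflow of the horizontal position -/
theorem ag_B_back (h0 : 0 < s) (h1 : s < 1) (hσ : σ.Ok π) (x : NmRaw) :
    |x.z.Bt (x.ta s (σ.a + σ.h)) - x.z.Bt (x.ta s σ.a) - (x.ta s (σ.a + σ.h) - x.ta s σ.a) * nmRep s (σ.v + σ.Ks * σ.h) x.z.X|
      ≤ 1 * s ^ (σ.a + σ.h + σ.v) := by
  have e : x.z.Bt (x.ta s (σ.a + σ.h)) - x.z.Bt (x.ta s σ.a) - (x.ta s (σ.a + σ.h) - x.ta s σ.a) * nmRep s (σ.v + σ.Ks * σ.h) x.z.X
      = (x.ta s (σ.a + σ.h) - x.ta s σ.a) * (x.z.X - nmRep s (σ.v + σ.Ks * σ.h) x.z.X) := by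
    unfold SfRay.Bt
    ring
  rw [e, one_mul]
  refine (nm_gd_mul (ag_tau_abs h0 h1 hσ.h0.le x) (nm_rep_abs h0 h1 _ _)).trans ?_
  rw [← Real.rpow_add h0]
  refine nm_pow_anti h0 h1 ?_
  nlinarith [hσ.Ks, hσ.c0, hσ.h0]

/-- backflow of the tilted vertical position -/
theorem ag_Y_back (h0 : 0 < s) (h1 : s < 1) (hσ : σ.Ok π) {kR : ℝ} (hkR : 1 ≤ kR) (x : NmRaw) :
    |(x.z.Yt (x.ta s (σ.a + σ.h)) - 2 * nmRep s σ.v x.z.X * x.z.Bt (x.ta s (σ.a + σ.h)))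
        - (x.z.Yt (x.ta s σ.a) - 2 * nmRep s (σ.v + kR * σ.h) x.z.X * x.z.Bt (x.ta s σ.a))
        - (2 * (nmRep s (σ.v + kR * σ.h) x.z.X - nmRep s σ.v x.z.X) * nmRep s (σ.a + σ.h + σ.v) (x.z.Bt (x.ta s (σ.a + σ.h)))
            - (x.ta s (σ.a + σ.h) - x.ta s σ.a) * nmRep s (σ.v + kR * σ.h) x.z.X ^ 2)|
      ≤ 3 * s ^ (σ.a + σ.h + 2 * σ.v) := by
  have hh := hσ.h0
  have hv : σ.v ≤ σ.v + kR * σ.h := by nlinarith
  have e : (x.z.Yt (x.ta s (σ.a + σ.h)) - 2 * nmRep s σ.v x.z.X * x.z.Bt (x.ta s (σ.a + σ.h)))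
        - (x.z.Yt (x.ta s σ.a) - 2 * nmRep s (σ.v + kR * σ.h) x.z.X * x.z.Bt (x.ta s σ.a))
        - (2 * (nmRep s (σ.v + kR * σ.h) x.z.X - nmRep s σ.v x.z.X) * nmRep s (σ.a + σ.h + σ.v) (x.z.Bt (x.ta s (σ.a + σ.h)))
            - (x.ta s (σ.a + σ.h) - x.ta s σ.a) * nmRep s (σ.v + kR * σ.h) x.z.X ^ 2)
      = 2 * ((nmRep s (σ.v + kR * σ.h) x.z.X - nmRep s σ.v x.z.X)
            * (x.z.Bt (x.ta s (σ.a + σ.h)) - nmRep s (σ.a + σ.h + σ.v) (x.z.Bt (x.ta s (σ.a + σ.h)))))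
        + (x.ta s (σ.a + σ.h) - x.ta s σ.a) * ((x.z.X - nmRep s (σ.v + kR * σ.h) x.z.X) * (x.z.X - nmRep s (σ.v + kR * σ.h) x.z.X)) := by
    generalize nmRep s (σ.a + σ.h + σ.v) (x.z.Bt (x.ta s (σ.a + σ.h))) = B0
    unfold SfRay.Bt SfRay.Yt
    ring
  rw [e]
  have a1 := nm_gd_mul (ag_rep_diff h0 h1 hv x.z.X) (nm_rep_abs h0 h1 (σ.a + σ.h + σ.v) (x.z.Bt (x.ta s (σ.a + σ.h))))
  have a2 := nm_gd_mul (ag_tau_abs h0 h1 hh.le x)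
    (nm_gd_mul (nm_rep_abs h0 h1 (σ.v + kR * σ.h) x.z.X) (nm_rep_abs h0 h1 (σ.v + kR * σ.h) x.z.X))
  have p1 : s ^ σ.v * s ^ (σ.a + σ.h + σ.v) = s ^ (σ.a + σ.h + 2 * σ.v) := by
    rw [← Real.rpow_add h0]; congr 1; ring
  have p2 : s ^ σ.a * (s ^ (σ.v + kR * σ.h) * s ^ (σ.v + kR * σ.h)) ≤ s ^ (σ.a + σ.h + 2 * σ.v) := by
    rw [← Real.rpow_add h0, ← Real.rpow_add h0]
    refine nm_pow_anti h0 h1 ?_
    nlinarith
  rw [p1] at a1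
  have a3 := a2.trans p2
  rw [abs_le] at a1 a3 ⊢
  constructor <;> linarith [a1.1, a1.2, a3.1, a3.2]

theorem ag_aux_L {dR dk e ζ τ σc A Sa Sv Sav Sl : ℝ} (h1 : |dR| ≤ 3 * σc) (h2 : |dk| ≤ 2 * σc * A) (h3 : |e| ≤ Sv) (h4 : |ζ| ≤ Sav)
    (h5 : |τ| ≤ Sa) (h6 : A * Sav = Sv) (h7 : A * Sa = 1) (h8 : σc * Sv ≤ Sl) : |-2 * dR * e + 2 * dk * (ζ + τ * e)| ≤ 14 * Sl := by
  have a1 : |dR * e| ≤ 3 * σc * Sv := nm_gd_mul h1 h3
  have a2 : |dk * ζ| ≤ 2 * σc * A * Sav := nm_gd_mul h2 h4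
  have a3 : |dk * (τ * e)| ≤ 2 * σc * A * (Sa * Sv) := nm_gd_mul h2 (nm_gd_mul h5 h3)
  have e2 : 2 * σc * A * Sav = 2 * (σc * Sv) := by rw [← h6]; ring
  have e3 : 2 * σc * A * (Sa * Sv) = 2 * (σc * Sv) := by
    calc 2 * σc * A * (Sa * Sv) = 2 * σc * (A * Sa) * Sv := by ring
      _ = _ := by rw [h7]; ring
  rw [e2] at a2
  rw [e3] at a3
  rw [abs_le] at a1 a2 a3 ⊢
  constructor <;> linarith [a1.1, a1.2, a2.1, a2.2, a3.1, a3.2]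

/-- the root derivative from the displayed derivative of the output, in the root curvature cuts -/
theorem ag_L_back (h0 : 0 < s) (h1 : s < 1) (hσ : σ.Ok π) (kR : ℝ) (x : NmRaw) :
    |x.Lraw s σ.q σ.a - x.Lraw s σ.q (σ.a + σ.h)
        - (-2 * (σ.G0 s π).dR ((σ.G0 s π).lo x) ((σ.G0 s π).hi x) * nmRep s (σ.v + kR * σ.h) x.z.X
            + 2 * (σ.G0 s π).dk ((σ.G0 s π).lo x) ((σ.G0 s π).hi x)
              * (nmRep s (σ.a + (σ.v + kR * σ.h)) (x.z.Bt (x.ta s σ.a)) + (x.ta s (σ.a + σ.h) - x.ta s σ.a) * nmRep s (σ.v + kR * σ.h) x.z.X))|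
      ≤ 14 * s ^ (σ.q.l π σ.a (σ.v + kR * σ.h)) := by
  have hG := ag_G0_ok h0 h1 hσ
  have hid : x.Lraw s σ.q σ.a - x.Lraw s σ.q (σ.a + σ.h)
      = -2 * (σ.G0 s π).dR ((σ.G0 s π).lo x) ((σ.G0 s π).hi x) * x.z.X
        + 2 * (σ.G0 s π).dk ((σ.G0 s π).lo x) ((σ.G0 s π).hi x) * x.z.Bt (x.ta s (σ.a + σ.h)) := nm_gd_Lid (σ.G0 s π) x
  have hdR := nm_est_dR hG x
  have hdk : |(σ.G0 s π).dk ((σ.G0 s π).lo x) ((σ.G0 s π).hi x)| ≤ 2 * (σ.G0 s π).cs * s ^ (-σ.a) := nm_est_dk hG x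
  have hcs : (σ.G0 s π).cs * s ^ (σ.v + kR * σ.h) ≤ s ^ (σ.q.l π σ.a (σ.v + kR * σ.h)) :=
    nm_cs_l (G := ⟨s, π, σ.q.en 0, σ.a, σ.v + kR * σ.h, σ.a, σ.v + kR * σ.h⟩) ⟨h0, h1, ag_en_ok hσ.q le_rfl, le_rfl, le_rfl⟩
  have e : x.Lraw s σ.q σ.a - x.Lraw s σ.q (σ.a + σ.h)
        - (-2 * (σ.G0 s π).dR ((σ.G0 s π).lo x) ((σ.G0 s π).hi x) * nmRep s (σ.v + kR * σ.h) x.z.X
            + 2 * (σ.G0 s π).dk ((σ.G0 s π).lo x) ((σ.G0 s π).hi x)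
              * (nmRep s (σ.a + (σ.v + kR * σ.h)) (x.z.Bt (x.ta s σ.a)) + (x.ta s (σ.a + σ.h) - x.ta s σ.a) * nmRep s (σ.v + kR * σ.h) x.z.X))
      = -2 * (σ.G0 s π).dR ((σ.G0 s π).lo x) ((σ.G0 s π).hi x) * (x.z.X - nmRep s (σ.v + kR * σ.h) x.z.X)
        + 2 * (σ.G0 s π).dk ((σ.G0 s π).lo x) ((σ.G0 s π).hi x)
          * ((x.z.Bt (x.ta s σ.a) - nmRep s (σ.a + (σ.v + kR * σ.h)) (x.z.Bt (x.ta s σ.a)))
            + (x.ta s (σ.a + σ.h) - x.ta s σ.a) * (x.z.X - nmRep s (σ.v + kR * σ.h) x.z.X)) := by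
    rw [hid]
    generalize nmRep s (σ.a + (σ.v + kR * σ.h)) (x.z.Bt (x.ta s σ.a)) = B0
    unfold SfRay.Bt
    ring
  rw [e]
  refine ag_aux_L hdR hdk (nm_rep_abs h0 h1 _ _) (nm_rep_abs h0 h1 _ _) (ag_tau_abs h0 h1 hσ.h0.le x) ?_ ?_ hcs
  · rw [← Real.rpow_add h0]; congr 1; ring
  · rw [← Real.rpow_add h0]
    simp

/-- the differences of the entries in G3 -/
def agK3 (s : ℝ) (σ : AgSt) (kR : ℝ) : Fin 10 → ℝ :=
  ![0, 0, 0, 0, 0, 6 * s ^ (-((kR - 1) * σ.h)) + 1, 59, 14 * s ^ (-((2 * kR - 1) * σ.h)) + 1, 7, 7]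

/-- **G3, two raw data** -/
theorem ag_two_G3 (h0 : 0 < s) (h1 : s < 1) (hσ : σ.Ok π) {k kR : ℝ} (hk : σ.OkK π k kR) (x y : NmRaw) (hO : x.agO s π σ = y.agO s π σ)
    (hC : x.agC s π σ = y.agC s π σ) (hX : x.agX s σ = y.agX s σ) (i : Fin 10)
    (hp : ∀ j < i, nmVec (x.agB s π σ k kR) j = nmVec (y.agB s π σ k kR) j) :
    |((nmVec (x.agB s π σ k kR) i - nmVec (y.agB s π σ k kR) i : ℤ) : ℝ)| ≤ agK3 s σ kR i := by
  have hh := hσ.h0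
  have hv : σ.v ≤ σ.v + kR * σ.h := by nlinarith [hk.kR1]
  have hg0 := hσ.q.g0
  have hG := ag_G0_ok h0 h1 hσ
  have pt : nmCell s σ.a x.T = nmCell s σ.a y.T := by have h := congrArg NmNm.t hC; exact h
  have ft : nmCell s (σ.a + σ.h) x.T = nmCell s (σ.a + σ.h) y.T := by have h := congrArg NmNm.t hO; exact h
  have eta : x.ta s σ.a = y.ta s σ.a := ag_rep_of_cell pt
  have eta' : x.ta s (σ.a + σ.h) = y.ta s (σ.a + σ.h) := ag_rep_of_cell ft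
  have eXs : nmRep s (σ.v + σ.Ks * σ.h) x.z.X = nmRep s (σ.v + σ.Ks * σ.h) y.z.X := ag_rep_of_cell hX
  have cXk : nmCell s (σ.v + kR * σ.h) x.z.X = nmCell s (σ.v + kR * σ.h) y.z.X :=
    nm_cell_nest h0 h1 (by nlinarith [hk.kRk, hk.kc, hσ.Ks]) hX
  have eXk : nmRep s (σ.v + kR * σ.h) x.z.X = nmRep s (σ.v + kR * σ.h) y.z.X := ag_rep_of_cell cXk
  have eL : x.La s π σ.q σ.a σ.v = y.La s π σ.q σ.a σ.v := by
    have h : nmCell s (σ.q.l π σ.a σ.v) (x.Lraw s σ.q σ.a) = nmCell s (σ.q.l π σ.a σ.v) (y.Lraw s σ.q σ.a) := by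
      have h := congrArg NmNm.L hC; exact h
    exact ag_rep_of_cell h
  have zero : ∀ {m n : ℤ}, m = n → |((m - n : ℤ) : ℝ)| ≤ 0 := by
    intro m n h
    rw [h]
    simp
  have fin : ∀ {n : ℤ} {K K' e e' : ℝ}, |(n : ℝ)| ≤ K * s ^ (-e) + 1 → K = K' → e = e' → |(n : ℝ)| ≤ K' * s ^ (-e') + 1 := by
    intro n K K' e e' h hK he
    rw [← hK, ← he]
    exact h
  fin_cases i
  · exact zero (by have h := congrArg NmNm.kb hC; exact h)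
  · exact zero (by have h := congrArg NmNm.t hC; exact h)
  · exact zero (by have h := congrArg NmNm.k hC; exact h)
  · exact zero (by have h := congrArg NmNm.R hC; exact h)
  · exact zero cXk
  · show |(((x.agB s π σ k kR).B - (y.agB s π σ k kR).B : ℤ) : ℝ)| ≤ 6 * s ^ (-((kR - 1) * σ.h)) + 1
    have fB : nmCell s (σ.a + σ.h + σ.v) (x.z.Bt (x.ta s (σ.a + σ.h))) = nmCell s (σ.a + σ.h + σ.v) (y.z.Bt (y.ta s (σ.a + σ.h))) := by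
      have h := congrArg NmNm.B hO; exact h
    have ex := ag_B_back h0 h1 hσ x
    have ey := ag_B_back h0 h1 hσ y
    have hkn : (y.ta s (σ.a + σ.h) - y.ta s σ.a) * nmRep s (σ.v + σ.Ks * σ.h) y.z.X
        = (x.ta s (σ.a + σ.h) - x.ta s σ.a) * nmRep s (σ.v + σ.Ks * σ.h) x.z.X := by rw [eta, eta', eXs]
    rw [hkn] at ey
    exact fin (nm_step_dn (b' := σ.a + (σ.v + kR * σ.h)) h0 h1 ex ey fB) (by norm_num) (by ring)
  · show |(((x.agB s π σ k kR).L - (y.agB s π σ k kR).L : ℤ) : ℝ)| ≤ 59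
    have fL : nmCell s (σ.q.l π (σ.a + σ.h) σ.v) (x.Lraw s σ.q (σ.a + σ.h)) = nmCell s (σ.q.l π (σ.a + σ.h) σ.v) (y.Lraw s σ.q (σ.a + σ.h)) := by
      have h := congrArg NmNm.L hO; exact h
    have pB : nmCell s (σ.a + (σ.v + kR * σ.h)) (x.z.Bt (x.ta s σ.a)) = nmCell s (σ.a + (σ.v + kR * σ.h)) (y.z.Bt (y.ta s σ.a)) :=
      hp 5 (by decide)
    have gt : ((σ.G0 s π).lo x).t = ((σ.G0 s π).lo y).t := pt
    have gt' : ((σ.G0 s π).hi x).t = ((σ.G0 s π).hi y).t := ft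
    have gk : ((σ.G0 s π).lo x).k = ((σ.G0 s π).lo y).k := by have h := congrArg NmNm.k hC; exact h
    have gk' : ((σ.G0 s π).hi x).k = ((σ.G0 s π).hi y).k := by have h := congrArg NmNm.k hO; exact h
    have gR : ((σ.G0 s π).lo x).R = ((σ.G0 s π).lo y).R := by have h := congrArg NmNm.R hC; exact h
    have gR' : ((σ.G0 s π).hi x).R = ((σ.G0 s π).hi y).R := by have h := congrArg NmNm.R hO; exact h
    have ex := ag_L_back h0 h1 hσ kR x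
    have ey := ag_L_back h0 h1 hσ kR y
    have hkn : (-2 * (σ.G0 s π).dR ((σ.G0 s π).lo y) ((σ.G0 s π).hi y) * nmRep s (σ.v + kR * σ.h) y.z.X
            + 2 * (σ.G0 s π).dk ((σ.G0 s π).lo y) ((σ.G0 s π).hi y)
              * (nmRep s (σ.a + (σ.v + kR * σ.h)) (y.z.Bt (y.ta s σ.a)) + (y.ta s (σ.a + σ.h) - y.ta s σ.a) * nmRep s (σ.v + kR * σ.h) y.z.X))
        = (-2 * (σ.G0 s π).dR ((σ.G0 s π).lo x) ((σ.G0 s π).hi x) * nmRep s (σ.v + kR * σ.h) x.z.X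
            + 2 * (σ.G0 s π).dk ((σ.G0 s π).lo x) ((σ.G0 s π).hi x)
              * (nmRep s (σ.a + (σ.v + kR * σ.h)) (x.z.Bt (x.ta s σ.a)) + (x.ta s (σ.a + σ.h) - x.ta s σ.a) * nmRep s (σ.v + kR * σ.h) x.z.X)) := by
      rw [nm_ge_dR (σ.G0 s π) gt gt' gk gR gR', nm_ge_dk (σ.G0 s π) gk gk', ag_rep_of_cell pB, eXk, eta, eta']
    rw [hkn] at ey
    exact (nm_step_up h0 h1 hk.lO ex ey fL).trans (by norm_num)
  · show |(((x.agB s π σ k kR).Y - (y.agB s π σ k kR).Y : ℤ) : ℝ)| ≤ 14 * s ^ (-((2 * kR - 1) * σ.h)) + 1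
    have fY : nmCell s (σ.a + σ.h + 2 * σ.v) (x.z.Yt (x.ta s (σ.a + σ.h)) - 2 * nmRep s σ.v x.z.X * x.z.Bt (x.ta s (σ.a + σ.h)))
        = nmCell s (σ.a + σ.h + 2 * σ.v) (y.z.Yt (y.ta s (σ.a + σ.h)) - 2 * nmRep s σ.v y.z.X * y.z.Bt (y.ta s (σ.a + σ.h))) := by
      have h := congrArg NmNm.Y hO; exact h
    have fB : nmCell s (σ.a + σ.h + σ.v) (x.z.Bt (x.ta s (σ.a + σ.h))) = nmCell s (σ.a + σ.h + σ.v) (y.z.Bt (y.ta s (σ.a + σ.h))) := by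
      have h := congrArg NmNm.B hO; exact h
    have fX : nmCell s σ.v x.z.X = nmCell s σ.v y.z.X := by have h := congrArg NmNm.X hO; exact h
    have ex := ag_Y_back h0 h1 hσ hk.kR1 x
    have ey := ag_Y_back h0 h1 hσ hk.kR1 y
    have hkn : (2 * (nmRep s (σ.v + kR * σ.h) y.z.X - nmRep s σ.v y.z.X) * nmRep s (σ.a + σ.h + σ.v) (y.z.Bt (y.ta s (σ.a + σ.h)))
            - (y.ta s (σ.a + σ.h) - y.ta s σ.a) * nmRep s (σ.v + kR * σ.h) y.z.X ^ 2)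
        = (2 * (nmRep s (σ.v + kR * σ.h) x.z.X - nmRep s σ.v x.z.X) * nmRep s (σ.a + σ.h + σ.v) (x.z.Bt (x.ta s (σ.a + σ.h)))
            - (x.ta s (σ.a + σ.h) - x.ta s σ.a) * nmRep s (σ.v + kR * σ.h) x.z.X ^ 2) := by
      rw [ag_rep_of_cell fB, ag_rep_of_cell fX, eXk, eta, eta']
    rw [hkn] at ey
    exact fin (nm_step_dn (b' := σ.a + 2 * (σ.v + kR * σ.h)) h0 h1 ex ey fY) (by norm_num) (by ring)
  · show |(((x.agB s π σ k kR).N - (y.agB s π σ k kR).N : ℤ) : ℝ)| ≤ 7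
    have fN : nmCell s (σ.q.w π σ.a σ.v - σ.q.g) (x.Nres s π σ.q σ.a σ.v) = nmCell s (σ.q.w π σ.a σ.v - σ.q.g) (y.Nres s π σ.q σ.a σ.v) := by
      have h := congrArg NmNm.N hC; exact h
    have pL : nmCell s (σ.q.l π σ.a (σ.v + kR * σ.h)) (x.Lraw s σ.q σ.a) = nmCell s (σ.q.l π σ.a (σ.v + kR * σ.h)) (y.Lraw s σ.q σ.a) :=
      hp 6 (by decide)
    have eLk : x.La s π σ.q σ.a (σ.v + kR * σ.h) = y.La s π σ.q σ.a (σ.v + kR * σ.h) := ag_rep_of_cell pL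
    have hb : σ.q.w π σ.a (σ.v + kR * σ.h) - (σ.q.g + k * σ.h) ≤ σ.q.w π σ.a σ.v - σ.q.g := by rw [hk.wK]; linarith
    have hb2 : σ.q.w π σ.a (σ.v + kR * σ.h) - (σ.q.g + k * σ.h) ≤ σ.q.w π σ.a σ.v + (σ.v + kR * σ.h - σ.v) := by
      rw [hk.wK]
      nlinarith [hk.kR1]
    have ex := ag_N_move h0 h1 hσ.q x σ.a hv (σ.v + kR * σ.h) _ hb2
    have ey := ag_N_move h0 h1 hσ.q y σ.a hv (σ.v + kR * σ.h) _ hb2
    rw [← eLk, ← eL, ← eXk] at ey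
    exact (nm_step_up h0 h1 hb ex ey fN).trans (by norm_num)
  · show |(((x.agB s π σ k kR).D - (y.agB s π σ k kR).D : ℤ) : ℝ)| ≤ 7
    have fD : nmCell s (σ.a + σ.q.w π σ.a σ.v - σ.q.g) (x.Dres s π σ.q σ.a σ.v) = nmCell s (σ.a + σ.q.w π σ.a σ.v - σ.q.g) (y.Dres s π σ.q σ.a σ.v) := by
      have h := congrArg NmNm.D hC; exact h
    have pB : nmCell s (σ.a + (σ.v + kR * σ.h)) (x.z.Bt (x.ta s σ.a)) = nmCell s (σ.a + (σ.v + kR * σ.h)) (y.z.Bt (y.ta s σ.a)) :=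
      hp 5 (by decide)
    have pL : nmCell s (σ.q.l π σ.a (σ.v + kR * σ.h)) (x.Lraw s σ.q σ.a) = nmCell s (σ.q.l π σ.a (σ.v + kR * σ.h)) (y.Lraw s σ.q σ.a) :=
      hp 6 (by decide)
    have eLk : x.La s π σ.q σ.a (σ.v + kR * σ.h) = y.La s π σ.q σ.a (σ.v + kR * σ.h) := ag_rep_of_cell pL
    have hb : σ.a + σ.q.w π σ.a (σ.v + kR * σ.h) - (σ.q.g + k * σ.h) ≤ σ.a + σ.q.w π σ.a σ.v - σ.q.g := by rw [hk.wK]; linarith
    have hb2 : σ.a + σ.q.w π σ.a (σ.v + kR * σ.h) - (σ.q.g + k * σ.h) ≤ σ.q.w π σ.a σ.v + (σ.a + (σ.v + kR * σ.h) - σ.v) := by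
      rw [hk.wK]
      nlinarith [hk.kR1]
    have ex := ag_D_move h0 h1 hσ.q x σ.a hv (σ.a + (σ.v + kR * σ.h)) _ hb2
    have ey := ag_D_move h0 h1 hσ.q y σ.a hv (σ.a + (σ.v + kR * σ.h)) _ hb2
    rw [← eLk, ← eL, ← ag_rep_of_cell pB] at ey
    exact (nm_step_up h0 h1 hb ex ey fD).trans (by norm_num)

/-- **G3** : `(O, C, X^*)` list `B^k` -/
theorem ag_G3 (h0 : 0 < s) (h1 : s < 1) (hσ : σ.Ok π) {k kR : ℝ} (hk : σ.OkK π k kR) (cO cC : NmNm) (cX : ℤ) :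
    ∃ S : Finset NmNm, (S.card : ℝ) ≤ 10 ^ 6 * s ^ (-((3 * kR - 2) * σ.h)) ∧
      ∀ x : NmRaw, x.agO s π σ = cO → x.agC s π σ = cC → x.agX s σ = cX → x.agB s π σ k kR ∈ S := by
  have hh := hσ.h0
  have hA : 1 ≤ s ^ (-((kR - 1) * σ.h)) :=
    Real.one_le_rpow_of_pos_of_le_one_of_nonpos h0 h1.le (by nlinarith [hk.kR1])
  have hB : 1 ≤ s ^ (-((2 * kR - 1) * σ.h)) :=
    Real.one_le_rpow_of_pos_of_le_one_of_nonpos h0 h1.le (by nlinarith [hk.kR1])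
  obtain ⟨S, hS, hmem⟩ := nm_aux_list (agK3 s σ kR) (by
      intro i
      fin_cases i <;> simp [agK3] <;> linarith)
    {c | ∃ x : NmRaw, x.agO s π σ = cO ∧ x.agC s π σ = cC ∧ x.agX s σ = cX ∧ x.agB s π σ k kR = c} (by
    rintro _ ⟨x, hx1, hx2, hx3, rfl⟩ _ ⟨y, hy1, hy2, hy3, rfl⟩ i hp
    exact ag_two_G3 h0 h1 hσ hk x y (hx1.trans hy1.symm) (hx2.trans hy2.symm) (hx3.trans hy3.symm) i hp)
  refine ⟨S, hS.trans ?_, fun x h1 h2 h3 => hmem _ ⟨x, h1, h2, h3, rfl⟩⟩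
  have e : ∏ i, (agK3 s σ kR i + 1) = (6 * s ^ (-((kR - 1) * σ.h)) + 1 + 1) * 60 * (14 * s ^ (-((2 * kR - 1) * σ.h)) + 1 + 1) * 64 := by
    simp only [Fin.prod_univ_succ, agK3]
    simp
    ring
  have p : s ^ (-((3 * kR - 2) * σ.h)) = s ^ (-((kR - 1) * σ.h)) * s ^ (-((2 * kR - 1) * σ.h)) := by
    rw [← Real.rpow_add h0]; congr 1; ring
  rw [e, p]
  nlinarith [mul_nonneg (sub_nonneg.2 hA) (sub_nonneg.2 hB)]

end g1

theorem ag_step_eqns_cite : True := by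
  have := @AgSt.G0.eq_1; have := @agK2.eq_1; have := @agK3.eq_1
  trivial

end

end Claimed.Agent.R256
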