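import Claimed.Agent.R256.Act.GeoDefs

/-!
# Row 256, section Act, unit GEO, file 2: REFINEMENT WITH DIFFERENT ENLARGEMENTS      (architect helper209; prefix `ag_`)

PAPER FREE (on `Nm/Geo/*`, helper51).   The fine name `𝒞^(g')(a', v')` determines the coarse name `𝒞^g(a, v)` up to a list of `nmK0` names as soon as `a ≤ a'`, `v ≤ v'` and `w(a,v) - g ≤ w(a',v') - g'`
(the known terms of `Nm/Geo/Est.lean` never read the fine bins `N`, `D`).      Uses: (shift) `g = 0`;  `S_k` refines with `k`;  `V_z` refines `C`.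
EXITS: `ag_two_up`, `ag_refine_up`, `ag_nval_up`, `ag_entC_up`.
-/

set_option autoImplicit false

namespace Claimed.Agent.R256

open Claimed.Agent.R255
open Classical

noncomputable section

theorem ag_en_ok {π : SfPar} {q : NmQ} (hq : q.Ok π) {g : ℝ} (hg : 0 ≤ g) : (q.en g).Ok π :=
  ⟨hq.bs0, hq.bs1, hq.b1, hq.pl, hg⟩

theorem ag_en_l (q : NmQ) (g : ℝ) (π : SfPar) (a v : ℝ) : (q.en g).l π a v = q.l π a v := rfl

theorem ag_en_w (q : NmQ) (g : ℝ) (π : SfPar) (a v : ℝ) : (q.en g).w π a v = q.w π a v := rfl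

theorem ag_en_self (q : NmQ) : q.en q.g = q := rfl

/-- **two raw data, direction UP, different enlargements** -/
theorem ag_two_up {s : ℝ} {π : SfPar} {q : NmQ} {a v a' v' g g' : ℝ} (h0 : 0 < s) (h1 : s < 1) (hq : q.Ok π) (ha : a ≤ a') (hv : v ≤ v')
    (hg : 0 ≤ g) (hw : q.w π a v - g ≤ q.w π a' v' - g') (x y : NmRaw)
    (hf : x.name s π (q.en g') a' v' = y.name s π (q.en g') a' v') (i : Fin 10)
    (hp : ∀ j < i, nmVec (x.name s π (q.en g) a v) j = nmVec (y.name s π (q.en g) a v) j) :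
    |((nmVec (x.name s π (q.en g) a v) i - nmVec (y.name s π (q.en g) a v) i : ℤ) : ℝ)| ≤ nmKup i := by
  set G : NmG := ⟨s, π, q.en g, a, v, a', v'⟩ with hGdef
  have hG : G.Ok := ⟨h0, h1, ag_en_ok hq hg, ha, hv⟩
  have ft : (G.hi x).t = (G.hi y).t := by have h := congrArg NmNm.t hf; exact h
  have fk : (G.hi x).k = (G.hi y).k := by have h := congrArg NmNm.k hf; exact h
  have fR : (G.hi x).R = (G.hi y).R := by have h := congrArg NmNm.R hf; exact h
  have fX : (G.hi x).X = (G.hi y).X := by have h := congrArg NmNm.X hf; exact h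
  have fB : (G.hi x).B = (G.hi y).B := by have h := congrArg NmNm.B hf; exact h
  have fL : (G.hi x).L = (G.hi y).L := by have h := congrArg NmNm.L hf; exact h
  have fY : (G.hi x).Y = (G.hi y).Y := by have h := congrArg NmNm.Y hf; exact h
  have fN : nmCell s (q.w π a' v' - g') (x.Nres G.s G.π G.q G.a' G.v') = nmCell s (q.w π a' v' - g') (y.Nres G.s G.π G.q G.a' G.v') := by
    have h := congrArg NmNm.N hf; exact h
  have fD : nmCell s (a' + q.w π a' v' - g') (x.Dres G.s G.π G.q G.a' G.v') = nmCell s (a' + q.w π a' v' - g') (y.Dres G.s G.π G.q G.a' G.v') := by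
    have h := congrArg NmNm.D hf; exact h
  have hp : ∀ j < i, nmVec (G.lo x) j = nmVec (G.lo y) j := hp
  show |((nmVec (G.lo x) i - nmVec (G.lo y) i : ℤ) : ℝ)| ≤ nmKup i
  fin_cases i
  · show |(((G.lo x).kb - (G.lo y).kb : ℤ) : ℝ)| ≤ 0
    have e : (G.lo x).kb = (G.lo y).kb := by have h := congrArg NmNm.kb hf; exact h
    rw [e]
    simp
  · show |(((G.lo x).t - (G.lo y).t : ℤ) : ℝ)| ≤ 0
    have e : (G.lo x).t = (G.lo y).t := nm_cell_nest h0 h1 hG.a ft
    rw [e]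
    simp
  · show |(((G.lo x).k - (G.lo y).k : ℤ) : ℝ)| ≤ 3
    by_cases hc : G.q.ds.cut = NmCut.slope
    · have hb : G.q.ds.b G.a - G.a ≤ G.q.ds.b G.a' - G.a' := by
        unfold NmDs.b
        nlinarith [hG.q.bs1 hc, hG.a]
      exact (nm_step_up h0 h1 hb (nm_ge_zero (x.kraw G.q) _) (nm_ge_zero (y.kraw G.q) _) fk).trans (by norm_num)
    · have e : (G.lo x).k = (G.lo y).k := by
        show nmCell G.s (G.q.ds.b G.a - G.a) (x.kraw G.q) = nmCell G.s (G.q.ds.b G.a - G.a) (y.kraw G.q)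
        rw [nm_ge_kraw x G.q hc, nm_ge_kraw y G.q hc]
      rw [e]
      simp
  · show |(((G.lo x).R - (G.lo y).R : ℤ) : ℝ)| ≤ 7
    have pt : (G.lo x).t = (G.lo y).t := hp 1 (by decide)
    have pk : (G.lo x).k = (G.lo y).k := hp 2 (by decide)
    have hy := nm_est_R hG y
    rw [← nm_ge_knR G pt ft pk] at hy
    exact (nm_step_up h0 h1 (nm_b_mono hG) (nm_est_R hG x) hy fR).trans (by norm_num)
  · show |(((G.lo x).X - (G.lo y).X : ℤ) : ℝ)| ≤ 3
    exact (nm_step_up h0 h1 hG.v (nm_ge_zero x.z.X _) (nm_ge_zero y.z.X _) fX).trans (by norm_num)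
  · show |(((G.lo x).B - (G.lo y).B : ℤ) : ℝ)| ≤ 7
    have pt : (G.lo x).t = (G.lo y).t := hp 1 (by decide)
    have pX : (G.lo x).X = (G.lo y).X := hp 4 (by decide)
    have hy := nm_est_B hG y
    rw [← nm_ge_knB G pt ft pX] at hy
    exact (nm_step_up h0 h1 (add_le_add hG.a hG.v) (nm_est_B hG x) hy fB).trans (by norm_num)
  · show |(((G.lo x).L - (G.lo y).L : ℤ) : ℝ)| ≤ 43
    have pt : (G.lo x).t = (G.lo y).t := hp 1 (by decide)
    have pk : (G.lo x).k = (G.lo y).k := hp 2 (by decide)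
    have pR : (G.lo x).R = (G.lo y).R := hp 3 (by decide)
    have pX : (G.lo x).X = (G.lo y).X := hp 4 (by decide)
    have hy := nm_est_L hG y
    rw [← nm_ge_knL G pt ft pk fk pR fR pX fB] at hy
    exact (nm_step_up h0 h1 (nm_l_mono hG) (nm_est_L hG x) hy fL).trans (by norm_num)
  · show |(((G.lo x).Y - (G.lo y).Y : ℤ) : ℝ)| ≤ 23
    have pt : (G.lo x).t = (G.lo y).t := hp 1 (by decide)
    have pX : (G.lo x).X = (G.lo y).X := hp 4 (by decide)
    have hy := nm_est_Y hG y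
    rw [← nm_ge_knY G pt ft pX fX fB] at hy
    exact (nm_step_up h0 h1 (by linarith [hG.a, hG.v]) (nm_est_Y hG x) hy fY).trans (by norm_num)
  · show |(((G.lo x).N - (G.lo y).N : ℤ) : ℝ)| ≤ 31
    have pt : (G.lo x).t = (G.lo y).t := hp 1 (by decide)
    have pk : (G.lo x).k = (G.lo y).k := hp 2 (by decide)
    have pR : (G.lo x).R = (G.lo y).R := hp 3 (by decide)
    have pL : (G.lo x).L = (G.lo y).L := hp 6 (by decide)
    have hy := nm_est_N hG y
    rw [← nm_ge_knN G pt ft pk fk pR fR fX pL fL fY] at hy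
    exact (nm_step_up h0 h1 hw (nm_est_N hG x) hy fN).trans (by norm_num)
  · show |(((G.lo x).D - (G.lo y).D : ℤ) : ℝ)| ≤ 59
    have pt : (G.lo x).t = (G.lo y).t := hp 1 (by decide)
    have pk : (G.lo x).k = (G.lo y).k := hp 2 (by decide)
    have pR : (G.lo x).R = (G.lo y).R := hp 3 (by decide)
    have pL : (G.lo x).L = (G.lo y).L := hp 6 (by decide)
    have pN : (G.lo x).N = (G.lo y).N := hp 8 (by decide)
    have hy := nm_est_D hG y
    rw [← nm_ge_knD G pt ft pk fk pR fR fX fB pL fL fY pN] at hy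
    have hb : a + q.w π a v - g ≤ a' + q.w π a' v' - g' := by linarith
    exact (nm_step_up h0 h1 hb (nm_est_D hG x) hy fD).trans (by norm_num)

/-- **the finer name determines the coarser one, different enlargements** -/
theorem ag_refine_up {s : ℝ} {π : SfPar} {q : NmQ} {a v a' v' g g' : ℝ} (h0 : 0 < s) (h1 : s < 1) (hq : q.Ok π) (ha : a ≤ a') (hv : v ≤ v')
    (hg : 0 ≤ g) (hw : q.w π a v - g ≤ q.w π a' v' - g') (c' : NmNm) :
    ∃ S : Finset NmNm, (S.card : ℝ) ≤ nmK0 ∧ ∀ x : NmRaw, x.name s π (q.en g') a' v' = c' → x.name s π (q.en g) a v ∈ S := by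
  obtain ⟨S, hS, hmem⟩ := nm_aux_list nmKup nm_aux_Kup.1
    {c | ∃ x : NmRaw, x.name s π (q.en g') a' v' = c' ∧ x.name s π (q.en g) a v = c} (by
    rintro _ ⟨x, hx, rfl⟩ _ ⟨y, hy, rfl⟩ i hp
    exact ag_two_up h0 h1 hq ha hv hg hw x y (hx.trans hy.symm) i hp)
  exact ⟨S, hS.trans nm_aux_Kup.2, fun x hx => hmem _ ⟨x, hx, rfl⟩⟩

/-! ## on a documented configuration -/

theorem ag_nval_up (D : SfDoc) (π : SfPar) {q : NmQ} (hq : q.Ok π) (h0 : 0 < D.s) (h1 : D.s < 1) {a v a' v' g g' : ℝ} (ha : a ≤ a') (hv : v ≤ v')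
    (hg : 0 ≤ g) (hw : q.w π a v - g ≤ q.w π a' v' - g') :
    (D.P 1).NVal (fun _ => True) (D.nm π (q.en g) a v) (D.nm π (q.en g') a' v') nmK0 := by
  intro ω₀
  obtain ⟨S, hS, hmem⟩ := ag_refine_up h0 h1 hq ha hv hg hw (D.nm π (q.en g') a' v' ω₀)
  exact ⟨S, hS, fun ω _ _ h => hmem _ h⟩

/-- conditioning on the finer name decreases the entropy up to `log nmK0` -/
theorem ag_entC_up (D : SfDoc) (π : SfPar) {q : NmQ} (hq : q.Ok π) (h0 : 0 < D.s) (h1 : D.s < 1) {a v a' v' g g' : ℝ} (ha : a ≤ a') (hv : v ≤ v')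
    (hg : 0 ≤ g) (hw : q.w π a v - g ≤ q.w π a' v' - g') {β : Type} (X : D.Row 1 → β) :
    (D.P 1).entC X (D.nm π (q.en g') a' v') ≤ (D.P 1).entC X (D.nm π (q.en g) a v) + Real.log nmK0 := by
  have e1 := ent_entC_le_log_nval _ _ _ (ag_nval_up D π hq h0 h1 ha hv hg hw)
  have f2 := nm_aux_entC_tri (D.P 1) X (D.nm π (q.en g) a v) (D.nm π (q.en g') a' v')
  linarith

end

end Claimed.Agent.R256
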