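import Claimed.Agent.R256.Act.OgsStep
import Claimed.Agent.R256.Act.GeoOg
import Claimed.Agent.R256.Act.GeoFs
import Claimed.Agent.R256.Act.Aos
import Claimed.Agent.R256.Act.Sup

/-!
# Row 256, section Act, unit OGS, file 3: **EQ-OG, LIN-OG** = `OgData.Facts` for the three off-gap configurations      (architect helper137; prefix `ao_`)

EXITS `ao_eq_rog`, `ao_lin_rog` = the statements of `ac_eq_rog`, `ac_lin_rog` (`Act/Sup.lean`) VERBATIM, PROVED here; NO `sorry` IN THIS FILE: the eight contracts below are citations (`ao_enl`, `ao_shift` = (enl), (shift): helper209, `Act/GeoOg.lean`):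
* `ao_geo_strong`, `ao_geo_weak`, `ao_geo_lin`          (act:step-geometry) = `FsGeo` for `uf`-most configurations         helper209, `Act/GeoFs.lean`
* `ao_time_strong`, `ao_time_weak`, `ao_time_lin`       typical time scores = `FsTime` for `uf`-most configurations        helper9, `Act/Aos.lean`
(`ao_step_strong`, `ao_step_weak`, `ao_step_lin` = Lemma act:finite-step on the three branches are PROVED from these and `fs_step`, `Act/FsLim.lean`, helper277, through `ao_step_of_sup`, `Act/OgsStep.lean`)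
and from `K.Acts` (surplus, freeze), `Nm/Contract.lean` (through `ao_facts`, `Act/OgsGlue.lean`), clip = quad to the left of the seam (`ao_nm_clip`).
Instances:   strong `q = (nmDsEq π, quad)`, `k0 = 1` (no freezing needed: `m ≤ 1`);   weak `q = (nmDsEq π, clip)`, `k0 = 1 - d`;   linear `q = (nmDsLin, plin)`, `k0 = 1 - d`, times `(1/4, 1/2)`.
-/

set_option autoImplicit false

namespace Claimed.Agent.R256

open Claimed.Agent.R255
open MeasureTheory Filter Topology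

/-! ## THE NAMED CONTRACTS -/

section con

variable {π : SfPar} {C0 : ℝ} {κ : ℝ → ℝ} (S : NmSeq π C0 κ)

/-- **(enl)** (06 l.672-677): the two normal-bin list costs.   The ordinary name refines the enlarged one; a cell of depth `w - g` contains `≤ 2 s^(-g)` cells of depth `w`; `Z^g = Z - (1-η) g`.   `Ce = 3` should do.
PROVED: `ag_enl` (`Act/GeoOg.lean`, helper209). -/
theorem ao_enl (hπ : π.Valid) (_hX : S.HasX) (q : NmQ) (hq : q.Fam π) (hg0 : q.g = 0) : ∃ Ce : ℝ, 0 ≤ Ce ∧ AoEnl S q Ce 1 :=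
  ag_enl S hπ q hq hg0

/-- **(shift)** (06 l.860-877), at a common angular depth: the enlarged name at `(a,v)` predicts (zero-cost lists) the ordinary name at `(a',y)`, `a' + A0 g < a`, `y ≤ v`; also across the clipping switch.
`H(X|A) ≤ H(B|A) + H(X|B)`.      PROVED: `ag_shift` (`Act/GeoOg.lean`, helper209). -/
theorem ao_shift (hπ : π.Valid) (_hX : S.HasX) (_hc : π.hyb = false) (hr : 0 < π.Cr) (q : NmQ) (hq : q.Fam π) (hg0 : q.g = 0)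
    (hgl : q.ds.glob = false) : ∃ A0 g0 : ℝ, 0 ≤ A0 ∧ 0 < g0 ∧ AoShift S q A0 g0 :=
  ag_shift S hπ hr q hq hg0 hgl

/-! ### (step) : supply of `FsHyp.geo`, `FsHyp.time` (`Act/FsLim.lean`) on the three branches; Props `AoGeo`, `AoTime` of `Act/OgsStep.lean` -/

/-- **(act:step-geometry), unclipped quadratic equality branch**, `c > 3`, `b_1' > 0`, uniform strong-prediction slack `σ` on `(t0,t1)`; `k_R = k / 2`, `k ∈ [c, c+1]`.      PROVED: `ag_geo_strong` (`Act/GeoFs.lean`, helper209). -/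
theorem ao_geo_strong (hπ : π.Valid) (h1 : 0 < π.c2) (h2 : π.q = π.c2) (hS : S.AcGood) (hc : π.hyb = false) (hr : 0 < π.c2 - π.J)
    (h3 : 3 < π.c2) (t0 t1 σ : ℝ) (ht0 : 0 < t0) (ht : t0 < t1) (ht1 : t1 < 1) (hσ : 0 < σ)
    (hs : ∀ t, t0 < t → t < t1 → -((π.c2 - π.J) * t) + σ ≤ S.pst (nmDsEq π) (1 - t)) :
    ∃ Ks0 : ℝ, ∀ Ks : ℝ, Ks0 ≤ Ks → ∃ g0 wd : ℝ, 0 < g0 ∧ 0 < wd ∧
      AoGeo S ⟨nmDsEq π, NmTp.quad, 0⟩ true π.c2 ((π.c2 + 1) / 2) Ks g0 t0 t1 wd :=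
  ag_geo_strong S hπ h1 h2 h3 t0 t1

/-- **typical time scores, unclipped quadratic equality branch** (06 l.766-780): `(C, S_k)` is listed by `(y_0, t_a)`; the quadratic derivative query `l(a,v) + k_R h` is strictly below `p_*(a)` (`wd ≤ σ / 2`); causal time count.
= `aos_time_strong` (`Act/Aos.lean`, helper9). -/
theorem ao_time_strong (hπ : π.Valid) (h1 : 0 < π.c2) (h2 : π.q = π.c2) (hS : S.AcGood) (hc : π.hyb = false) (hr : 0 < π.c2 - π.J)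
    (h3 : 3 < π.c2) (t0 t1 σ : ℝ) (ht0 : 0 < t0) (ht : t0 < t1) (ht1 : t1 < 1) (hσ : 0 < σ)
    (hs : ∀ t, t0 < t → t < t1 → -((π.c2 - π.J) * t) + σ ≤ S.pst (nmDsEq π) (1 - t)) :
    ∀ Ks : ℝ, 0 ≤ Ks → ∃ g0 wd : ℝ, 0 < g0 ∧ 0 < wd ∧
      AoTime S ⟨nmDsEq π, NmTp.quad, 0⟩ true π.c2 ((π.c2 + 1) / 2) Ks g0 t0 t1 wd :=
  aos_time_strong S hπ h1 h2 hS hc hr h3 t0 t1 σ ht0 ht ht1 hσ hs

/-- **(act:step-geometry), right part of the clipped equality template**, rate `C₁ = c - J ≥ 1`; `k_R = k ∈ [C₁, C₁ + 1]`.   (`δ` = distance to the seam: for `J h ≤ δ` the root `(1-t-h, v)` is on the linear branch.)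
PROVED: `ag_geo_weak` (`Act/GeoFs.lean`, helper209). -/
theorem ao_geo_weak (hπ : π.Valid) (h1 : 0 < π.c2) (h2 : π.q = π.c2) (hS : S.AcGood) (hc : π.hyb = false)
    (h3 : 1 ≤ π.c2 - π.J) (t0 t1 : ℝ) (ht0 : 0 < t0) (ht : t0 < t1) (ht1 : t1 < 1)
    (hw : ∀ t, t0 < t → t < t1 → S.pst (nmDsEq π) (1 - t) = -((π.c2 - π.J) * t)) :
    ∃ Ks0 : ℝ, ∀ Ks : ℝ, Ks0 ≤ Ks → ∃ g0 wd : ℝ, 0 < g0 ∧ 0 < wd ∧
      AoGeo S ⟨nmDsEq π, NmTp.clip, 0⟩ false (π.c2 - π.J) (π.c2 - π.J + 1) Ks g0 t0 t1 wd :=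
  ag_geo_weak S hπ h1 h2 h3 t0 t1

/-- **typical time scores, right part of the clipped equality template** : the derivative query uses only `l = b_1(a)`.      = `aos_time_weak` (`Act/Aos.lean`, helper9). -/
theorem ao_time_weak (hπ : π.Valid) (h1 : 0 < π.c2) (h2 : π.q = π.c2) (hS : S.AcGood) (hc : π.hyb = false)
    (h3 : 1 ≤ π.c2 - π.J) (t0 t1 : ℝ) (ht0 : 0 < t0) (ht : t0 < t1) (ht1 : t1 < 1)
    (hw : ∀ t, t0 < t → t < t1 → S.pst (nmDsEq π) (1 - t) = -((π.c2 - π.J) * t)) :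
    ∀ Ks : ℝ, 0 ≤ Ks → ∃ g0 wd : ℝ, 0 < g0 ∧ 0 < wd ∧
      AoTime S ⟨nmDsEq π, NmTp.clip, 0⟩ false (π.c2 - π.J) (π.c2 - π.J + 1) Ks g0 t0 t1 wd :=
  aos_time_weak S hπ h1 h2 hS hc h3 t0 t1 ht0 ht ht1 hw

/-- **(act:step-geometry), pure linear template**, rate `c₁ ≥ 1`; `k_R = k ∈ [c₁, c₁ + 1]`.      PROVED: `ag_geo_lin` (`Act/GeoFs.lean`, helper209). -/
theorem ao_geo_lin (hπ : π.Valid) (h0 : π.c2 = 0) (h1 : 0 < π.c1) (h2 : π.q = π.c1 + π.J) (hS : S.AcGood) (hc : π.hyb = false)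
    (h3 : 1 ≤ π.c1) (t0 t1 : ℝ) (ht0 : 0 < t0) (ht : t0 < t1) (ht1 : t1 < 1) :
    ∃ Ks0 : ℝ, ∀ Ks : ℝ, Ks0 ≤ Ks → ∃ g0 wd : ℝ, 0 < g0 ∧ 0 < wd ∧
      AoGeo S ⟨nmDsLin, NmTp.plin, 0⟩ false π.c1 (π.c1 + 1) Ks g0 t0 t1 wd :=
  ag_geo_lin S hπ h0 h1 h2 h3 t0 t1

/-- **typical time scores, pure linear template** : centre slope comparison.      = `aos_time_lin` (`Act/Aos.lean`, helper9). -/
theorem ao_time_lin (hπ : π.Valid) (h0 : π.c2 = 0) (h1 : 0 < π.c1) (h2 : π.q = π.c1 + π.J) (hS : S.AcGood) (hc : π.hyb = false)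
    (h3 : 1 ≤ π.c1) (t0 t1 : ℝ) (ht0 : 0 < t0) (ht : t0 < t1) (ht1 : t1 < 1) :
    ∀ Ks : ℝ, 0 ≤ Ks → ∃ g0 wd : ℝ, 0 < g0 ∧ 0 < wd ∧
      AoTime S ⟨nmDsLin, NmTp.plin, 0⟩ false π.c1 (π.c1 + 1) Ks g0 t0 t1 wd :=
  aos_time_lin S hπ h0 h1 h2 hS hc h3 t0 t1 ht0 ht ht1

/-- **(step), unclipped quadratic equality branch** : PROVED from `ao_geo_strong`, `ao_time_strong`, `fs_step` -/
theorem ao_step_strong (hπ : π.Valid) (h1 : 0 < π.c2) (h2 : π.q = π.c2) (hS : S.AcGood) (hc : π.hyb = false) (hr : 0 < π.c2 - π.J)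
    (h3 : 3 < π.c2) (t0 t1 σ : ℝ) (ht0 : 0 < t0) (ht : t0 < t1) (ht1 : t1 < 1) (hσ : 0 < σ)
    (hs : ∀ t, t0 < t → t < t1 → -((π.c2 - π.J) * t) + σ ≤ S.pst (nmDsEq π) (1 - t)) :
    ∃ Ks g0 wd : ℝ, 0 ≤ Ks ∧ 0 < g0 ∧ 0 < wd ∧
      AoStep S ⟨nmDsEq π, NmTp.quad, 0⟩ (π.c2 / 2) ((π.c2 + 1) / 2) Ks g0 t0 t1 wd := by
  obtain ⟨Ks0, hG⟩ := ao_geo_strong S hπ h1 h2 hS hc hr h3 t0 t1 σ ht0 ht ht1 hσ hs
  obtain ⟨g1, w1, hg1, hw1, hG⟩ := hG (max Ks0 0) (le_max_left _ _)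
  obtain ⟨g2, w2, hg2, hw2, hT⟩ := ao_time_strong S hπ h1 h2 hS hc hr h3 t0 t1 σ ht0 ht ht1 hσ hs (max Ks0 0) (le_max_right _ _)
  have hq : (⟨nmDsEq π, NmTp.quad, 0⟩ : NmQ).Fam π := ⟨le_rfl, (fun h => by cases h), Or.inl ⟨h1, h2, rfl, (fun h => by cases h)⟩⟩
  refine ⟨max Ks0 0, min g1 g2, min w1 w2, le_max_right _ _, lt_min hg1 hg2, lt_min hw1 hw2, ?_⟩
  refine ao_step_of_sup hπ hS.flat _ hq rfl true π.c2 _ _ _ _ t0 t1 _ ht0.le ht1.le h1.le ?_ ?_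
    (hG.mono (min_le_left _ _) (min_le_left _ _)) (hT.mono (min_le_right _ _) (min_le_right _ _))
  · intro k k1 k2
    simp only [↓reduceIte]
    exact ⟨by linarith, by linarith, by linarith⟩
  · intro δ _
    refine ⟨1, one_pos, fun h t v _ _ _ k _ => ?_⟩
    simp only [↓reduceIte]
    show (nmDsEq π).b (1 - t - h + h) + 2 * v - ((nmDsEq π).b (1 - t - h) + 2 * (v + k / 2 * h)) = (π.c2 - k) * h
    simp only [NmDs.b, nmDsEq]
    ring

/-- **(step), right part of the clipped equality template** : PROVED from `ao_geo_weak`, `ao_time_weak`, `fs_step` -/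
theorem ao_step_weak (hπ : π.Valid) (h1 : 0 < π.c2) (h2 : π.q = π.c2) (hS : S.AcGood) (hc : π.hyb = false)
    (h3 : 1 ≤ π.c2 - π.J) (t0 t1 : ℝ) (ht0 : 0 < t0) (ht : t0 < t1) (ht1 : t1 < 1)
    (hw : ∀ t, t0 < t → t < t1 → S.pst (nmDsEq π) (1 - t) = -((π.c2 - π.J) * t)) :
    ∃ Ks g0 wd : ℝ, 0 ≤ Ks ∧ 0 < g0 ∧ 0 < wd ∧
      AoStep S ⟨nmDsEq π, NmTp.clip, 0⟩ (π.c2 - π.J) (π.c2 - π.J + 1) Ks g0 t0 t1 wd := by
  obtain ⟨Ks0, hG⟩ := ao_geo_weak S hπ h1 h2 hS hc h3 t0 t1 ht0 ht ht1 hw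
  obtain ⟨g1, w1, hg1, hw1, hG⟩ := hG (max Ks0 0) (le_max_left _ _)
  obtain ⟨g2, w2, hg2, hw2, hT⟩ := ao_time_weak S hπ h1 h2 hS hc h3 t0 t1 ht0 ht ht1 hw (max Ks0 0) (le_max_right _ _)
  have hJ := hπ.J0
  have hr : 0 < π.Cr := by rw [SfPar.Cr, h2]; linarith
  have hq : (⟨nmDsEq π, NmTp.clip, 0⟩ : NmQ).Fam π := ⟨le_rfl, fun _ => hr, Or.inl ⟨h1, h2, rfl, (fun h => by cases h)⟩⟩
  have e : ∀ k : ℝ, (if (false : Bool) then k / 2 else k) = k := fun k => if_neg (by simp)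
  refine ⟨max Ks0 0, min g1 g2, min w1 w2, le_max_right _ _, lt_min hg1 hg2, lt_min hw1 hw2, ?_⟩
  refine ao_step_of_sup hπ hS.flat _ hq rfl false (π.c2 - π.J) _ _ _ _ t0 t1 _ ht0.le ht1.le (by linarith) ?_ ?_
    (hG.mono (min_le_left _ _) (min_le_left _ _)) (hT.mono (min_le_right _ _) (min_le_right _ _))
  · intro k k1 k2
    simp only [e]
    exact ⟨k1, k2, by linarith⟩
  · intro δ hδ
    have hJ1 : 0 < π.J + 1 := by linarith
    refine ⟨δ / (π.J + 1), div_pos hδ hJ1, fun h t v hh hρ hv k hk => ?_⟩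
    simp only [e]
    have hρ' : (π.J + 1) * h ≤ δ := by
      rw [le_div_iff₀ hJ1] at hρ; linarith
    have n1 : 0 ≤ k * h := mul_nonneg (by linarith) hh.le
    show min ((nmDsEq π).b (1 - t - h + h) + v) (π.b1 (1 - t - h + h)) + v
      - (min ((nmDsEq π).b (1 - t - h) + (v + k * h)) (π.b1 (1 - t - h)) + (v + k * h)) = (π.c2 - π.J - k) * h
    rw [min_eq_right, min_eq_right]
    · simp only [SfPar.b1, h2]; ring
    · simp only [NmDs.b, nmDsEq, SfPar.b1, h2]; nlinarith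
    · simp only [NmDs.b, nmDsEq, SfPar.b1, h2]; nlinarith

/-- **(step), pure linear template** : PROVED from `ao_geo_lin`, `ao_time_lin`, `fs_step` -/
theorem ao_step_lin (hπ : π.Valid) (h0 : π.c2 = 0) (h1 : 0 < π.c1) (h2 : π.q = π.c1 + π.J) (hS : S.AcGood) (hc : π.hyb = false)
    (h3 : 1 ≤ π.c1) (t0 t1 : ℝ) (ht0 : 0 < t0) (ht : t0 < t1) (ht1 : t1 < 1) :
    ∃ Ks g0 wd : ℝ, 0 ≤ Ks ∧ 0 < g0 ∧ 0 < wd ∧ AoStep S ⟨nmDsLin, NmTp.plin, 0⟩ π.c1 (π.c1 + 1) Ks g0 t0 t1 wd := by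
  obtain ⟨Ks0, hG⟩ := ao_geo_lin S hπ h0 h1 h2 hS hc h3 t0 t1 ht0 ht ht1
  obtain ⟨g1, w1, hg1, hw1, hG⟩ := hG (max Ks0 0) (le_max_left _ _)
  obtain ⟨g2, w2, hg2, hw2, hT⟩ := ao_time_lin S hπ h0 h1 h2 hS hc h3 t0 t1 ht0 ht ht1 (max Ks0 0) (le_max_right _ _)
  have hq : (⟨nmDsLin, NmTp.plin, 0⟩ : NmQ).Fam π := ⟨le_rfl, (fun h => by cases h), Or.inr (Or.inl ⟨h0, h1, rfl, rfl⟩)⟩
  have e : ∀ k : ℝ, (if (false : Bool) then k / 2 else k) = k := fun k => if_neg (by simp)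
  refine ⟨max Ks0 0, min g1 g2, min w1 w2, le_max_right _ _, lt_min hg1 hg2, lt_min hw1 hw2, ?_⟩
  refine ao_step_of_sup hπ hS.flat _ hq rfl false π.c1 _ _ _ _ t0 t1 _ ht0.le ht1.le h1.le ?_ ?_
    (hG.mono (min_le_left _ _) (min_le_left _ _)) (hT.mono (min_le_right _ _) (min_le_right _ _))
  · intro k k1 k2
    simp only [e]
    exact ⟨k1, k2, by linarith⟩
  · intro δ _
    refine ⟨1, one_pos, fun h t v _ _ _ k _ => ?_⟩
    simp only [e]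
    show π.b1 (1 - t - h + h) + v - (π.b1 (1 - t - h) + (v + k * h)) = (π.c1 - k) * h
    simp only [SfPar.b1, h2]
    ring

end con

/-! ## small tools -/

/-- graphs are null -/
theorem ao_ae_graph (f : ℝ → ℝ) (hf : Measurable f) : ∀ᵐ p : ℝ × ℝ, p.2 ≠ f p.1 := by
  have hm : MeasurableSet {p : ℝ × ℝ | p.2 = f p.1} := measurableSet_eq_fun measurable_snd (hf.comp measurable_fst)
  rw [ae_iff]
  simp only [ne_eq, not_not]
  rw [Measure.volume_eq_prod, Measure.measure_prod_null hm]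
  refine Eventually.of_forall fun x => ?_
  have : Prod.mk x ⁻¹' {p : ℝ × ℝ | p.2 = f p.1} = {f x} := by
    ext y; simp
  show volume (Prod.mk x ⁻¹' {p : ℝ × ℝ | p.2 = f p.1}) = 0
  rw [this]
  simp

section clip

variable {π : SfPar} {C0 : ℝ} {κ : ℝ → ℝ} (S : NmSeq π C0 κ)

/-- to the left of the clipping switch the clipped names ARE the unclipped names -/
theorem ao_nm_clip (ds : NmDs) (g a v : ℝ) (h : ds.b a + v ≤ π.b1 a) : S.nm ⟨ds, NmTp.clip, g⟩ a v = S.nm ⟨ds, NmTp.quad, g⟩ a v := by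
  have hl : (⟨ds, NmTp.clip, g⟩ : NmQ).l π a v = (⟨ds, NmTp.quad, g⟩ : NmQ).l π a v := by
    show min (ds.b a + v) (π.b1 a) = ds.b a + v
    exact min_eq_left h
  have hw : (⟨ds, NmTp.clip, g⟩ : NmQ).w π a v = (⟨ds, NmTp.quad, g⟩ : NmQ).w π a v := by
    show min (ds.b a + v) (π.b1 a) + v = ds.b a + 2 * v
    rw [min_eq_left h]; ring
  funext n ω
  simp only [NmSeq.nm, SfDoc.nm, NmRaw.name, NmRaw.Lc, NmRaw.Nres, NmRaw.Dres, NmRaw.La, hl, hw]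
  rfl

theorem ao_E_clip (ds : NmDs) (g a v : ℝ) (h : ds.b a + v ≤ π.b1 a) : S.E ⟨ds, NmTp.clip, g⟩ a v = S.E ⟨ds, NmTp.quad, g⟩ a v := by
  have hw : (⟨ds, NmTp.clip, g⟩ : NmQ).w π a v = (⟨ds, NmTp.quad, g⟩ : NmQ).w π a v := by
    show min (ds.b a + v) (π.b1 a) + v = ds.b a + 2 * v
    rw [min_eq_left h]; ring
  simp only [NmSeq.E, NmSeq.H, NmQ.Z, NmQ.W, ao_nm_clip S ds g a v h, hw]

theorem ao_m_clip (ds : NmDs) (g a v : ℝ) (h : ds.b a + v ≤ π.b1 a) : S.m ⟨ds, NmTp.clip, g⟩ a v = S.m ⟨ds, NmTp.quad, g⟩ a v := by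
  simp only [NmSeq.m, NmSeq.U, ao_nm_clip S ds g a v h]

end clip

/-! ## equality curvature -/

section eq

variable {π : SfPar} {C0 : ℝ} {κ : ℝ → ℝ} (S : NmSeq π C0 κ)

theorem ao_hyb_false (h : ¬ (π.hyb = true)) : π.hyb = false := by
  cases hb : π.hyb with
  | false => rfl
  | true => exact absurd hb h

/-- the strong interval, `c > 3` -/
theorem ao_eq_strong (hπ : π.Valid) (h1 : 0 < π.c2) (h2 : π.q = π.c2) (hS : S.AcGood) (Lip : ℝ) (hA : (acEqK S Lip).Acts)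
    (hh : ¬ (acEqK S Lip).hyb) (hC : 0 < (acEqK S Lip).C1) (t0 t1 σ : ℝ) (hI : (acEqK S Lip).IsStrong t0 t1 σ) (h3 : 3 < (acEqK S Lip).c) :
    ∃ D : OgData, D.Facts ∧ D.Γ = (acEqK S Lip).Γ ∧ D.J = (acEqK S Lip).J ∧ D.kp = ((acEqK S Lip).c + 1) / 4 ∧
      D.kmin = (acEqK S Lip).c / 2 ∧ D.kmax = ((acEqK S Lip).c + 1) / 2 := by
  have hc : π.hyb = false := ao_hyb_false hh
  have hC' : 0 < π.c2 - π.J := hC
  have h3' : 3 < π.c2 := h3
  have hr : 0 < π.Cr := by rw [SfPar.Cr, h2]; exact hC'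
  obtain ⟨ht0, ht, ht1, hσ, hs⟩ := hI
  set q : NmQ := ⟨nmDsEq π, NmTp.quad, 0⟩ with hq_def
  have hq : q.Fam π := ⟨le_rfl, (fun h => by cases h), Or.inl ⟨h1, h2, rfl, (fun h => by cases h)⟩⟩
  obtain ⟨wdA, hwdA, -, hmv⟩ := hA.strong hh hC (fun h => by rw [h] at h3; norm_num at h3) t0 t1 σ ⟨ht0, ht, ht1, hσ, hs⟩
  have hmv := hmv (by linarith)
  obtain ⟨Ks, g1, wdS, hKs, hg1, hwdS, hstep⟩ := ao_step_strong S hπ h1 h2 hS hc hC' h3' t0 t1 σ ht0 ht ht1 hσ hs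
  obtain ⟨A0, g2, hA0, hg2, hshift⟩ := ao_shift S hπ hS.hasX hc hr q hq rfl rfl
  obtain ⟨Ce, hCe, henl⟩ := ao_enl S hπ hS.hasX q hq rfl
  obtain ⟨L, hL, hlip⟩ := ao_E_lip S hπ q hq
  set c : AoCst := ⟨1, (π.c2 + 1) / 4, π.c2 / 2, (π.c2 + 1) / 2, Ks, A0, L, Ce, min g1 (min g2 1), t0, t1, min (wdA / 2) (min wdS 1)⟩ with hc_def
  have hwd : 0 < c.wd := lt_min (by linarith) (lt_min hwdS one_pos)
  have hg : 0 < c.g0 := lt_min hg1 (lt_min hg2 one_pos)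
  refine ⟨aoD S q c, ?_, rfl, rfl, rfl, rfl, rfl⟩
  refine ao_facts S hπ hS.hasX hc q hq rfl c ht0 ht ht1 hwd ((min_le_right _ _).trans (min_le_right _ _)) hg hKs hA0 hL hCe hlip
    (henl.mono ((min_le_right _ _).trans (min_le_right _ _))) ?_
    (hstep.mono (min_le_left _ _) ((min_le_right _ _).trans (min_le_left _ _)))
    (hshift.mono ((min_le_right _ _).trans (min_le_left _ _))) ?_ ?_
  · intro t a1 a2
    refine nm_E_zero S hπ hS.hasX q hq (1 - t) (π.J * t) ⟨rfl, ?_, Or.inr (Or.inl ⟨hc, rfl, hr, by linarith, by linarith, ?_⟩)⟩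
    · show (nmDsEq π).b (1 - t) + π.J * t = π.b1 (1 - t)
      simp only [NmDs.b, nmDsEq, SfPar.b1, h2]; ring
    · simp only [SfPar.u]; ring
  · filter_upwards [hmv, ao_ae_graph (fun _ => 0) measurable_const] with p hp hne hd hm _
    obtain ⟨d1, d2, d3, d4⟩ : t0 < p.1 ∧ p.1 < t1 ∧ π.J * p.1 ≤ p.2 ∧ p.2 ≤ π.J * p.1 + c.wd := hd
    have hw2 : c.wd ≤ wdA / 2 := min_le_left _ _
    have n0 : 0 ≤ π.J * p.1 := mul_nonneg hπ.J0 (by linarith)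
    refine hp ⟨d1, d2, ?_, lt_of_le_of_ne (by linarith) (Ne.symm hne)⟩ hm
    show |p.2 - π.J * p.1| < wdA
    rw [abs_of_nonneg (by linarith)]
    linarith
  · refine Eventually.of_forall fun p _ hm => ?_
    have := ((nm_m_basic S hπ q hq).2.2.1 (1 - p.1) p.2).2
    have hm' : (1 : ℝ) < S.m q (1 - p.1) p.2 := hm
    linarith

/-- the weak interval, `C₁ ≥ 1` -/
theorem ao_eq_weak (hπ : π.Valid) (h1 : 0 < π.c2) (h2 : π.q = π.c2) (hS : S.AcGood) (Lip : ℝ) (hA : (acEqK S Lip).Acts)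
    (hh : ¬ (acEqK S Lip).hyb) (hC : 0 < (acEqK S Lip).C1) (t0 t1 : ℝ) (hI : (acEqK S Lip).IsWeak t0 t1) (h3 : 1 ≤ (acEqK S Lip).C1) :
    ∃ D : OgData, D.Facts ∧ D.Γ = (acEqK S Lip).Γ ∧ D.J = (acEqK S Lip).J ∧ D.kp = (1 + (acEqK S Lip).C1) / 2 ∧
      D.kmin = (acEqK S Lip).C1 ∧ D.kmax = (acEqK S Lip).C1 + 1 := by
  have hc : π.hyb = false := ao_hyb_false hh
  have hC' : 0 < π.c2 - π.J := hC
  have h3' : 1 ≤ π.c2 - π.J := h3
  have hJ := hπ.J0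
  have hr : 0 < π.Cr := by rw [SfPar.Cr, h2]; exact hC'
  obtain ⟨ht0, ht, ht1, hw⟩ := hI
  set q : NmQ := ⟨nmDsEq π, NmTp.clip, 0⟩ with hq_def
  have hq : q.Fam π := ⟨le_rfl, fun _ => hr, Or.inl ⟨h1, h2, rfl, (fun h => by cases h)⟩⟩
  obtain ⟨wdA, hwdA, hfz, -, hmv⟩ := hA.weak hh hC t0 t1 ⟨ht0, ht, ht1, hw⟩
  have hmv := hmv h3
  have hlf := hA.left_freeze
  obtain ⟨Ks, g1, wdS, hKs, hg1, hwdS, hstep⟩ := ao_step_weak S hπ h1 h2 hS hc h3' t0 t1 ht0 ht ht1 hw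
  obtain ⟨A0, g2, hA0, hg2, hshift⟩ := ao_shift S hπ hS.hasX hc hr q hq rfl rfl
  obtain ⟨Ce, hCe, henl⟩ := ao_enl S hπ hS.hasX q hq rfl
  obtain ⟨L, hL, hlip⟩ := ao_E_lip S hπ q hq
  set c : AoCst := ⟨1 - π.d, (1 + (π.c2 - π.J)) / 2, π.c2 - π.J, π.c2 - π.J + 1, Ks, A0, L, Ce, min g1 (min g2 1), t0, t1,
    min (wdA / 2) (min wdS 1)⟩ with hc_def
  have hwd : 0 < c.wd := lt_min (by linarith) (lt_min hwdS one_pos)
  have hg : 0 < c.g0 := lt_min hg1 (lt_min hg2 one_pos)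
  have hw2 : c.wd ≤ wdA / 2 := min_le_left _ _
  have hw1 : c.wd ≤ 1 := (min_le_right _ _).trans (min_le_right _ _)
  have hk0 : 0 ≤ 1 - π.d := by linarith [hπ.d1.2]
  -- left of the seam
  have hleft : ∀ t v : ℝ, v ≤ π.J * t → (nmDsEq π).b (1 - t) + v ≤ π.b1 (1 - t) := by
    intro t v hv
    simp only [NmDs.b, nmDsEq, SfPar.b1, h2]
    linarith
  refine ⟨aoD S q c, ?_, rfl, rfl, rfl, rfl, rfl⟩
  refine ao_facts S hπ hS.hasX hc q hq rfl c ht0 ht ht1 hwd hw1 hg hKs hA0 hL hCe hlip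
    (henl.mono ((min_le_right _ _).trans (min_le_right _ _))) ?_
    (hstep.mono (min_le_left _ _) ((min_le_right _ _).trans (min_le_left _ _)))
    (hshift.mono ((min_le_right _ _).trans (min_le_left _ _))) ?_ ?_
  · intro t a1 a2
    refine nm_E_zero S hπ hS.hasX q hq (1 - t) (π.J * t) ⟨rfl, ?_, Or.inr (Or.inl ⟨hc, rfl, hr, by linarith, by linarith, ?_⟩)⟩
    · show min ((nmDsEq π).b (1 - t) + π.J * t) (π.b1 (1 - t)) = π.b1 (1 - t)
      refine min_eq_right ?_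
      simp only [NmDs.b, nmDsEq, SfPar.b1, h2]; linarith
    · simp only [SfPar.u]; ring
  · filter_upwards [hmv, ao_ae_graph (fun x => π.J * x) (measurable_const.mul measurable_id)] with p hp hne hd hm hm2
    obtain ⟨d1, d2, d3, d4⟩ : t0 < p.1 ∧ p.1 < t1 ∧ π.J * p.1 ≤ p.2 ∧ p.2 ≤ π.J * p.1 + c.wd := hd
    exact hp ⟨d1, d2, lt_of_le_of_ne d3 (Ne.symm hne), by show p.2 < π.J * p.1 + wdA; linarith⟩ hm hm2
  · filter_upwards [hfz, hlf, ao_ae_graph (fun x => π.J * x) (measurable_const.mul measurable_id),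
      ao_ae_graph (fun _ => 0) measurable_const] with p hp hpl hne hne0 hd hm
    obtain ⟨d1, d2, d3, d4⟩ : t0 < p.1 ∧ p.1 < t1 ∧ 0 ≤ p.2 ∧ p.2 ≤ π.J * p.1 + c.wd := hd
    have hm' : 1 - π.d < S.m q (1 - p.1) p.2 := hm
    rcases lt_or_gt_of_ne hne with hlt | hgt
    · -- left of the seam: the unclipped template
      have hmq : S.m q (1 - p.1) p.2 = S.m ⟨nmDsEq π, NmTp.quad, 0⟩ (1 - p.1) p.2 := ao_m_clip S _ 0 _ _ (hleft _ _ hlt.le)
      have hJ1 : π.J * p.1 ≤ π.J * 1 := mul_le_mul_of_nonneg_left (by linarith) hJ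
      have hL : (acEqK S Lip).Left p.1 p.2 := by
        refine ⟨by linarith, by linarith, lt_of_le_of_ne d3 (Ne.symm hne0), ?_, hlt, ?_, fun h => absurd h hh⟩
        · show p.2 < π.J + 1
          linarith
        · show p.2 < π.c2 * p.1
          have : 0 < (π.c2 - π.J) * p.1 := mul_pos hC' (by linarith)
          nlinarith
      have hthr : (acEqK S Lip).thrQ = (1 - π.d) / 2 := by
        have : ¬ (acEqK S Lip).c < 1 := by
          show ¬ π.c2 < 1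
          linarith
        rw [AcEq.thrQ, if_neg this]
        rfl
      have hmQ : 1 - π.d < (acEqK S Lip).mQ p.1 p.2 := by
        show 1 - π.d < S.m ⟨nmDsEq π, NmTp.quad, 0⟩ (1 - p.1) p.2
        rw [← hmq]; exact hm'
      have hV := hpl hL (by linarith) (by rw [hthr]; linarith)
      intro ε hε
      filter_upwards [hV ε hε, self_mem_nhdsWithin] with h hh1 hh2
      have hh2' : (0 : ℝ) < h := hh2
      have e1 : aoE S q (p.1 + (0 + h)) p.2 = (acEqK S Lip).EQ (p.1 + (0 + h)) p.2 := by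
        refine ao_E_clip S _ 0 _ _ (hleft _ _ ?_)
        have : 0 ≤ π.J * (0 + h) := mul_nonneg hJ (by linarith)
        nlinarith
      have e2 : aoE S q (p.1 + 0) p.2 = (acEqK S Lip).EQ (p.1 + 0) p.2 := by
        refine ao_E_clip S _ 0 _ _ (hleft _ _ ?_)
        rw [add_zero]; exact hlt.le
      show aoE S q (p.1 + (0 + h)) p.2 - aoE S q (p.1 + 0) p.2 ≤ _
      rw [e1, e2]
      exact hh1
    · exact hp ⟨d1, d2, hgt, by show p.2 < π.J * p.1 + wdA; linarith⟩ (by show 0 < S.m q (1 - p.1) p.2; linarith) hm'.le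

/-- **EQ-OG** = `ac_eq_rog` of `Act/Sup.lean`, verbatim -/
theorem ao_eq_rog (hπ : π.Valid) (h1 : 0 < π.c2) (h2 : π.q = π.c2) (hS : S.AcGood) (Lip : ℝ) : (acEqK S Lip).ROg where
  strong := fun hA hh hC t0 t1 σ hI h3 => ao_eq_strong S hπ h1 h2 hS Lip hA hh hC t0 t1 σ hI h3
  weak := fun hA hh hC t0 t1 hI h3 => ao_eq_weak S hπ h1 h2 hS Lip hA hh hC t0 t1 hI h3

end eq

/-! ## pure linear cost -/

section lin

variable {π : SfPar} {C0 : ℝ} {κ : ℝ → ℝ} (S : NmSeq π C0 κ)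

/-- **LIN-OG** = `ac_lin_rog` of `Act/Sup.lean`, verbatim -/
theorem ao_lin_rog (hπ : π.Valid) (h0 : π.c2 = 0) (h1 : 0 < π.c1) (h2 : π.q = π.c1 + π.J) (hS : S.AcGood) (Lip : ℝ) :
    (acLinK S Lip).ROg where
  og := by
    intro hA hh h3 _
    have hc : π.hyb = false := ao_hyb_false hh
    have h3' : 1 ≤ π.c1 := h3
    have hJ := hπ.J0
    have hr : 0 < π.Cr := by rw [SfPar.Cr, h2]; linarith
    set q : NmQ := ⟨nmDsLin, NmTp.plin, 0⟩ with hq_def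
    have hq : q.Fam π := ⟨le_rfl, (fun h => by cases h), Or.inr (Or.inl ⟨h0, h1, rfl, rfl⟩)⟩
    have hmv := hA.move_hi h3
    have hfz := hA.freeze
    obtain ⟨Ks, g1, wdS, hKs, hg1, hwdS, hstep⟩ := ao_step_lin S hπ h0 h1 h2 hS hc h3' (1 / 4) (1 / 2) (by norm_num) (by norm_num) (by norm_num)
    obtain ⟨A0, g2, hA0, hg2, hshift⟩ := ao_shift S hπ hS.hasX hc hr q hq rfl rfl
    obtain ⟨Ce, hCe, henl⟩ := ao_enl S hπ hS.hasX q hq rfl
    obtain ⟨L, hL, hlip⟩ := ao_E_lip S hπ q hq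
    set c : AoCst := ⟨1 - π.d, (1 + π.c1) / 2, π.c1, π.c1 + 1, Ks, A0, L, Ce, min g1 (min g2 1), 1 / 4, 1 / 2, min wdS (1 / 2)⟩ with hc_def
    have hwd : 0 < c.wd := lt_min hwdS (by norm_num)
    have hg : 0 < c.g0 := lt_min hg1 (lt_min hg2 one_pos)
    have hw1 : c.wd ≤ 1 / 2 := min_le_right _ _
    have hk0 : 0 ≤ 1 - π.d := by linarith [hπ.d1.2]
    have hreg : ∀ p : ℝ × ℝ, (1 / 4 : ℝ) < p.1 → p.1 < 1 / 2 → 0 ≤ p.2 → p.2 ≤ π.J * p.1 + c.wd → p.2 ≠ 0 → (acLinK S Lip).Reg p.1 p.2 := by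
      intro p d1 d2 d3 d4 hne
      have hJ1 : π.J * p.1 ≤ π.J * 1 := mul_le_mul_of_nonneg_left (by linarith) hJ
      refine ⟨by linarith, by linarith, lt_of_le_of_ne d3 (Ne.symm hne), ?_, fun h => absurd h hh⟩
      show p.2 < π.J + 1
      linarith
    refine ⟨aoD S q c, ?_, rfl, rfl, rfl, rfl, rfl⟩
    refine ao_facts S hπ hS.hasX hc q hq rfl c (by norm_num) (by norm_num) (by norm_num) hwd (by linarith) hg hKs hA0 hL hCe hlip
      (henl.mono ((min_le_right _ _).trans (min_le_right _ _))) ?_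
      (hstep.mono (min_le_left _ _) (min_le_left _ _))
      (hshift.mono ((min_le_right _ _).trans (min_le_left _ _))) ?_ ?_
    · intro t a1 a2
      have a1' : (1 / 4 : ℝ) < t := a1
      have a2' : t < 1 / 2 := a2
      refine nm_E_zero S hπ hS.hasX q hq (1 - t) (π.J * t) ⟨rfl, rfl, Or.inr (Or.inl ⟨hc, rfl, hr, by linarith, by linarith, ?_⟩)⟩
      simp only [SfPar.u]; ring
    · filter_upwards [hmv, ao_ae_graph (fun _ => 0) measurable_const] with p hp hne hd hm hm2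
      obtain ⟨d1, d2, d3, d4⟩ : (1 / 4 : ℝ) < p.1 ∧ p.1 < 1 / 2 ∧ π.J * p.1 ≤ p.2 ∧ p.2 ≤ π.J * p.1 + c.wd := hd
      have n0 : 0 ≤ π.J * p.1 := mul_nonneg hJ (by linarith)
      exact hp (hreg p d1 d2 (by linarith) d4 hne) hm hm2
    · filter_upwards [hfz, ao_ae_graph (fun _ => 0) measurable_const] with p hp hne hd hm
      obtain ⟨d1, d2, d3, d4⟩ : (1 / 4 : ℝ) < p.1 ∧ p.1 < 1 / 2 ∧ 0 ≤ p.2 ∧ p.2 ≤ π.J * p.1 + c.wd := hd
      have hm' : 1 - π.d < S.m q (1 - p.1) p.2 := hm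
      exact hp (hreg p d1 d2 d3 d4 hne) (by show 0 < S.m q (1 - p.1) p.2; linarith) hm'.le

end lin

end Claimed.Agent.R256
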