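import Claimed.Agent.R256.Act.Bridge
import Claimed.Agent.R256.Act.Sup
import Claimed.Agent.R256.Act.Ogs
import Claimed.Agent.R256.Int.Contract
import Claimed.Agent.R256.HubDefs

/-!
# Row 256, section Act, file 5: **Q2** = `SfExit hyb η Γ X → False`  (thm:cylinder, positive cost)  + CONTRACT OF Act      (chief helper277)

## CHAIN (all glue below is compile checked; the hypotheses of `ac_Q2` are the contracts)
`SfExit` --(`sfExit_fam`)--> one affine family `π`, `SfFam π X` --(`AcSupEq | AcSupStr | AcSupLin` : secs. 4, 6.1-6.4)--> `K.Raw` = roots `K.Prods` + (`K.Acts → K.Ok`)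
 --(`AcIntC` : sec. 5; `ac_bridge_pt`, `ac_*_acts`, Act/Bridge)--> `K.Ok` (Act/Pkg) --(`ac_no_supply`, Act/Exh; `og_main`, `og_sch_*`, R256/Og)--> `False`.

## ENTRY
* from Soft (helper19): `SfExit` (Soft/Doc.lean) with `X = nmX` ((mem), Nm/X.lean).
* from Int (helper196): `AcIntC` (Act/Raw.lean) = ten instances of `ItExit` (Int/Defs.lean); DISCHARGED below (`ac_intC`) by `it_act_i .. it_act_vi0` of Int/Contract.lean.
* from Nm / Lay / Prj (helper118, helper189, helper288/186): everything in `K.Raw` tagged [Nm] below.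
## EXIT     `ac_hub_q2 (hyb) : HubQ2 hyb (hubX hyb)` (closed), `hubX _ = nmX` (Nm/X.lean).
## KERNEL CENSUS (helper277, 00:50Z 15 Oct, main 524a0f26a2): the closure of `ac_hub_q2` (Act, Og, LT, Int, Nm, Lay, Prj) contains EXACTLY ONE sorried declaration: `ae2_hy_step` (Act/E2/Hy.lean; hybrid boundary step; chief E2H helper198, Soft side `SfDoc.Spg` helper206).
## UNITS OF Act (folder, state, architect)
 OG   R256/Og/*      act:off-gap-path + schemes                      DONE, sorry free (27 leaves)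
 PKG  Act/Pkg        packages                                        frozen definitions
 EXH  Act/Exh        exhaustion 06 l.1081-1276                       DONE, sorry free (helper279)
 BRG  Act/Raw,Bridge roots ⇒ actions                                 DONE, sorry free
 SUP  Act/Rest,Sup   packages from the profiles of Nm/Defs           glue proved; the glue leaves on Nm/Contract.lean (`ac_*_rnm`, `ac_*_rslab`, `ac_Rj_basic`, `ac_HP_basic`, `ac_nu_meas`) are proved or claimed; `ac_seq` proved from `nm_seq`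
        roots (helper189 + helper186, Lay/Root.lean `lay_root_rect`): `ac_eq_root_left`, `ac_eq_root_strong`, `ac_eq_root_weak`, `ac_lin_root`, `ac_str_root_half`, `ac_str_root_one`
        boundary: `ac_str_rbd` := `ae2_bdry`, `ae2_strong` (Act/E2/Main, helper46; classical step closed; hybrid step `ae2_hy_step` open);   E1 (helper279, Act/E1/*) feeds `ac_eq_root_strong` at `c = 1, J = 0`
 LT   R256/LT/*      act:line-test (finite, model free)              helper46: `lt_main` proved from its leaves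
 OGS  Act/Ogs*       assembly of `OgData.Facts` (helper137)          `ao_eq_rog`, `ao_lin_rog` PROVED from `ao_enl`, `ao_shift` (GEO), `ao_step_strong/weak/lin` (FS)
 FS   Act/Fs*        act:finite-step (helper277)                     `fs_core` (one law), `fs_step` (profiles) PROVED from paper-free leaves + `FsGeo` (GEO) + `FsTime` (`ft_main`, Act/FsTime.lean)
 GEO  Act/Geo*       (shift), (enl), step geometry G1-G3 (helper209) `FsGeo`, `ao_enl`, `ao_shift`
## SOURCE OF EVERY FIELD OF `K.Raw`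
 arithmetic from `π.Valid` : `par`, `c_pos`, `q_lt`, `pl`.
 [Nm] names:refinement, names:canonical-entropy : `base*` (canon, Lipschitz, corner), `seam*`, `link*` (definition of `E`).
 [Nm] names:memory ((mem) through `X`) : `left_mem`, lower slope and (mr) in `AcSlab`.     [Nm] names:angular-trace : `ang`, `m_*`, `U_*` of `OgData.Facts`.     [Nm] names:mixed-trace : `ν_*`.
 [Nm] cyl:time-prediction, definition of `p_*` : `pst_anti`, `pst_ge`.
 [Nm+Lay+Prj] names:side, names:common-phase, names:mark-dimension, names:separation, names:replica-budgets : all fields `AcRoot` of `K.Prods`.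
 [Act BD, FS, GEO] the rest.
-/

set_option autoImplicit false

namespace Claimed.Agent.R256

/-- **CONTRACT (secs. 4, 6.1-6.4), equality curvature** -/
def AcSupEq (X : SfPar → SfDoc → ℝ → Prop) : Prop :=
  ∀ π : SfPar, SfFam π X → 0 < π.c2 → π.q = π.c2 →
    ∃ K : AcEq, K.Raw ∧ K.η = π.η ∧ K.Γ = π.Γ ∧ K.d = π.d ∧ K.J = π.J ∧ K.c = π.c2 ∧
      (K.hyb ↔ π.hyb = true)

/-- **CONTRACT (secs. 4, 6.1-6.4), strict curvature** -/
def AcSupStr (X : SfPar → SfDoc → ℝ → Prop) : Prop :=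
  ∀ π : SfPar, SfFam π X → π.c2 = 1 → π.q < 1 →
    ∃ K : AcStr, K.Raw ∧ K.η = π.η ∧ K.Γ = π.Γ ∧ K.d = π.d ∧ K.J = π.J ∧ K.q = π.q ∧
      (K.hyb ↔ π.hyb = true)

/-- **CONTRACT (secs. 4, 6.1-6.4), pure linear cost** -/
def AcSupLin (X : SfPar → SfDoc → ℝ → Prop) : Prop :=
  ∀ π : SfPar, SfFam π X → π.c2 = 0 → 0 < π.c1 → π.q = π.c1 + π.J →
    ∃ K : AcLin, K.Raw ∧ K.η = π.η ∧ K.Γ = π.Γ ∧ K.d = π.d ∧ K.J = π.J ∧ K.c = π.c1 ∧
      (K.hyb ↔ π.hyb = true)

theorem ac_raw_of_exit (hyb : Bool) (η Γ : ℝ) (X : SfPar → SfDoc → ℝ → Prop)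
    (hE : AcSupEq X) (hS : AcSupStr X) (hL : AcSupLin X) (h : SfExit hyb η Γ X) :
    AcRawSupply η Γ (hyb = true) := by
  obtain ⟨π, hF, rfl, rfl, rfl⟩ := sfExit_fam hyb η Γ X h
  rcases hF.1.fam with ⟨h1, h2⟩ | ⟨h1, h2⟩ | ⟨h1, h2, h3⟩
  · obtain ⟨K, hK, e1, e2, -, -, -, e3⟩ := hE π hF h1 h2
    exact Or.inl ⟨K, hK, e1, e2, e3⟩
  · obtain ⟨K, hK, e1, e2, -, -, -, e3⟩ := hS π hF h1 h2
    exact Or.inr (Or.inr ⟨K, hK, e1, e2, e3⟩)
  · obtain ⟨K, hK, e1, e2, -, -, -, e3⟩ := hL π hF h1 h2 h3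
    exact Or.inr (Or.inl ⟨K, hK, e1, e2, e3⟩)

/-- the contract of Int is the list of exits of `Int/Contract.lean` -/
theorem ac_intC : AcIntC where
  qf_lo := fun a ha hc hm h => it_act_i a ha hm (Or.inl ⟨hc, h⟩)
  qf_hi := fun a ha hc hm h => it_act_i a ha hm (Or.inr ⟨hc, h⟩)
  qm := fun a ha hc hm => it_act_ii a ha hm hc
  qh := fun a ha hc hd => it_act_iii a ha hc hd
  lf := fun a ha hm h => it_act_iv a ha hm (Or.inl h)
  lf_lo := fun a ha hc hm h => it_act_iv a ha hm (Or.inr ⟨hc, h⟩)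
  lm_hi := fun a ha hc hm h => it_act_v1 a ha hm h hc
  lm_lo := fun a ha hc hm h h' => it_act_v2 a ha hm h' hc h
  l1 := fun a ha hd hc hm => it_act_vi a ha hm hc hd
  l1z := fun a ha hd hc hm => it_act_vi0 a ha hm hc hd

/-- **Q2** : no affine positive-cost extremal configuration -/
theorem ac_Q2 (hyb : Bool) (η Γ : ℝ) (X : SfPar → SfDoc → ℝ → Prop)
    (hE : AcSupEq X) (hS : AcSupStr X) (hL : AcSupLin X) : SfExit hyb η Γ X → False :=
  fun h => ac_no_supply η Γ (hyb = true)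
    (ac_supply_of_raw ac_intC η Γ (hyb = true) (ac_raw_of_exit hyb η Γ X hE hS hL h))

/-! ## discharge of the supply contracts by the named contracts of `Act/Sup.lean` -/

/-- **THE SLOT `X` OF THE HUB** (the same for both models) = `nmX` of `Nm/X.lean` -/
def hubX (_hyb : Bool) : SfPar → SfDoc → ℝ → Prop := nmX

theorem ac_sup_eq : AcSupEq nmX := by
  intro π hF h1 h2
  obtain ⟨C0, κ, S, hS⟩ := ac_seq π hF
  obtain ⟨Lip, hN⟩ := ac_eq_rnm S hF.1 h1 h2 hS
  exact ⟨acEqK S Lip, ⟨⟨acHQ S, acHC S, S.D0, ac_eq_prods S hF.1 h1 h2 hS Lip⟩,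
    fun hA => AcEq.ok_of_rest _ hN (ac_eq_rslab S hF.1 h1 h2 hS Lip) (ao_eq_rog S hF.1 h1 h2 hS Lip) hA⟩,
    rfl, rfl, rfl, rfl, rfl, Iff.rfl⟩

theorem ac_sup_str : AcSupStr nmX := by
  intro π hF h1 h2
  obtain ⟨C0, κ, S, hS⟩ := ac_seq π hF
  obtain ⟨Lip, hN⟩ := ac_str_rnm S hF.1 h1 h2 hS
  exact ⟨acStrK S Lip, ⟨⟨acHA S, acHK S, S.D0, ac_str_prods S hF.1 h1 h2 hS Lip⟩,
    fun hA => AcStr.ok_of_rest _ hN (ac_str_rbd S hF.1 h1 h2 hS Lip) hA⟩,
    rfl, rfl, rfl, rfl, rfl, Iff.rfl⟩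

theorem ac_sup_lin : AcSupLin nmX := by
  intro π hF h0 h1 h2
  obtain ⟨C0, κ, S, hS⟩ := ac_seq π hF
  obtain ⟨Lip, hN⟩ := ac_lin_rnm S hF.1 h0 h1 h2 hS
  exact ⟨acLinK S Lip, ⟨⟨acHL S, S.D0, ac_lin_prods S hF.1 h0 h1 h2 hS Lip⟩,
    fun hA => AcLin.ok_of_rest _ hN (ac_lin_rslab S hF.1 h0 h1 h2 hS Lip) (ao_lin_rog S hF.1 h0 h1 h2 hS Lip) hA⟩,
    rfl, rfl, rfl, rfl, rfl, Iff.rfl⟩

/-- **Q2 FOR THE HUB** : closed; the only sorry of its closure is `ae2_hy_step` (Act/E2/Hy.lean) -/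
theorem ac_hub_q2 (hyb : Bool) : HubQ2 hyb (hubX hyb) :=
  fun η Γ _ _ _ => ac_Q2 hyb η Γ nmX ac_sup_eq ac_sup_str ac_sup_lin

theorem ac_main_eqns_cite : True := by
  have := @hubX.eq_1
  have := @AcSupEq.eq_1
  have := @AcSupStr.eq_1
  have := @AcSupLin.eq_1
  trivial

end Claimed.Agent.R256
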