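import Claimed.Agent.R256.Act.Pkg
import Claimed.Agent.R256.Act.GeoDefs

/-!
# Row 256, section Act, unit OGS (assembly of `OgData.Facts`), file 1: DEFINITIONS      (architect helper137; prefix `ao_`, `ao*`, types `Ao*`)

BACKWARD time `t = 1 - a`.   `q` = display + template at the enlargement `0`;   `q.en g` (`Act/GeoDefs.lean`, helper209) = the same with the normal enlargement `g`.
* `aoE S q t v = E(1-t, v)`,   `aoEg S q g t v = E^g(1-t, v)`,   `aoM S q t v = m(1-t, v)`,
* `aoU S q x t y = U(max x y; 1-t, y)`   (the `max` only makes the score `0` at the irrelevant depths `x < y`),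
* `aoMX S q Ks t v h g = U^g(v + K_* h; 1-t-h, v) = lim H_s (X^(v + K_* h) | 𝒞^g(1-t-h, v))`   = the loss `M_X(t,v;h,g)` of the finite step with the earlier root `(1-t-h, v)`  (06 l.856-859),
* `AoCst` = the numerical constants,   `aoD S q c : OgData` = the instance of the off-gap lemma.
-/

set_option autoImplicit false

namespace Claimed.Agent.R256

open Claimed.Agent.R255
open MeasureTheory Filter Topology

noncomputable section

/-- the numerical constants of an instance of the off-gap lemma -/
structure AoCst where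
  k0 : ℝ
  kp : ℝ
  kmin : ℝ
  kmax : ℝ
  Ks : ℝ
  A0 : ℝ
  Lip : ℝ
  Ce : ℝ
  g0 : ℝ
  t0 : ℝ
  t1 : ℝ
  wd : ℝ

section

variable {π : SfPar} {C0 : ℝ} {κ : ℝ → ℝ} (S : NmSeq π C0 κ)

/-- the excess, backward time -/
def aoE (q : NmQ) (t v : ℝ) : ℝ := S.E q (1 - t) v

/-- the excess of the enlarged names, backward time -/
def aoEg (q : NmQ) (g t v : ℝ) : ℝ := S.E (q.en g) (1 - t) v

/-- the angular trace, backward time -/
def aoM (q : NmQ) (t v : ℝ) : ℝ := S.m q (1 - t) v

/-- the angular score, backward time -/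
def aoU (q : NmQ) (x t y : ℝ) : ℝ := S.U q (max x y) (1 - t) y

/-- the loss of the finite step from `(t, v)` to the time `t + h` : the root is `(1 - t - h, v)` -/
def aoMX (q : NmQ) (Ks t v h g : ℝ) : ℝ := S.U (q.en g) (v + Ks * h) (1 - t - h) v

/-- **the instance of the off-gap lemma** -/
def aoD (q : NmQ) (c : AoCst) : OgData where
  Γ := π.Γ
  J := π.J
  k0 := c.k0
  kp := c.kp
  kmin := c.kmin
  kmax := c.kmax
  Ks := c.Ks
  A0 := c.A0
  Lip := c.Lip
  Ce := c.Ce
  g0 := c.g0
  t0 := c.t0
  t1 := c.t1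
  wd := c.wd
  E := aoE S q
  Eg := aoEg S q
  m := aoM S q
  U := aoU S q
  MX := aoMX S q c.Ks

end

theorem ao_defs_eqns_cite : True := by
  have := @aoE.eq_1
  have := @aoEg.eq_1
  have := @aoM.eq_1
  have := @aoU.eq_1
  have := @aoMX.eq_1
  have := @aoD.eq_1
  trivial

end

end Claimed.Agent.R256
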