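import Claimed.Agent.R256.Og.Main
import Claimed.Agent.R256.Og.Sch

/-!
# Row 256, section Act (paper Sec. 6), file 1: THE PROFILE PACKAGES      (chief helper277)      FROZEN DEFINITIONS

Everything that the exhaustion of the affine configurations (06-cylinder-actions.tex l.1081-1276) consumes, as plain statements on LIMIT PROFILES.
Conventions: BACKWARD time `t = 1 - a`, terminal corner `(t,v) = (0,0)`, seam `v = u = J t`, `b = -c t`, `b₁ = -C1 t`.  `k0 = 1 - d`, `p + d = 1 + 3d - 2Γ`.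
All profiles live on the box `0 ≤ t ≤ 1`, `0 ≤ v ≤ Vm`.   `(∂_a - k ∂_v) E ≥ G` is stated in the Dini form along lines:
`AcM E k G p` : `E (t+τ) (v+kτ) - E t v ≤ (-G+ε) τ` for small `τ > 0`;  `AcV` = the case `k = 0` (freezing).  Bridges from the root form of Sec. 5: `og_bridge`, `og_bridge2` (`Og/Sch.lean`).
The side conditions of Prop. int:actions (radial spreading, crossing, line avoidance, admissible side) DO NOT APPEAR: the supplier discharges them on the explicit regions below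
(Def. names:side, Prop. names:separation, Lemma act:stationary-boundary).
* `AcPar`  common parameters;  `AcBase` (canon) `E ≥ 0`, Lipschitz, `E = 0` at the corner;  `AcSlab` = (mr) + (act:slab-trace) behind an equality point `(tj, uj)`;
* `OgData.Facts` = `OgData.Ok` without the arithmetic conditions on the speeds;
* `AcEq` (`q = c₂ = c > 0`), `AcLin` (`c₂ = 0 < c₁ = c`), `AcStr` (`q < 1 = c₂`) : one package per type of affine configuration (F).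
SOURCES of the fields: (canon), equalities = Prop. names:canonical-entropy; `left_mem`, `AcSlab` = Prop. names:memory; `freeze`, `move` = Prop. int:actions (i)-(vi);
`bdry`, `strong` of `AcStr` = Prop. act:strict-boundary; `pl` = (Pl); `og` = Lemma act:finite-step, (shift), (enl), Lemma names:angular-trace.
-/

set_option autoImplicit false

namespace Claimed.Agent.R256

open MeasureTheory Filter Topology

/-- freezing with surplus `G` at the point `p = (t,v)` -/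
def AcV (E : ℝ → ℝ → ℝ) (G : ℝ) (p : ℝ × ℝ) : Prop :=
  OgDiniLe (fun τ => E (p.1 + τ) p.2) 0 (-G)

/-- motion of speed `k` with surplus `G` at the point `p = (t,v)` -/
def AcM (E : ℝ → ℝ → ℝ) (k G : ℝ) (p : ℝ × ℝ) : Prop :=
  OgDiniLe (fun τ => E (p.1 + τ) (p.2 + k * τ)) 0 (-G)

/-- `OgData.Ok` without the arithmetic conditions on `Γ`, `J` and the speeds -/
structure OgData.Facts (D : OgData) : Prop where
  t0_nn : 0 ≤ D.t0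
  t_lt : D.t0 < D.t1
  wd_pos : 0 < D.wd
  g0_pos : 0 < D.g0
  Ks_nn : 0 ≤ D.Ks
  A0_nn : 0 ≤ D.A0
  Lip_nn : 0 ≤ D.Lip
  Ce_nn : 0 ≤ D.Ce
  E_nn : ∀ t v, D.Dom t v → 0 ≤ D.E t v
  E_lip : ∀ t v t' v', D.Dom t v → D.Dom t' v' →
    |D.E t v - D.E t' v'| ≤ D.Lip * (|t - t'| + |v - v'|)
  Eg_nn : ∀ g t v, 0 < g → g ≤ D.g0 → D.DomR t v → 0 ≤ D.Eg g t v
  enl : ∀ g t v, 0 < g → g ≤ D.g0 → D.DomR t v → |D.Eg g t v - D.E t v| ≤ D.Ce * g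
  seam : ∀ t, D.t0 < t → t < D.t1 → D.E t (D.J * t) = 0
  step : ∀ g, 0 < g → g ≤ D.g0 → ∀ δ, 0 < δ → ∃ ρ, 0 < ρ ∧ ∀ h t v, 0 < h → h ≤ ρ → D.t0 < t →
    t + h < D.t1 → D.J * t + δ ≤ v → v + D.kmax * h ≤ D.J * (t + h) + D.wd →
    ∃ k, D.kmin ≤ k ∧ k ≤ D.kmax ∧
      D.Γ * h - D.MX t v h g ≤ D.Eg g t v - D.Eg g (t + h) (v + k * h)
  shift : ∀ g h t v t' y, 0 < g → g ≤ D.g0 → 0 < h → D.DomR t v → t + h + D.A0 * g < t' →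
    D.DomR t' y → v - h ≤ y → y ≤ v → D.MX t v h g ≤ D.U (y + (D.Ks + 1) * h) t' y
  U_nn : ∀ h t y, 0 < h → D.DomR t y → 0 ≤ D.U (y + (D.Ks + 1) * h) t y
  U_le : ∀ h t y, 0 < h → D.DomR t y → D.U (y + (D.Ks + 1) * h) t y ≤ (D.Ks + 1) * h
  U_meas : ∀ h t, Measurable fun y => D.U (y + (D.Ks + 1) * h) t y
  ang : ∀ q : ℚ, D.t0 < (q : ℝ) → (q : ℝ) < D.t1 → ∀ᵐ y : ℝ, D.DomR (q : ℝ) y →
    Tendsto (fun h : ℝ => D.U (y + (D.Ks + 1) * h) (q : ℝ) y / h) (𝓝[>] 0)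
      (𝓝 ((D.Ks + 1) * D.m (q : ℝ) y))
  m_nn : ∀ t v, 0 ≤ D.m t v
  m_mono : ∀ v t t', D.Dom t v → t ≤ t' → t' < D.t1 → D.m t v ≤ D.m t' v
  m_meas : ∀ t, Measurable (D.m t)
  surplus : ∀ᵐ p : ℝ × ℝ, D.DomR p.1 p.2 → 0 < D.m p.1 p.2 → D.m p.1 p.2 ≤ D.k0 →
    OgDiniLe (fun τ => D.E (p.1 + τ) (p.2 + D.kp * τ)) 0 (-(2 * D.Γ))
  freeze : ∀ᵐ p : ℝ × ℝ, D.Dom p.1 p.2 → D.k0 < D.m p.1 p.2 →
    OgDiniLe (fun τ => D.E (p.1 + τ) p.2) 0 (-(2 * D.Γ))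

theorem OgData.ok_of_facts (D : OgData) (h : D.Facts) (hΓ : 0 < D.Γ) (hJ : 0 ≤ D.J)
    (h1 : 1 ≤ D.kmin) (h2 : D.kmin ≤ D.kmax) (h3 : D.J < D.kmin) (h4 : 1 ≤ D.kp)
    (h5 : D.J < D.kp) : D.Ok :=
  { Γ_pos := hΓ, J_nn := hJ, t0_nn := h.t0_nn, t_lt := h.t_lt, wd_pos := h.wd_pos,
    g0_pos := h.g0_pos, kmin_one := h1, kmin_le := h2, J_lt_kmin := h3, kp_one := h4,
    J_lt_kp := h5, Ks_nn := h.Ks_nn, A0_nn := h.A0_nn, Lip_nn := h.Lip_nn, Ce_nn := h.Ce_nn,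
    E_nn := h.E_nn, E_lip := h.E_lip, Eg_nn := h.Eg_nn, enl := h.enl, seam := h.seam,
    step := h.step, shift := h.shift, U_nn := h.U_nn, U_le := h.U_le, U_meas := h.U_meas,
    ang := h.ang, m_nn := h.m_nn, m_mono := h.m_mono, m_meas := h.m_meas, surplus := h.surplus,
    freeze := h.freeze }

/-- common parameters of an affine extremal configuration -/
structure AcPar where
  η : ℝ
  Γ : ℝ
  d : ℝ
  J : ℝ
  hyb : Prop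
  Lip : ℝ
  Vm : ℝ

namespace AcPar

variable (P : AcPar)

structure Ok : Prop where
  η_pos : 0 < P.η
  η_lt : P.η < 1
  Γ_pos : 0 < P.Γ
  d_pos : 0 < P.d
  d_le : P.d ≤ 1
  J_nn : 0 ≤ P.J
  Lip_nn : 0 ≤ P.Lip
  J_lt_Vm : P.J < P.Vm

/-- `k₀ = 1 - d` -/
def k0 : ℝ := 1 - P.d

/-- the box of all profiles -/
def Box (t v : ℝ) : Prop := 0 ≤ t ∧ t ≤ 1 ∧ 0 ≤ v ∧ v ≤ P.Vm

/-- the memory slope with parameter `L` : `(k₀ + 2Γ + η (L-1)) / L` -/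
noncomputable def mem (L : ℝ) : ℝ := (P.k0 + 2 * P.Γ + P.η * (L - 1)) / L

end AcPar

/-- (canon) for one template: `Nn` = the part of the box where nonnegativity is asserted (classical: everything; hybrid: `w ≤ 0`) -/
structure AcBase (P : AcPar) (E : ℝ → ℝ → ℝ) (Nn : ℝ → ℝ → Prop) : Prop where
  nn : ∀ t v, P.Box t v → Nn t v → 0 ≤ E t v
  lip : ∀ t v t' v', P.Box t v → P.Box t' v' →
    |E t v - E t' v'| ≤ P.Lip * (|t - t'| + |v - v'|)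
  corner : E 0 0 = 0

/-- (mr) + (act:slab-trace): `R` = angular entropy profile given the label met at the time `tj`; lower slope `μ` at `uj`; `m ≥ R'` on a cone behind `(tj, uj)` -/
def AcSlab (m : ℝ → ℝ → ℝ) (tj uj μ : ℝ) : Prop :=
  ∃ (R : ℝ → ℝ) (C lam τ0 ς0 : ℝ), 0 < lam ∧ 0 < τ0 ∧ 0 < ς0 ∧
    (∀ x ∈ Set.Icc uj (uj + ς0), ∀ y ∈ Set.Icc uj (uj + ς0), |R x - R y| ≤ C * |x - y|) ∧
    R uj = 0 ∧
    (∀ ε : ℝ, 0 < ε → ∀ᶠ z in 𝓝[>] (0 : ℝ), (μ - ε) * z ≤ R (uj + z)) ∧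
    ∀ᵐ p : ℝ × ℝ, tj < p.1 → p.1 < tj + τ0 → uj < p.2 → p.2 < uj + ς0 →
      p.2 - uj < lam * (p.1 - tj) → deriv R p.2 ≤ m p.1 p.2

/-! ## equality curvature `q = c₂ = c > 0` -/

/-- profiles of an equality configuration: `EQ, mQ` unclipped quadratic template, `EC, mC` clipped template, `pst` = `p_*`, `ν` = mixed trace -/
structure AcEq extends AcPar where
  c : ℝ
  EQ : ℝ → ℝ → ℝ
  mQ : ℝ → ℝ → ℝ
  EC : ℝ → ℝ → ℝ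
  mC : ℝ → ℝ → ℝ
  pst : ℝ → ℝ
  ν : ℝ → ℝ

namespace AcEq

variable (K : AcEq)

/-- `C₁ = b₁' = c - J` -/
def C1 : ℝ := K.c - K.J

/-- `L_raw = max {1, (1+c)/2, 1+c-J}` -/
noncomputable def Lraw : ℝ := max 1 (max ((1 + K.c) / 2) (1 + K.c - K.J))

/-- `L = max {1, (1+c)/2}` of the strengthened memory bound -/
noncomputable def LS : ℝ := max 1 ((1 + K.c) / 2)

open Classical in
/-- the quadratic freezing threshold -/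
noncomputable def thrQ : ℝ := if K.c < 1 then K.k0 / (1 + K.c) else K.k0 / 2

/-- left quadratic points: `0 < v < u`, `l < min_{[a,1]} b₁`, hybrid `w < 0` -/
def Left (t v : ℝ) : Prop :=
  0 < t ∧ t < 1 ∧ 0 < v ∧ v < K.Vm ∧ v < K.J * t ∧ v < K.c * t ∧ (K.hyb → 2 * v < K.c * t)

/-- what a strong interval `(t0,t1)` (uniform prediction slack) supplies -/
structure Strong (t0 t1 : ℝ) : Prop where
  freeze : ∃ wd : ℝ, 0 < wd ∧ ∀ᵐ p : ℝ × ℝ, t0 < p.1 → p.1 < t1 → |p.2 - K.J * p.1| < wd → 0 < p.2 →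
    0 < K.mQ p.1 p.2 → K.thrQ ≤ K.mQ p.1 p.2 → AcV K.EQ (2 * K.Γ) p
  slab : ∀ᵐ tj : ℝ, t0 < tj → tj < t1 → AcSlab K.mQ tj (K.J * tj) (K.mem K.LS)
  og : 3 < K.c → ∃ D : OgData, D.Facts ∧ D.Γ = K.Γ ∧ D.J = K.J ∧ D.kp = (K.c + 1) / 4 ∧
    D.kmin = K.c / 2 ∧ D.kmax = (K.c + 1) / 2

/-- what a weak interval (`p_* = b₁`) supplies -/
structure Weak (t0 t1 : ℝ) : Prop where
  ν_meas : Measurable K.ν
  ν_bd : ∀ t, 0 ≤ K.ν t ∧ K.ν t ≤ 1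
  freeze : K.C1 < 1 → ∃ wd : ℝ, 0 < wd ∧ ∀ᵐ p : ℝ × ℝ, t0 < p.1 → p.1 < t1 → K.J * p.1 < p.2 →
    p.2 < K.J * p.1 + wd → 0 < K.mC p.1 p.2 → K.k0 - K.C1 * K.ν p.1 ≤ K.mC p.1 p.2 →
    AcV K.EC (2 * K.Γ) p
  slab : K.c ≤ 1 → K.C1 < 1 → ∀ᵐ tj : ℝ, t0 < tj → tj < t1 →
    AcSlab K.mC tj (K.J * tj) (max (K.mem K.Lraw) (K.k0 + 2 * K.Γ - K.C1 * K.ν tj))
  og : 1 ≤ K.C1 → ∃ D : OgData, D.Facts ∧ D.Γ = K.Γ ∧ D.J = K.J ∧ D.kp = (1 + K.C1) / 2 ∧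
    D.kmin = K.C1 ∧ D.kmax = K.C1 + 1

structure Ok : Prop where
  par : K.toAcPar.Ok
  c_pos : 0 < K.c
  pl : K.hyb → K.J = (K.c + 1 / 2) / 2
  baseQ : AcBase K.toAcPar K.EQ (fun t v => K.hyb → 2 * v ≤ K.c * t)
  left_mem : ∀ᵐ p : ℝ × ℝ, K.Left p.1 p.2 → K.mem K.Lraw ≤ K.mQ p.1 p.2
  left_freeze : ∀ᵐ p : ℝ × ℝ, K.Left p.1 p.2 → 0 < K.mQ p.1 p.2 → K.thrQ ≤ K.mQ p.1 p.2 →
    AcV K.EQ (2 * K.Γ) p
  left_move : 1 < K.c → ∀ᵐ p : ℝ × ℝ, K.Left p.1 p.2 → 0 < K.mQ p.1 p.2 →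
    AcM K.EQ ((K.c + 1) / 4) (2 * K.Γ) p
  baseC : ¬ K.hyb → 0 < K.C1 → AcBase K.toAcPar K.EC (fun _ _ => True)
  seamQ : ¬ K.hyb → 0 < K.C1 → ∀ t, 0 < t → t < 1 → K.EQ t (K.J * t) = 0
  seamC : ¬ K.hyb → 0 < K.C1 → ∀ t, 0 < t → t < 1 → K.EC t (K.J * t) = 0
  pst_anti : ¬ K.hyb → 0 < K.C1 → ∀ t t', 0 < t → t ≤ t' → t' < 1 → K.pst t' ≤ K.pst t
  pst_ge : ¬ K.hyb → 0 < K.C1 → ∀ t, 0 < t → t < 1 → -(K.C1 * t) ≤ K.pst t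
  strong : ¬ K.hyb → 0 < K.C1 → (K.c = 1 → K.J = 0) → ∀ t0 t1 σ, 0 < t0 → t0 < t1 → t1 < 1 → 0 < σ →
    (∀ t, t0 < t → t < t1 → -(K.C1 * t) + σ ≤ K.pst t) → K.Strong t0 t1
  weak : ¬ K.hyb → 0 < K.C1 → ∀ t0 t1, 0 < t0 → t0 < t1 → t1 < 1 →
    (∀ t, t0 < t → t < t1 → K.pst t = -(K.C1 * t)) → K.Weak t0 t1

end AcEq

/-! ## pure linear cost `c₂ = 0 < c₁ = c` -/

structure AcLin extends AcPar where
  c : ℝ
  EL : ℝ → ℝ → ℝ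
  mL : ℝ → ℝ → ℝ
  ν : ℝ → ℝ

namespace AcLin

variable (K : AcLin)

/-- valid roots of the pure linear template (hybrid: `w < 0`) -/
def Reg (t v : ℝ) : Prop := 0 < t ∧ t < 1 ∧ 0 < v ∧ v < K.Vm ∧ (K.hyb → v < K.c * t)

structure Ok : Prop where
  par : K.toAcPar.Ok
  c_pos : 0 < K.c
  pl : K.hyb → K.J = K.c + 1 / 2
  base : AcBase K.toAcPar K.EL (fun t v => K.hyb → v ≤ K.c * t)
  m_mono : ∀ t v t', K.Reg t v → t ≤ t' → t' < 1 → K.mL t v ≤ K.mL t' v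
  left_mem : ∀ᵐ p : ℝ × ℝ, K.Reg p.1 p.2 → p.2 < K.J * p.1 → K.mem (1 + K.c) ≤ K.mL p.1 p.2
  freeze : ∀ᵐ p : ℝ × ℝ, K.Reg p.1 p.2 → 0 < K.mL p.1 p.2 → K.k0 ≤ K.mL p.1 p.2 →
    AcV K.EL (2 * K.Γ) p
  freeze_low : ¬ K.hyb → K.c < 1 → ∀ᵐ p : ℝ × ℝ, K.Reg p.1 p.2 → 0 < K.mL p.1 p.2 →
    K.k0 - K.c * K.ν p.1 ≤ K.mL p.1 p.2 → AcV K.EL (2 * K.Γ) p
  move_hi : 1 ≤ K.c → ∀ᵐ p : ℝ × ℝ, K.Reg p.1 p.2 → 0 < K.mL p.1 p.2 → K.mL p.1 p.2 ≤ K.k0 →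
    AcM K.EL ((1 + K.c) / 2) (2 * K.Γ) p
  move_lo : K.c < 1 → ∀ᵐ p : ℝ × ℝ, K.Reg p.1 p.2 → 0 < K.mL p.1 p.2 →
    K.k0 / (1 + K.c) ≤ K.mL p.1 p.2 → K.mL p.1 p.2 ≤ K.k0 → AcM K.EL K.c (2 * K.Γ) p
  seam : ¬ K.hyb → ∀ t, 0 < t → t < 1 → K.EL t (K.J * t) = 0
  ν_meas : Measurable K.ν
  ν_bd : ∀ t, 0 ≤ K.ν t ∧ K.ν t ≤ 1
  slab : ¬ K.hyb → K.c < 1 → ∀ᵐ tj : ℝ, 0 < tj → tj < 1 →
    AcSlab K.mL tj (K.J * tj) (max (K.mem (1 + K.c)) (K.k0 + 2 * K.Γ - K.c * K.ν tj))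
  og : ¬ K.hyb → 1 ≤ K.c → K.J < (1 + K.c) / 2 → ∃ D : OgData, D.Facts ∧ D.Γ = K.Γ ∧ D.J = K.J ∧
    D.kp = (1 + K.c) / 2 ∧ D.kmin = K.c ∧ D.kmax = K.c + 1

end AcLin

/-! ## strict curvature `q < 1 = c₂` -/

/-- `EA` artificial quadratic template ending at `D = 1`, `EK` its clipped version -/
structure AcStr extends AcPar where
  q : ℝ
  EA : ℝ → ℝ → ℝ
  EK : ℝ → ℝ → ℝ
  pst : ℝ → ℝ

namespace AcStr

variable (K : AcStr)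

/-- `C₁ = q - J` -/
def C1 : ℝ := K.q - K.J

/-- `L_raw = 1 + max (0, C₁)` -/
noncomputable def Lraw : ℝ := 1 + max 0 K.C1

structure Ok : Prop where
  par : K.toAcPar.Ok
  q_lt : K.q < 1
  pl : K.hyb → K.J = (K.q + 1 / 2) / 2
  baseA : AcBase K.toAcPar K.EA (fun t v => K.hyb → 2 * v ≤ t)
  /-- Prop. act:strict-boundary with `D = 1`, `v₀ = 0`, fed by the boundary memory slope `mem Lraw` -/
  bdry : 0 < K.mem K.Lraw → 1 - 2 * K.d ≤ K.mem K.Lraw →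
    ∀ᵐ t : ℝ, 0 < t → t < 1 → OgDiniLe (fun s => K.EA s 0) t (-(2 * K.Γ))
  /-- Prop. int:actions (iii) -/
  move_half : 0 < K.C1 → K.d ≤ 1 / 4 → ∀ᵐ p : ℝ × ℝ, 0 < p.1 → p.1 < 1 → 0 < p.2 → p.2 < K.Vm →
    p.2 < (1 - K.C1) * p.1 → 2 * p.2 < p.1 → AcM K.EA (1 / 2) (2 * K.Γ) p
  pst_anti : ¬ K.hyb → 0 < K.C1 → ∀ t t', 0 < t → t ≤ t' → t' < 1 → K.pst t' ≤ K.pst t
  pst_ge : ¬ K.hyb → 0 < K.C1 → ∀ t, 0 < t → t < 1 → -(K.C1 * t) ≤ K.pst t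
  /-- Prop. act:strict-boundary at a typical virtual endpoint `D` of a strong interval; `φ s = E^{(D)} (s, u(D))` -/
  strong : ¬ K.hyb → 0 < K.C1 → ∀ t0 t1 σ, 0 < t0 → t0 < t1 → t1 < 1 → 0 < σ →
    (∀ t, t0 < t → t < t1 → -(K.C1 * t) + σ ≤ K.pst t) →
    0 < K.k0 + 2 * K.Γ → 1 - 2 * K.d ≤ K.k0 + 2 * K.Γ →
    ∃ (φ : ℝ → ℝ) (tD ρ M : ℝ), 0 < ρ ∧ 0 ≤ M ∧
      (∀ x ∈ Set.Icc tD (tD + ρ), ∀ y ∈ Set.Icc tD (tD + ρ), |φ x - φ y| ≤ M * |x - y|) ∧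
      φ tD = 0 ∧ 0 ≤ φ (tD + ρ) ∧
      ∀ᵐ x : ℝ, x ∈ Set.Ioo tD (tD + ρ) → OgDiniLe φ x (-(2 * K.Γ))
  baseK : ¬ K.hyb → 0 < K.C1 → AcBase K.toAcPar K.EK (fun _ _ => True)
  /-- Prop. int:actions (vi) on the linear branch of the clipped artificial template -/
  move_one : ¬ K.hyb → 0 < K.C1 → (∀ t, 0 < t → t < 1 → K.pst t = -(K.C1 * t)) → 2 * K.d ≤ K.C1 →
    K.C1 < 1 → ∀ᵐ p : ℝ × ℝ, 0 < p.1 → p.1 < 1 → (1 - K.C1) * p.1 < p.2 → p.2 < K.Vm →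
    AcM K.EK 1 (2 * K.Γ) p

end AcStr

theorem ac_pkg_eqns_cite : True := by
  have := @AcV.eq_1
  have := @AcM.eq_1
  have := @AcPar.k0.eq_1
  have := @AcPar.Box.eq_1
  have := @AcPar.mem.eq_1
  have := @AcSlab.eq_1
  have := @AcEq.C1.eq_1
  have := @AcEq.Lraw.eq_1
  have := @AcEq.LS.eq_1
  have := @AcEq.thrQ.eq_1
  have := @AcEq.Left.eq_1
  have := @AcLin.Reg.eq_1
  have := @AcStr.C1.eq_1
  have := @AcStr.Lraw.eq_1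
  trivial

end Claimed.Agent.R256
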