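import Claimed.Agent.R256.Act.Exh
import Claimed.Agent.R256.Int.Defs

/-!
# Row 256, section Act, file 3: ENTRY OF Act = ROOTS (tangent production) + THE CONTRACT OF Int      (chief helper277)      DEFINITIONS ONLY

BACKWARD time `t = 1 - a` everywhere.  `H t v` = limiting normalised entropy of the canonical name `C(1-t, v)` of ONE template (04 l.196-200).
* `AcProd H quad av cr a p` : the root selection of 04B at the root `p = (t,v)`, answering the quantifier pattern of `ItExit` (Int/Defs):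
  `∀ τ ∃ κ0 ∀ pk acc σ ∃ C`, for arbitrarily small gaps `h` there is a root `r`, `|r - p| ≤ C h`, and a finite tangent datum `T : Tan` at `r` (scale `δ = s^h`), admissible FOR THE TRACES OF `p`, with the granted separation,
  whose child names cost AT MOST the time increment of `H` and whose width names cost AT LEAST the width increment of `H` (one sided, error `σ` in `h`-units).
* `AcRoot H quad av cr c d m N p` : `p` is a differentiability point of `H` and a root of regime `(c, d, m, ν)`, `N ν`.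
* `AcIntC` : Prop. int:actions (i)-(vi) as TEN statements `ItExit`   (= EXIT of Int, chief helper196).
* `acW`, `acE` : (canon) `E = H - D0 - (p+d) a - (3+η) v - (1-η) w`, `p + d = 1 + 3d - 2Γ`.
* `K.Acts` : the action fields of the packages of `Act/Pkg.lean` (+ those needed inside `OgData.Facts`);   `K.Prods` : the same regions with `AcRoot`;
  `K.Raw` = `Prods` + (`Acts → Ok`);   `AcRawSupply` = what secs. 4, 6.1-6.4 supply.   `Act/Bridge.lean` : `AcIntC → AcRawSupply → AcSupply`.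
-/

set_option autoImplicit false

namespace Claimed.Agent.R256

open MeasureTheory Filter Topology

/-- production of finite tangent data at roots `r` within `C h` of the point `p = (t,v)` (grid roots: Lay/Contract `lay_select`) -/
def AcProd (H : ℝ → ℝ → ℝ) (quad av cr : Bool) (a : ItPar) (p : ℝ × ℝ) : Prop :=
  ∀ τ : ℝ, 0 < τ → ∃ κ0 : ℝ, 0 < κ0 ∧ ∀ (pk : ItPk) (acc : ℝ), pk.Ok → 0 < acc → ∀ σ : ℝ, 0 < σ →
    ∃ C : ℝ, ∃ᶠ h in 𝓝[>] (0 : ℝ), ∃ (r : ℝ × ℝ) (T : Tan), |r.1 - p.1| ≤ C * h ∧ |r.2 - p.2| ≤ C * h ∧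
      T.quad = quad ∧ T.Adm a pk τ κ0 acc ∧
      (av = true → T.Avoid a pk acc) ∧ (cr = true → T.Cross pk acc) ∧
      ∀ l ∈ pk.Lam,
        T.P.entC (T.O l) T.Cs ≤ ((H (r.1 - l * h) r.2 - H r.1 r.2) / h + σ) * T.L ∧
        ((H r.1 (r.2 + l * h) - H r.1 r.2) / h - σ) * T.L ≤ T.P.entC (T.Wd l) T.Cs

/-- a root of regime `(c, d, m, ν)` with `N ν` -/
def AcRoot (H : ℝ → ℝ → ℝ) (quad av cr : Bool) (c d m : ℝ) (N : ℝ → Prop) (p : ℝ × ℝ) : Prop :=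
  DifferentiableAt ℝ (fun q : ℝ × ℝ => H q.1 q.2) p ∧
    ∃ a : ItPar, a.Ok ∧ a.c = c ∧ a.d = d ∧ a.m = m ∧ N a.ν ∧ AcProd H quad av cr a p

/-- **CONTRACT OF Int** : Prop. int:actions -/
structure AcIntC : Prop where
  /-- (i), `c < 1` -/
  qf_lo : ∀ a : ItPar, a.Ok → a.c < 1 → 0 < a.m → (1 - a.d) / (1 + a.c) ≤ a.m → ItExit true true false a 0
  /-- (i), `c ≥ 1` -/
  qf_hi : ∀ a : ItPar, a.Ok → 1 ≤ a.c → 0 < a.m → (1 - a.d) / 2 ≤ a.m → ItExit true true false a 0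
  /-- (ii) -/
  qm : ∀ a : ItPar, a.Ok → 1 ≤ a.c → 0 < a.m → ItExit true true false a ((a.c + 1) / 4)
  /-- (iii) -/
  qh : ∀ a : ItPar, a.Ok → a.c = 1 → a.d ≤ 1 / 4 → ItExit true false false a (1 / 2)
  /-- (iv) -/
  lf : ∀ a : ItPar, a.Ok → 0 < a.m → 1 - a.d ≤ a.m → ItExit false false true a 0
  /-- (iv), `c < 1` -/
  lf_lo : ∀ a : ItPar, a.Ok → a.c < 1 → 0 < a.m → 1 - a.d - a.c * a.ν ≤ a.m → ItExit false false true a 0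
  /-- (v), `c ≥ 1` -/
  lm_hi : ∀ a : ItPar, a.Ok → 1 ≤ a.c → 0 < a.m → a.m ≤ 1 - a.d → ItExit false false true a ((1 + a.c) / 2)
  /-- (v), `c < 1` -/
  lm_lo : ∀ a : ItPar, a.Ok → a.c < 1 → 0 < a.m → (1 - a.d) / (1 + a.c) ≤ a.m → a.m ≤ 1 - a.d →
    ItExit false false true a a.c
  /-- (vi), `m > 0` -/
  l1 : ∀ a : ItPar, a.Ok → 2 * a.d ≤ a.c → a.c < 1 → 0 < a.m → ItExit false false true a 1
  /-- (vi), `m = 0` -/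
  l1z : ∀ a : ItPar, a.Ok → 2 * a.d ≤ a.c → a.c < 1 → a.m = 0 → ItExit false false false a 1

/-- (canon): the excess of the profile `H` for the normal depth `w` -/
def acE (P : AcPar) (D0 : ℝ) (H w : ℝ → ℝ → ℝ) (t v : ℝ) : ℝ :=
  H t v - D0 - (1 + 3 * P.d - 2 * P.Γ) * (1 - t) - ((3 + P.η) * v + (1 - P.η) * w t v)

/-! ## equality curvature -/

namespace AcEq

variable (K : AcEq)

/-- a strong interval -/
def IsStrong (t0 t1 σ : ℝ) : Prop :=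
  0 < t0 ∧ t0 < t1 ∧ t1 < 1 ∧ 0 < σ ∧ ∀ t, t0 < t → t < t1 → -(K.C1 * t) + σ ≤ K.pst t

/-- a weak interval -/
def IsWeak (t0 t1 : ℝ) : Prop :=
  0 < t0 ∧ t0 < t1 ∧ t1 < 1 ∧ ∀ t, t0 < t → t < t1 → K.pst t = -(K.C1 * t)

/-- the two sided strip around the seam -/
def Strip (t0 t1 wd : ℝ) (p : ℝ × ℝ) : Prop :=
  t0 < p.1 ∧ p.1 < t1 ∧ |p.2 - K.J * p.1| < wd ∧ 0 < p.2

/-- the right strip -/
def RStrip (t0 t1 wd : ℝ) (p : ℝ × ℝ) : Prop :=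
  t0 < p.1 ∧ p.1 < t1 ∧ K.J * p.1 < p.2 ∧ p.2 < K.J * p.1 + wd

/-- the actions -/
structure Acts : Prop where
  left_freeze : ∀ᵐ p : ℝ × ℝ, K.Left p.1 p.2 → 0 < K.mQ p.1 p.2 → K.thrQ ≤ K.mQ p.1 p.2 →
    AcV K.EQ (2 * K.Γ) p
  left_move : 1 < K.c → ∀ᵐ p : ℝ × ℝ, K.Left p.1 p.2 → 0 < K.mQ p.1 p.2 →
    AcM K.EQ ((K.c + 1) / 4) (2 * K.Γ) p
  strong : ¬ K.hyb → 0 < K.C1 → (K.c = 1 → K.J = 0) → ∀ t0 t1 σ, K.IsStrong t0 t1 σ → ∃ wd : ℝ, 0 < wd ∧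
    (∀ᵐ p : ℝ × ℝ, K.Strip t0 t1 wd p → 0 < K.mQ p.1 p.2 → K.thrQ ≤ K.mQ p.1 p.2 → AcV K.EQ (2 * K.Γ) p) ∧
    (1 ≤ K.c → ∀ᵐ p : ℝ × ℝ, K.Strip t0 t1 wd p → 0 < K.mQ p.1 p.2 → AcM K.EQ ((K.c + 1) / 4) (2 * K.Γ) p)
  weak : ¬ K.hyb → 0 < K.C1 → ∀ t0 t1, K.IsWeak t0 t1 → ∃ wd : ℝ, 0 < wd ∧
    (∀ᵐ p : ℝ × ℝ, K.RStrip t0 t1 wd p → 0 < K.mC p.1 p.2 → K.k0 ≤ K.mC p.1 p.2 → AcV K.EC (2 * K.Γ) p) ∧
    (K.c ≤ 1 → K.C1 < 1 → ∀ᵐ p : ℝ × ℝ, K.RStrip t0 t1 wd p → 0 < K.mC p.1 p.2 →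
      K.k0 - K.C1 * K.ν p.1 ≤ K.mC p.1 p.2 → AcV K.EC (2 * K.Γ) p) ∧
    (1 ≤ K.C1 → ∀ᵐ p : ℝ × ℝ, K.RStrip t0 t1 wd p → 0 < K.mC p.1 p.2 → K.mC p.1 p.2 ≤ K.k0 →
      AcM K.EC ((1 + K.C1) / 2) (2 * K.Γ) p)

/-- the roots -/
structure Prods (HQ HC : ℝ → ℝ → ℝ) (D0 : ℝ) : Prop where
  η_nn : 0 ≤ K.η
  linkQ : K.EQ = acE K.toAcPar D0 HQ (fun t v => -(K.c * t) + 2 * v)
  linkC : K.EC = acE K.toAcPar D0 HC (fun t v => min (-(K.c * t) + v) (-(K.C1 * t)) + v)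
  left : ∀ᵐ p : ℝ × ℝ, K.Left p.1 p.2 → 0 < K.mQ p.1 p.2 →
    AcRoot HQ true true false K.c K.d (K.mQ p.1 p.2) (fun _ => True) p
  strong : ¬ K.hyb → 0 < K.C1 → (K.c = 1 → K.J = 0) → ∀ t0 t1 σ, K.IsStrong t0 t1 σ → ∃ wd : ℝ, 0 < wd ∧
    ∀ᵐ p : ℝ × ℝ, K.Strip t0 t1 wd p → 0 < K.mQ p.1 p.2 →
      AcRoot HQ true true false K.c K.d (K.mQ p.1 p.2) (fun _ => True) p
  /-- `ν` = raw final derivative trace only for `Q = c ≤ 1`, `0 < C₁ < 1` (04 l.689-693); for `c > 1` the supplier puts `K.ν = 0` -/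
  weak : ¬ K.hyb → 0 < K.C1 → ∀ t0 t1, K.IsWeak t0 t1 → ∃ wd : ℝ, 0 < wd ∧
    ∀ᵐ p : ℝ × ℝ, K.RStrip t0 t1 wd p → 0 < K.mC p.1 p.2 →
      AcRoot HC false false true K.C1 K.d (K.mC p.1 p.2) (fun x => K.c ≤ 1 → K.C1 < 1 → x = K.ν p.1) p

/-- what secs. 4, 6.1-6.4 supply for an equality configuration -/
structure Raw : Prop where
  prods : ∃ (HQ HC : ℝ → ℝ → ℝ) (D0 : ℝ), K.Prods HQ HC D0
  rest : K.Acts → K.Ok

end AcEq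

/-! ## pure linear cost -/

namespace AcLin

variable (K : AcLin)

structure Acts : Prop where
  freeze : ∀ᵐ p : ℝ × ℝ, K.Reg p.1 p.2 → 0 < K.mL p.1 p.2 → K.k0 ≤ K.mL p.1 p.2 →
    AcV K.EL (2 * K.Γ) p
  freeze_low : ¬ K.hyb → K.c < 1 → ∀ᵐ p : ℝ × ℝ, K.Reg p.1 p.2 → 0 < K.mL p.1 p.2 →
    K.k0 - K.c * K.ν p.1 ≤ K.mL p.1 p.2 → AcV K.EL (2 * K.Γ) p
  move_hi : 1 ≤ K.c → ∀ᵐ p : ℝ × ℝ, K.Reg p.1 p.2 → 0 < K.mL p.1 p.2 → K.mL p.1 p.2 ≤ K.k0 →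
    AcM K.EL ((1 + K.c) / 2) (2 * K.Γ) p
  move_lo : K.c < 1 → ∀ᵐ p : ℝ × ℝ, K.Reg p.1 p.2 → 0 < K.mL p.1 p.2 →
    K.k0 / (1 + K.c) ≤ K.mL p.1 p.2 → K.mL p.1 p.2 ≤ K.k0 → AcM K.EL K.c (2 * K.Γ) p

structure Prods (HL : ℝ → ℝ → ℝ) (D0 : ℝ) : Prop where
  η_nn : 0 ≤ K.η
  link : K.EL = acE K.toAcPar D0 HL (fun t v => -(K.c * t) + v)
  /-- the mixed trace `ν` is only tied to the root in the classical case `c < 1` -/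
  root : ∀ᵐ p : ℝ × ℝ, K.Reg p.1 p.2 → 0 < K.mL p.1 p.2 →
    AcRoot HL false false true K.c K.d (K.mL p.1 p.2) (fun x => ¬ K.hyb → K.c < 1 → x = K.ν p.1) p

structure Raw : Prop where
  prods : ∃ (HL : ℝ → ℝ → ℝ) (D0 : ℝ), K.Prods HL D0
  rest : K.Acts → K.Ok

end AcLin

/-! ## strict curvature -/

namespace AcStr

variable (K : AcStr)

structure Acts : Prop where
  move_half : 0 < K.C1 → K.d ≤ 1 / 4 → ∀ᵐ p : ℝ × ℝ, 0 < p.1 → p.1 < 1 → 0 < p.2 → p.2 < K.Vm →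
    p.2 < (1 - K.C1) * p.1 → 2 * p.2 < p.1 → AcM K.EA (1 / 2) (2 * K.Γ) p
  move_one : ¬ K.hyb → 0 < K.C1 → (∀ t, 0 < t → t < 1 → K.pst t = -(K.C1 * t)) → 2 * K.d ≤ K.C1 →
    K.C1 < 1 → ∀ᵐ p : ℝ × ℝ, 0 < p.1 → p.1 < 1 → (1 - K.C1) * p.1 < p.2 → p.2 < K.Vm →
    AcM K.EK 1 (2 * K.Γ) p

structure Prods (HA HK : ℝ → ℝ → ℝ) (D0 : ℝ) : Prop where
  η_nn : 0 ≤ K.η
  linkA : K.EA = acE K.toAcPar D0 HA (fun t v => -t + 2 * v)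
  linkK : K.EK = acE K.toAcPar D0 HK (fun t v => min (-t + v) (-(K.C1 * t)) + v)
  half : 0 < K.C1 → K.d ≤ 1 / 4 → ∀ᵐ p : ℝ × ℝ, 0 < p.1 → p.1 < 1 → 0 < p.2 → p.2 < K.Vm →
    p.2 < (1 - K.C1) * p.1 → 2 * p.2 < p.1 →
    ∃ m : ℝ, AcRoot HA true false false 1 K.d m (fun _ => True) p
  one : ¬ K.hyb → 0 < K.C1 → (∀ t, 0 < t → t < 1 → K.pst t = -(K.C1 * t)) → 2 * K.d ≤ K.C1 →
    K.C1 < 1 → ∀ᵐ p : ℝ × ℝ, 0 < p.1 → p.1 < 1 → (1 - K.C1) * p.1 < p.2 → p.2 < K.Vm →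
    (∃ m : ℝ, 0 < m ∧ AcRoot HK false false true K.C1 K.d m (fun _ => True) p) ∨
      AcRoot HK false false false K.C1 K.d 0 (fun _ => True) p

structure Raw : Prop where
  prods : ∃ (HA HK : ℝ → ℝ → ℝ) (D0 : ℝ), K.Prods HA HK D0
  rest : K.Acts → K.Ok

end AcStr

/-- what secs. 4, 6.1-6.4 supply from an affine positive-cost configuration -/
def AcRawSupply (η Γ : ℝ) (hyb : Prop) : Prop :=
  (∃ K : AcEq, K.Raw ∧ K.η = η ∧ K.Γ = Γ ∧ (K.hyb ↔ hyb)) ∨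
  (∃ K : AcLin, K.Raw ∧ K.η = η ∧ K.Γ = Γ ∧ (K.hyb ↔ hyb)) ∨
  (∃ K : AcStr, K.Raw ∧ K.η = η ∧ K.Γ = Γ ∧ (K.hyb ↔ hyb))

theorem ac_raw_eqns_cite : True := by
  have := @AcProd.eq_1
  have := @AcRoot.eq_1
  have := @acE.eq_1
  have := @AcEq.IsStrong.eq_1
  have := @AcEq.IsWeak.eq_1
  have := @AcEq.Strip.eq_1
  have := @AcEq.RStrip.eq_1
  have := @AcRawSupply.eq_1
  trivial

end Claimed.Agent.R256
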