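import Claimed.Agent.R256.Act.Raw

/-!
# Row 256, section Act, file 6: THE NON-ACTION FIELDS OF THE PACKAGES, SORTED BY SUPPLIER      (chief helper277)      definitions + proved glue

`K.RNm` [Nm: names:refinement, names:canonical-entropy, names:memory (left), definition of `p_*`, names:mixed-trace],   `K.RSlab` [Nm (mr) + Act GEO act:slab-trace],
`K.ROg` [Act FS + GEO + OGS: `OgData.Facts`, may use the actions],   `K.RBd` [Act BD: Prop. act:strict-boundary].      `ok_of_rest` : these + `K.Acts` give `K.Ok`.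
-/

set_option autoImplicit false

namespace Claimed.Agent.R256

open MeasureTheory Filter Topology

namespace AcEq

variable (K : AcEq)

structure RNm : Prop where
  par : K.toAcPar.Ok
  c_pos : 0 < K.c
  pl : K.hyb → K.J = (K.c + 1 / 2) / 2
  baseQ : AcBase K.toAcPar K.EQ (fun t v => K.hyb → 2 * v ≤ K.c * t)
  left_mem : ∀ᵐ p : ℝ × ℝ, K.Left p.1 p.2 → K.mem K.Lraw ≤ K.mQ p.1 p.2
  baseC : ¬ K.hyb → 0 < K.C1 → AcBase K.toAcPar K.EC (fun _ _ => True)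
  seamQ : ¬ K.hyb → 0 < K.C1 → ∀ t, 0 < t → t < 1 → K.EQ t (K.J * t) = 0
  seamC : ¬ K.hyb → 0 < K.C1 → ∀ t, 0 < t → t < 1 → K.EC t (K.J * t) = 0
  pst_anti : ¬ K.hyb → 0 < K.C1 → ∀ t t', 0 < t → t ≤ t' → t' < 1 → K.pst t' ≤ K.pst t
  pst_ge : ¬ K.hyb → 0 < K.C1 → ∀ t, 0 < t → t < 1 → -(K.C1 * t) ≤ K.pst t
  ν_meas : Measurable K.ν
  ν_bd : ∀ t, 0 ≤ K.ν t ∧ K.ν t ≤ 1
  ν_zero : 1 < K.c → ∀ t, K.ν t = 0

structure RSlab : Prop where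
  strong : ¬ K.hyb → 0 < K.C1 → (K.c = 1 → K.J = 0) → ∀ t0 t1 σ, K.IsStrong t0 t1 σ →
    ∀ᵐ tj : ℝ, t0 < tj → tj < t1 → AcSlab K.mQ tj (K.J * tj) (K.mem K.LS)
  weak : ¬ K.hyb → 0 < K.C1 → ∀ t0 t1, K.IsWeak t0 t1 → K.c ≤ 1 → K.C1 < 1 →
    ∀ᵐ tj : ℝ, t0 < tj → tj < t1 →
      AcSlab K.mC tj (K.J * tj) (max (K.mem K.Lraw) (K.k0 + 2 * K.Γ - K.C1 * K.ν tj))

structure ROg : Prop where
  strong : K.Acts → ¬ K.hyb → 0 < K.C1 → ∀ t0 t1 σ, K.IsStrong t0 t1 σ → 3 < K.c →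
    ∃ D : OgData, D.Facts ∧ D.Γ = K.Γ ∧ D.J = K.J ∧ D.kp = (K.c + 1) / 4 ∧
      D.kmin = K.c / 2 ∧ D.kmax = (K.c + 1) / 2
  weak : K.Acts → ¬ K.hyb → 0 < K.C1 → ∀ t0 t1, K.IsWeak t0 t1 → 1 ≤ K.C1 →
    ∃ D : OgData, D.Facts ∧ D.Γ = K.Γ ∧ D.J = K.J ∧ D.kp = (1 + K.C1) / 2 ∧
      D.kmin = K.C1 ∧ D.kmax = K.C1 + 1

theorem ok_of_rest (h1 : K.RNm) (h2 : K.RSlab) (h3 : K.ROg) (hA : K.Acts) : K.Ok where
  par := h1.par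
  c_pos := h1.c_pos
  pl := h1.pl
  baseQ := h1.baseQ
  left_mem := h1.left_mem
  left_freeze := hA.left_freeze
  left_move := hA.left_move
  baseC := h1.baseC
  seamQ := h1.seamQ
  seamC := h1.seamC
  pst_anti := h1.pst_anti
  pst_ge := h1.pst_ge
  strong := by
    intro hh hC hcJ t0 t1 σ a0 a1 a2 a3 a4
    have hS : K.IsStrong t0 t1 σ := ⟨a0, a1, a2, a3, a4⟩
    refine ⟨?_, h2.strong hh hC hcJ t0 t1 σ hS, fun hc => h3.strong hA hh hC t0 t1 σ hS hc⟩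
    obtain ⟨wd, hwd, hf, -⟩ := hA.strong hh hC hcJ t0 t1 σ hS
    refine ⟨wd, hwd, ?_⟩
    filter_upwards [hf] with p hp b1 b2 b3 b4
    exact hp ⟨b1, b2, b3, b4⟩
  weak := by
    intro hh hC t0 t1 a0 a1 a2 a3
    have hW : K.IsWeak t0 t1 := ⟨a0, a1, a2, a3⟩
    refine ⟨h1.ν_meas, h1.ν_bd, ?_, fun hc hC1 => h2.weak hh hC t0 t1 hW hc hC1,
      fun hC1 => h3.weak hA hh hC t0 t1 hW hC1⟩
    intro hC1
    obtain ⟨wd, hwd, hf, hfl, -⟩ := hA.weak hh hC t0 t1 hW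
    refine ⟨wd, hwd, ?_⟩
    rcases le_or_gt K.c 1 with hc | hc
    · filter_upwards [hfl hc hC1] with p hp b1 b2 b3 b4
      exact hp ⟨b1, b2, b3, b4⟩
    · filter_upwards [hf] with p hp b1 b2 b3 b4 b5 b6
      refine hp ⟨b1, b2, b3, b4⟩ b5 ?_
      rw [h1.ν_zero hc] at b6
      linarith

end AcEq

namespace AcLin

variable (K : AcLin)

structure RNm : Prop where
  par : K.toAcPar.Ok
  c_pos : 0 < K.c
  pl : K.hyb → K.J = K.c + 1 / 2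
  base : AcBase K.toAcPar K.EL (fun t v => K.hyb → v ≤ K.c * t)
  m_mono : ∀ t v t', K.Reg t v → t ≤ t' → t' < 1 → K.mL t v ≤ K.mL t' v
  left_mem : ∀ᵐ p : ℝ × ℝ, K.Reg p.1 p.2 → p.2 < K.J * p.1 → K.mem (1 + K.c) ≤ K.mL p.1 p.2
  seam : ¬ K.hyb → ∀ t, 0 < t → t < 1 → K.EL t (K.J * t) = 0
  ν_meas : Measurable K.ν
  ν_bd : ∀ t, 0 ≤ K.ν t ∧ K.ν t ≤ 1

structure RSlab : Prop where
  slab : ¬ K.hyb → K.c < 1 → ∀ᵐ tj : ℝ, 0 < tj → tj < 1 →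
    AcSlab K.mL tj (K.J * tj) (max (K.mem (1 + K.c)) (K.k0 + 2 * K.Γ - K.c * K.ν tj))

structure ROg : Prop where
  og : K.Acts → ¬ K.hyb → 1 ≤ K.c → K.J < (1 + K.c) / 2 → ∃ D : OgData, D.Facts ∧ D.Γ = K.Γ ∧
    D.J = K.J ∧ D.kp = (1 + K.c) / 2 ∧ D.kmin = K.c ∧ D.kmax = K.c + 1

theorem ok_of_rest (h1 : K.RNm) (h2 : K.RSlab) (h3 : K.ROg) (hA : K.Acts) : K.Ok where
  par := h1.par
  c_pos := h1.c_pos
  pl := h1.pl
  base := h1.base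
  m_mono := h1.m_mono
  left_mem := h1.left_mem
  freeze := hA.freeze
  freeze_low := hA.freeze_low
  move_hi := hA.move_hi
  move_lo := hA.move_lo
  seam := h1.seam
  ν_meas := h1.ν_meas
  ν_bd := h1.ν_bd
  slab := h2.slab
  og := h3.og hA

end AcLin

namespace AcStr

variable (K : AcStr)

structure RNm : Prop where
  par : K.toAcPar.Ok
  q_lt : K.q < 1
  pl : K.hyb → K.J = (K.q + 1 / 2) / 2
  baseA : AcBase K.toAcPar K.EA (fun t v => K.hyb → 2 * v ≤ t)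
  pst_anti : ¬ K.hyb → 0 < K.C1 → ∀ t t', 0 < t → t ≤ t' → t' < 1 → K.pst t' ≤ K.pst t
  pst_ge : ¬ K.hyb → 0 < K.C1 → ∀ t, 0 < t → t < 1 → -(K.C1 * t) ≤ K.pst t
  baseK : ¬ K.hyb → 0 < K.C1 → AcBase K.toAcPar K.EK (fun _ _ => True)

structure RBd : Prop where
  bdry : 0 < K.mem K.Lraw → 1 - 2 * K.d ≤ K.mem K.Lraw →
    ∀ᵐ t : ℝ, 0 < t → t < 1 → OgDiniLe (fun s => K.EA s 0) t (-(2 * K.Γ))
  strong : ¬ K.hyb → 0 < K.C1 → ∀ t0 t1 σ, 0 < t0 → t0 < t1 → t1 < 1 → 0 < σ →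
    (∀ t, t0 < t → t < t1 → -(K.C1 * t) + σ ≤ K.pst t) →
    0 < K.k0 + 2 * K.Γ → 1 - 2 * K.d ≤ K.k0 + 2 * K.Γ →
    ∃ (φ : ℝ → ℝ) (tD ρ M : ℝ), 0 < ρ ∧ 0 ≤ M ∧
      (∀ x ∈ Set.Icc tD (tD + ρ), ∀ y ∈ Set.Icc tD (tD + ρ), |φ x - φ y| ≤ M * |x - y|) ∧
      φ tD = 0 ∧ 0 ≤ φ (tD + ρ) ∧
      ∀ᵐ x : ℝ, x ∈ Set.Ioo tD (tD + ρ) → OgDiniLe φ x (-(2 * K.Γ))

theorem ok_of_rest (h1 : K.RNm) (h2 : K.RBd) (hA : K.Acts) : K.Ok where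
  par := h1.par
  q_lt := h1.q_lt
  pl := h1.pl
  baseA := h1.baseA
  bdry := h2.bdry
  move_half := hA.move_half
  pst_anti := h1.pst_anti
  pst_ge := h1.pst_ge
  strong := h2.strong
  baseK := h1.baseK
  move_one := hA.move_one

end AcStr

end Claimed.Agent.R256
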